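import Crest.Agent.R225U.Defs

/-!
Row 225 (S0347): Bonferroni bound for random linear functionals.
-/

set_option autoImplicit false

open Finset
open Crest.Agent.R153

namespace Crest.Agent.R225U

section aux

variable {F ι : Type} [Field F] [Fintype F] [Fintype ι] [DecidableEq ι]

/-- An independent set is annihilated by a random functional with probability `q ^ (-#I)`. -/
lemma bonf_av_one (I : Finset (ι → F)) (hI : LinearIndepOn F id (I : Set (ι → F))) :
    av (fun l : ι → F => ind (∀ v ∈ I, l ⬝ᵥ v = 0)) = ((Fintype.card F : ℝ)⁻¹) ^ I.card := by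
  classical
  induction I using Finset.induction_on with
  | empty => simp [ind_pos]
  | insert x I hx ih =>
    rw [Finset.coe_insert, linearIndepOn_id_insert (by simpa using hx)] at hI
    obtain ⟨g, hg1, hg2⟩ := LinearMap.exists_extend_of_notMem
      (0 : Submodule.span F (I : Set (ι → F)) →ₗ[F] F) hI.2 1
    obtain ⟨l₀, rfl⟩ := (dotProductEquiv F ι).surjective g
    have h1 : l₀ ⬝ᵥ x = 1 := hg2
    have h0 : ∀ v ∈ I, l₀ ⬝ᵥ v = 0 := fun v hv =>
      LinearMap.congr_fun hg1 ⟨v, Submodule.subset_span hv⟩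
    have hc : ∀ c : F, av (fun l : ι → F => ind (∀ v ∈ insert x I, l ⬝ᵥ v = 0)) =
        av (fun l : ι → F => ind (l ⬝ᵥ x + c = 0) * ind (∀ v ∈ I, l ⬝ᵥ v = 0)) := by
      intro c
      rw [← av_equiv (Equiv.addRight (c • l₀))]
      refine av_congr fun l => ?_
      rw [← ind_and]
      refine ind_congr ?_
      rw [Finset.forall_mem_insert, Equiv.coe_addRight]
      simp only [add_dotProduct, smul_dotProduct, h1, smul_eq_mul, mul_one]
      refine and_congr_right fun _ => forall₂_congr fun v hv => ?_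
      rw [h0 v hv, mul_zero, add_zero]
    have h2 : ∀ a : F, av (fun c : F => ind (a + c = 0)) = (Fintype.card F : ℝ)⁻¹ := by
      intro a
      unfold av
      rw [Finset.sum_eq_single (-a) (fun c _ hc => ind_neg fun h => hc (by
        rw [eq_neg_iff_add_eq_zero, add_comm, h])) (by simp), ind_pos (by simp), one_div]
    rw [← av_const (α := F) (av fun l : ι → F => ind (∀ v ∈ insert x I, l ⬝ᵥ v = 0)),
      av_congr hc, av_comm]
    simp only [av_mul_const, h2]
    rw [av_const_mul, ih hI.1, Finset.card_insert_of_notMem hx, pow_succ']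

lemma bonf_av (μ : ℕ) (I : Finset (ι → F)) (hI : LinearIndepOn F id (I : Set (ι → F))) :
    av (fun L : Fin μ → ι → F => ind (∀ v ∈ I, ∀ s, L s ⬝ᵥ v = 0))
      = (((Fintype.card F : ℝ) ^ μ)⁻¹) ^ I.card := by
  have h1 : ∀ L : Fin μ → ι → F,
      ind (∀ v ∈ I, ∀ s, L s ⬝ᵥ v = 0) = ∏ s, ind (∀ v ∈ I, L s ⬝ᵥ v = 0) := by
    intro L
    rw [← ind_forall]
    exact ind_congr ⟨fun h s v hv => h v hv s, fun h v hv s => h s v hv⟩
  rw [av_congr h1, av_pi_prod (fun (_ : Fin μ) (l : ι → F) => ind (∀ v ∈ I, l ⬝ᵥ v = 0))]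
  simp only [bonf_av_one I hI, Finset.prod_const, Finset.card_univ, Fintype.card_fin]
  rw [← inv_pow, ← pow_mul, ← pow_mul, mul_comm]

/-- The number of further points of `S` in the span of `I`. -/
noncomputable def bonfD (S I : Finset (ι → F)) : ℝ :=
  ∑ v ∈ S, ind (v ∈ Submodule.span F (I : Set (ι → F)) ∧ v ∉ I)

omit [Fintype F] [Fintype ι] [DecidableEq ι] in
lemma bonfD_nonneg (S I : Finset (ι → F)) : 0 ≤ bonfD S I :=
  Finset.sum_nonneg fun _ _ => ind_nonneg _

/-- The coefficient of `I` in the pointwise bound. -/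
noncomputable def bonfA (S : Finset (ι → F)) (r : ℕ) (I : Finset (ι → F)) : ℝ :=
  ind (I.card ≤ r ∧ LinearIndepOn F id (I : Set (ι → F))) * ((-1) ^ I.card + bonfD S I)

omit [Fintype F] [Fintype ι] [DecidableEq ι] in
lemma bonf_point (S H : Finset (ι → F)) (hH : H ⊆ S) {r : ℕ} (hr : Even r) :
    ind (H = ∅) ≤ ∑ I ∈ H.powerset, bonfA S r I := by
  classical
  rcases H.eq_empty_or_nonempty with rfl | ⟨x, hx⟩
  · have := bonfD_nonneg S (∅ : Finset (ι → F))
    rw [ind_pos rfl, Finset.powerset_empty, Finset.sum_singleton, bonfA, ind_pos (by simp)]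
    simpa using this
  rw [ind_neg (Finset.ne_empty_of_mem hx), ← Finset.insert_erase hx,
    Finset.sum_powerset_insert (Finset.notMem_erase x H), ← Finset.sum_add_distrib]
  refine Finset.sum_nonneg fun I hI => ?_
  have hxI : x ∉ I := fun h => Finset.notMem_erase x H (Finset.mem_powerset.1 hI h)
  have d1 := bonfD_nonneg S I
  have d2 := bonfD_nonneg S (insert x I)
  unfold bonfA
  rw [Finset.card_insert_of_notMem hxI, Finset.coe_insert,
    linearIndepOn_id_insert (by simpa using hxI)]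
  by_cases h1 : I.card ≤ r ∧ LinearIndepOn F id (I : Set (ι → F))
  · rw [ind_pos h1]
    by_cases h2 : I.card + 1 ≤ r ∧ LinearIndepOn F id (I : Set (ι → F)) ∧
        x ∉ Submodule.span F (I : Set (ι → F))
    · rw [ind_pos h2, pow_succ]
      linarith
    · rw [ind_neg h2, zero_mul, add_zero, one_mul]
      by_cases h3 : I.card = r
      · rw [h3, hr.neg_one_pow]
        linarith
      · have h4 : x ∈ Submodule.span F (I : Set (ι → F)) := by
          by_contra h4
          exact h2 ⟨by omega, h1.2, h4⟩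
        have h5 : (1 : ℝ) ≤ bonfD S I := by
          rw [← ind_pos (p := x ∈ Submodule.span F (I : Set (ι → F)) ∧ x ∉ I) ⟨h4, hxI⟩]
          exact Finset.single_le_sum
            (f := fun v => ind (v ∈ Submodule.span F (I : Set (ι → F)) ∧ v ∉ I))
            (fun _ _ => ind_nonneg _) (hH hx)
        rcases neg_one_pow_eq_or ℝ I.card with h | h <;> rw [h] <;> linarith
  · rw [ind_neg h1, ind_neg (fun h => h1 ⟨by omega, h.2.1⟩)]
    simp

omit [DecidableEq ι] in
lemma bonf_sum_D (S : Finset (ι → F)) (j : ℕ) :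
    ∑ I ∈ S.powersetCard j, bonfD S I ≤ (depSet S j).ncard := by
  classical
  have h1 : ∑ I ∈ S.powersetCard j, bonfD S I =
      (((S.powersetCard j ×ˢ S).filter fun p =>
        p.2 ∈ Submodule.span F (p.1 : Set (ι → F)) ∧ p.2 ∉ p.1).card : ℝ) := by
    rw [Finset.card_filter, Finset.sum_product]
    push_cast
    simp only [bonfD, ind_eq_ite]
  rw [h1, ← Set.ncard_coe_finset]
  refine Nat.cast_le.2 (le_trans (Set.ncard_le_ncard ?_ (Set.toFinite _))
    (Set.ncard_image_le (f := fun q : (Fin j → ι → F) × (ι → F) =>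
      (Finset.univ.image q.1, q.2)) (Set.toFinite _)))
  rintro ⟨I, v⟩ hp
  simp only [Finset.coe_filter, Finset.mem_product, Finset.mem_powersetCard,
    Set.mem_ofPred_eq] at hp
  obtain ⟨⟨⟨hIS, hIj⟩, hv⟩, hv1, hv2⟩ := hp
  let e : Fin j ≃ I := (Finset.equivFinOfCardEq hIj).symm
  have hr : Set.range (fun l => (e l : ι → F)) = (I : Set (ι → F)) := by
    ext y
    constructor
    · rintro ⟨l, rfl⟩; exact (e l).2
    · intro hy; exact ⟨e.symm ⟨y, hy⟩, by simp⟩
  refine ⟨(fun l => (e l : ι → F), v), ⟨fun l => hIS (e l).2, hv, ?_, ?_⟩, ?_⟩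
  · simpa only [hr] using hv1
  · simpa only [hr, Finset.mem_coe] using hv2
  · refine Prod.ext ?_ rfl
    apply Finset.coe_injective
    rw [← hr]
    simp

omit [Fintype F] [Fintype ι] [DecidableEq ι] in
lemma bonf_sum_dep (S : Finset (ι → F)) (j : ℕ) :
    ∑ J ∈ S.powersetCard (j + 1), ind (¬ LinearIndepOn F id (J : Set (ι → F)))
      ≤ ∑ I ∈ S.powersetCard j, bonfD S I := by
  classical
  have h1 : ∑ I ∈ S.powersetCard j, bonfD S I =
      (((S.powersetCard j ×ˢ S).filter fun p =>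
        p.2 ∈ Submodule.span F (p.1 : Set (ι → F)) ∧ p.2 ∉ p.1).card : ℝ) := by
    rw [Finset.card_filter, Finset.sum_product]
    push_cast
    simp only [bonfD, ind_eq_ite]
  have h2 : ∑ J ∈ S.powersetCard (j + 1), ind (¬ LinearIndepOn F id (J : Set (ι → F))) =
      (((S.powersetCard (j + 1)).filter fun J : Finset (ι → F) =>
        ¬ LinearIndepOn F id (J : Set (ι → F))).card : ℝ) := by
    rw [Finset.card_filter]
    push_cast
    simp only [ind_eq_ite]
  rw [h1, h2]
  refine Nat.cast_le.2 (Finset.card_le_card_of_surjOn (fun p => insert p.2 p.1) ?_)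
  intro J hJ
  simp only [Finset.coe_filter, Finset.mem_powersetCard, Set.mem_ofPred_eq,
    linearIndepOn_iff_notMem_span, not_forall, not_not] at hJ
  obtain ⟨⟨hJS, hJc⟩, v, hv, hv'⟩ := hJ
  have hv2 : v ∈ J := hv
  refine ⟨(J.erase v, v), ?_, Finset.insert_erase hv2⟩
  simp only [Finset.coe_filter, Finset.mem_product, Finset.mem_powersetCard, Set.mem_ofPred_eq]
  refine ⟨⟨⟨(Finset.erase_subset _ _).trans hJS, ?_⟩, hJS hv2⟩, ?_, Finset.notMem_erase _ _⟩
  · rw [Finset.card_erase_of_mem hv2, hJc]; rfl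
  · simpa using hv'

lemma bonf_sum_card {α : Type*} (S : Finset α) (r : ℕ) (f : Finset α → ℝ) :
    ∑ I ∈ S.powerset, ind (I.card ≤ r) * f I
      = ∑ j ∈ Finset.range (r + 1), ∑ I ∈ S.powersetCard j, f I := by
  simp only [Finset.powersetCard_eq_filter, Finset.sum_filter]
  rw [Finset.sum_comm]
  refine Finset.sum_congr rfl fun I _ => ?_
  rw [Finset.sum_ite_eq, ind_eq_ite]
  simp

lemma bonf_sum_pow {α : Type*} (S : Finset α) (x : ℝ) :
    ∑ I ∈ S.powerset, x ^ I.card = (1 + x) ^ S.card := by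
  have := Finset.prod_one_add (f := fun _ : α => x) S
  simpa using this.symm

end aux

/-- Let `hits L = {v ∈ S | ∀ s, L s ⬝ᵥ v = 0}`, `ρ = (card F)^{-μ}`.  Pointwise
`ind (hits = ∅) ≤ ∑_{j ≤ r} (-1)^j N_j + ∑_{j ≤ r} D_j`, `N_j` = number of linearly independent
`j`-subsets of `hits`, `D_j` = number of pairs `(I, v)`, `I` independent `j`-subset of `hits`,
`v ∈ S ∩ span I \ I` (fix `x₀ ∈ hits` and match `I` with `insert x₀ I` when `x₀ ∉ span I`; `r` even).
An independent `j`-set is hit with probability exactly `ρ^j`.  With `d_j ≤ (card F)^j τ (#S)^j`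
(`hdep`, enumerate `I`), the number of dependent `j`-subsets of `S` is at most
`∑_{i<j} d_i (#S)^(j-1-i)` (maximal independent subset, one further point, the rest), and
`∑_{j ≤ r} (-1)^j C(#S,j) ρ^j ≤ (1-ρ)^#S + 2^{-r} (1+2ρ)^#S`. -/
theorem bonf {F ι : Type} [Field F] [Fintype F] [Fintype ι] [DecidableEq ι] (μ : ℕ)
    (S : Finset (ι → F)) (r : ℕ) (hr : Even r) (τ w : ℝ) (hτ : 0 ≤ τ)
    (hw : w = (S.card : ℝ) / (Fintype.card F : ℝ) ^ μ)
    (hdep : ∀ j ≤ r, ((depSet S j).ncard : ℝ) ≤ (Fintype.card F : ℝ) ^ j * τ * (S.card : ℝ) ^ j) :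
    av (fun L : Fin μ → ι → F => ind (∀ v ∈ S, ∃ s, L s ⬝ᵥ v ≠ 0)) ≤
      Real.exp (-w) + Real.exp (2 * w) / 2 ^ r +
        2 * (r + 1) * τ * (Fintype.card F * max 1 w) ^ r := by
  classical
  set q : ℝ := (Fintype.card F : ℝ) with hq
  have hq1 : 1 ≤ q := by rw [hq]; exact_mod_cast Fintype.card_pos
  set ρ : ℝ := (q ^ μ)⁻¹ with hρ
  have hρ0 : 0 < ρ := by positivity
  have hρ1 : ρ ≤ 1 := inv_le_one_of_one_le₀ (one_le_pow₀ hq1)
  have hwρ : w = S.card * ρ := by rw [hw, hρ, div_eq_mul_inv]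
  have hw0 : 0 ≤ w := by rw [hwρ]; positivity
  set B : ℝ := τ * (q * max 1 w) ^ r with hB
  have hm1 : 1 ≤ q * max 1 w := one_le_mul_of_one_le_of_one_le hq1 (le_max_left _ _)
  have hB0 : 0 ≤ B := by positivity
  -- pointwise bound
  have h1 : ∀ L : Fin μ → ι → F, ind (∀ v ∈ S, ∃ s, L s ⬝ᵥ v ≠ 0) ≤
      ∑ I ∈ S.powerset, bonfA S r I * ind (∀ v ∈ I, ∀ s, L s ⬝ᵥ v = 0) := by
    intro L
    have h := bonf_point S (S.filter fun v => ∀ s, L s ⬝ᵥ v = 0) (Finset.filter_subset _ _) hr
    have e1 : ind (∀ v ∈ S, ∃ s, L s ⬝ᵥ v ≠ 0)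
        = ind ((S.filter fun v => ∀ s, L s ⬝ᵥ v = 0) = ∅) := by
      refine ind_congr ?_
      simp only [Finset.filter_eq_empty_iff, not_forall]
    have e2 : (S.filter fun v => ∀ s, L s ⬝ᵥ v = 0).powerset
        = S.powerset.filter fun I => ∀ v ∈ I, ∀ s, L s ⬝ᵥ v = 0 := by
      ext I
      simp only [Finset.mem_powerset, Finset.mem_filter, Finset.subset_iff]
      exact ⟨fun h => ⟨fun v hv => (h hv).1, fun v hv => (h hv).2⟩,
        fun h v hv => ⟨h.1 hv, h.2 v hv⟩⟩
    rw [e1]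
    refine h.trans_eq ?_
    rw [e2, Finset.sum_filter]
    refine Finset.sum_congr rfl fun I _ => ?_
    rw [ind_eq_ite]
    split_ifs <;> simp
  refine (av_mono h1).trans ?_
  rw [av_sum]
  have h2 : ∀ I ∈ S.powerset,
      av (fun L : Fin μ → ι → F => bonfA S r I * ind (∀ v ∈ I, ∀ s, L s ⬝ᵥ v = 0))
        ≤ (-ρ) ^ I.card + (2 * ρ) ^ I.card / 2 ^ r
          + ind (I.card ≤ r) * (ρ ^ I.card * ind (¬ LinearIndepOn F id (I : Set (ι → F))))
          + ind (I.card ≤ r) * (ρ ^ I.card * bonfD S I) := by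
    intro I _
    have d1 := bonfD_nonneg S I
    have p1 : 0 ≤ (2 * ρ) ^ I.card / 2 ^ r := by positivity
    have p2 : 0 < ρ ^ I.card := by positivity
    have p3 : -ρ ^ I.card ≤ (-ρ) ^ I.card := by
      rw [neg_pow]
      rcases neg_one_pow_eq_or ℝ I.card with h | h <;> rw [h] <;> linarith
    rw [av_const_mul, bonfA]
    by_cases c1 : I.card ≤ r
    · rw [ind_pos c1]
      by_cases c2 : LinearIndepOn F id (I : Set (ι → F))
      · rw [ind_pos ⟨c1, c2⟩, ind_neg (not_not.2 c2), bonf_av μ I c2, ← hq, ← hρ, neg_pow ρ]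
        nlinarith
      · rw [ind_neg (fun h => c2 h.2), ind_pos c2]
        have := mul_nonneg p2.le d1
        linarith
    · rw [ind_neg c1, ind_neg (fun h => c1 h.1)]
      have p4 : ρ ^ I.card ≤ (2 * ρ) ^ I.card / 2 ^ r := by
        rw [le_div_iff₀ (by positivity), mul_pow, mul_comm]
        exact mul_le_mul_of_nonneg_right (pow_le_pow_right₀ one_le_two (by omega)) p2.le
      linarith
  refine (Finset.sum_le_sum h2).trans ?_
  rw [Finset.sum_add_distrib, Finset.sum_add_distrib, Finset.sum_add_distrib, ← Finset.sum_div,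
    bonf_sum_pow, bonf_sum_pow, bonf_sum_card, bonf_sum_card]
  have k1 : (1 + -ρ) ^ S.card ≤ Real.exp (-w) := by
    rw [hwρ, ← mul_neg, Real.exp_nat_mul]
    exact pow_le_pow_left₀ (by linarith) (by linarith [Real.add_one_le_exp (-ρ)]) _
  have k2 : (1 + 2 * ρ) ^ S.card ≤ Real.exp (2 * w) := by
    rw [hwρ, mul_left_comm, Real.exp_nat_mul]
    exact pow_le_pow_left₀ (by linarith) (by linarith [Real.add_one_le_exp (2 * ρ)]) _
  have k3 : ∀ j ≤ r, ρ ^ j * ∑ I ∈ S.powersetCard j, bonfD S I ≤ B := by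
    intro j hj
    calc ρ ^ j * ∑ I ∈ S.powersetCard j, bonfD S I ≤ ρ ^ j * (q ^ j * τ * (S.card : ℝ) ^ j) :=
          mul_le_mul_of_nonneg_left ((bonf_sum_D S j).trans (hdep j hj)) (by positivity)
      _ = τ * (q * w) ^ j := by rw [hwρ, mul_pow, mul_pow]; ring
      _ ≤ τ * (q * max 1 w) ^ j := by gcongr; exact le_max_right _ _
      _ ≤ B := mul_le_mul_of_nonneg_left (pow_le_pow_right₀ hm1 hj) hτ
  have k4 : ∑ j ∈ Finset.range (r + 1), ∑ I ∈ S.powersetCard j, ρ ^ I.card * bonfD S I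
      ≤ (r + 1) * B := by
    have := Finset.sum_le_card_nsmul (Finset.range (r + 1))
      (fun j => ∑ I ∈ S.powersetCard j, ρ ^ I.card * bonfD S I) B (fun j hj => by
        refine le_trans (le_of_eq ?_) (k3 j (Nat.lt_succ_iff.1 (Finset.mem_range.1 hj)))
        rw [Finset.mul_sum]
        exact Finset.sum_congr rfl fun I hI => by rw [(Finset.mem_powersetCard.1 hI).2])
    simpa using this
  have k5 : ∑ j ∈ Finset.range (r + 1), ∑ I ∈ S.powersetCard j,
      ρ ^ I.card * ind (¬ LinearIndepOn F id (I : Set (ι → F))) ≤ (r + 1) * B := by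
    have := Finset.sum_le_card_nsmul (Finset.range (r + 1))
      (fun j => ∑ I ∈ S.powersetCard j,
        ρ ^ I.card * ind (¬ LinearIndepOn F id (I : Set (ι → F)))) B (fun j hj => by
        have hj' := Nat.lt_succ_iff.1 (Finset.mem_range.1 hj)
        have e : ∑ I ∈ S.powersetCard j,
            ρ ^ I.card * ind (¬ LinearIndepOn F id (I : Set (ι → F))) =
            ρ ^ j * ∑ I ∈ S.powersetCard j, ind (¬ LinearIndepOn F id (I : Set (ι → F))) := by
          rw [Finset.mul_sum]
          exact Finset.sum_congr rfl fun I hI => by rw [(Finset.mem_powersetCard.1 hI).2]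
        rw [e]
        cases j with
        | zero =>
          rw [Finset.powersetCard_zero, Finset.sum_singleton, ind_neg (by simp), mul_zero]
          exact hB0
        | succ j =>
          have s0 : 0 ≤ ∑ I ∈ S.powersetCard j, bonfD S I :=
            Finset.sum_nonneg fun I _ => bonfD_nonneg S I
          refine le_trans ?_ (k3 j (by omega))
          exact mul_le_mul (pow_le_pow_of_le_one hρ0.le hρ1 (Nat.le_succ j)) (bonf_sum_dep S j)
            (Finset.sum_nonneg fun I _ => ind_nonneg _) (by positivity))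
    simpa using this
  have k6 : (1 + 2 * ρ) ^ S.card / 2 ^ r ≤ Real.exp (2 * w) / 2 ^ r := by gcongr
  have k7 : 2 * (r + 1) * τ * (q * max 1 w) ^ r = (r + 1) * B + (r + 1) * B := by
    rw [hB]; ring
  rw [k7]
  linarith

end Crest.Agent.R225U
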