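import Crest.Agent.R225U.Energy

/-!
Row 225 (S0347): counting linear dependencies mod p in a union of 2-blocks.
-/

set_option autoImplicit false

open Finset
open Crest.Agent.R153

namespace Crest.Agent.R225U

/-- reduction mod `p` -/
def dep_red (p : ℕ) {n : ℕ} (x : Fin n → ℤ) : Fin n → ZMod p := fun i => (x i : ZMod p)

lemma dep_eq_zero {p : ℕ} {d : ℤ} (h : (d : ZMod p) = 0) (hd : |d| < p) : d = 0 :=
  Int.eq_zero_of_abs_lt_dvd ((ZMod.intCast_zmod_eq_zero_iff_dvd d p).1 h) hd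

lemma dep_red_inj {p n : ℕ} {B₀ : ℕ} (hp : B₀ ^ 2 < p) {A : Finset (Fin n → ℤ)}
    (hdiam : ∀ x ∈ A, ∀ y ∈ A, ∀ i, |x i - y i| < B₀) {x y : Fin n → ℤ} (hx : x ∈ A) (hy : y ∈ A)
    (h : dep_red p x = dep_red p y) : x = y := by
  funext i
  have h1 : ((x i - y i : ℤ) : ZMod p) = 0 := by
    have := congrFun h i
    simp only [dep_red] at this
    push_cast
    rw [this, sub_self]
  have h2 := hdiam x hx y hy i
  have h3 : (B₀ : ℤ) ^ 2 < p := by exact_mod_cast hp
  have h4 : (B₀ : ℤ) ≤ (B₀ : ℤ) ^ 2 := Int.le_self_sq _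
  have := dep_eq_zero h1 (by linarith)
  linarith

lemma hat_injOn {p n : ℕ} (B₀ : ℕ) (hp : B₀ ^ 2 < p) (A : Finset (Fin n → ℤ))
    (hdiam : ∀ x ∈ A, ∀ y ∈ A, ∀ i, |x i - y i| < B₀) : Set.InjOn (hat p) (A : Set (Fin n → ℤ)) := by
  intro x hx y hy h
  refine dep_red_inj hp hdiam (mem_coe.1 hx) (mem_coe.1 hy) ?_
  funext i
  have := congrFun h i.succ
  simpa [hat, dep_red] using this

/-- a subset meeting every 2-block at most once -/
lemma dep_block_count {n : ℕ} {A U : Finset (Fin n → ℤ)} (hA : BlockClosed A) (hU : U ⊆ A)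
    (h1 : ∀ x ∈ U, ∀ y ∈ U, (∀ i, x i / 2 = y i / 2) → x = y) : U.card * 2 ^ n ≤ A.card := by
  classical
  have : (U ×ˢ (univ : Finset (Fin n → Fin 2))).card ≤ A.card := by
    refine card_le_card_of_injOn (fun q i => 2 * (q.1 i / 2) + ((q.2 i : ℕ) : ℤ)) ?_ ?_
    · intro q hq
      refine mem_coe.2 (hA q.1 (hU (mem_product.1 (mem_coe.1 hq)).1) _ fun i => ?_)
      have := (q.2 i).isLt
      show (2 * (q.1 i / 2) + ((q.2 i : ℕ) : ℤ)) / 2 = q.1 i / 2
      omega
    · intro q hq q' hq' h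
      have hq1 := (mem_product.1 (mem_coe.1 hq)).1
      have hq1' := (mem_product.1 (mem_coe.1 hq')).1
      have hi : ∀ i, q.1 i / 2 = q'.1 i / 2 ∧ q.2 i = q'.2 i := by
        intro i
        have h2 : 2 * (q.1 i / 2) + ((q.2 i : ℕ) : ℤ) = 2 * (q'.1 i / 2) + ((q'.2 i : ℕ) : ℤ) :=
          congrFun h i
        have h3 := (q.2 i).isLt
        have h4 := (q'.2 i).isLt
        refine ⟨by omega, Fin.ext (by omega)⟩
      exact Prod.ext (h1 _ hq1 _ hq1' fun i => (hi i).1) (funext fun i => (hi i).2)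
  simpa using this

open scoped Classical in
lemma dep_one_aux {p n : ℕ} {B₀ : ℕ} {A : Finset (Fin n → ℤ)} (hA : BlockClosed A)
    (hdiam : ∀ x ∈ A, ∀ y ∈ A, ∀ i, |x i - y i| < B₀) {c : ZMod p}
    (hc : ∀ s : ℤ, |s| < B₀ → c ≠ s) (v : Fin n → ZMod p) :
    (A.filter fun a => ∃ w ∈ A, c • dep_red p a + v = dep_red p w).card * 2 ^ n ≤ A.card := by
  refine dep_block_count hA (filter_subset _ _) fun x hx y hy hxy => ?_
  obtain ⟨-, w, hw, hxw⟩ := mem_filter.1 hx
  obtain ⟨-, w', hw', hyw⟩ := mem_filter.1 hy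
  funext i
  have h1 := congrFun hxw i
  have h2 := congrFun hyw i
  simp only [dep_red, Pi.add_apply, Pi.smul_apply, smul_eq_mul] at h1 h2
  have h3 := hxy i
  by_contra hne
  have h4 : x i = y i + 1 ∨ y i = x i + 1 := by omega
  rcases h4 with h4 | h4
  · refine hc (w i - w' i) (hdiam w hw w' hw' i) ?_
    rw [h4] at h1
    push_cast at h1 ⊢
    linear_combination h1 - h2
  · refine hc (w' i - w i) (hdiam w' hw' w hw i) ?_
    rw [h4] at h2
    push_cast at h2 ⊢
    linear_combination h2 - h1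

open scoped Classical in
lemma dep_one {p n : ℕ} [Fact p.Prime] {B₀ : ℕ} (hp : B₀ ^ 2 < p) {A : Finset (Fin n → ℤ)}
    (hA : BlockClosed A) (hdiam : ∀ x ∈ A, ∀ y ∈ A, ∀ i, |x i - y i| < B₀) {c : ZMod p}
    (h0 : c ≠ 0) (h1 : c ≠ 1) (h2 : c ≠ -1) (v : Fin n → ZMod p) :
    (A.filter fun a => ∃ w ∈ A, c • dep_red p a + v = dep_red p w).card * 2 ^ n ≤ A.card := by
  by_cases hc : ∀ s : ℤ, |s| < B₀ → c ≠ s
  · exact dep_one_aux hA hdiam hc v
  push Not at hc
  obtain ⟨s, hs, hcs⟩ := hc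
  have hc' : ∀ t : ℤ, |t| < B₀ → c⁻¹ ≠ t := by
    intro t ht hct
    have e1 : ((s * t - 1 : ℤ) : ZMod p) = 0 := by
      push_cast
      rw [← hcs, ← hct, mul_inv_cancel₀ h0, sub_self]
    have h3 : (B₀ : ℤ) ^ 2 < p := by exact_mod_cast hp
    have e2 : |s * t - 1| < p := by
      have a1 : |s * t - 1| ≤ |s| * |t| + 1 := by
        have := abs_sub (s * t) 1
        rwa [abs_mul, abs_one] at this
      have a2 : |s| * |t| ≤ (B₀ - 1) * (B₀ - 1) :=
        mul_le_mul (by omega) (by omega) (abs_nonneg _) (by have := abs_nonneg s; omega)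
      have a3 : (1 : ℤ) ≤ B₀ := by have := abs_nonneg s; omega
      nlinarith
    have e3 : s * t = 1 := by have := dep_eq_zero e1 e2; linarith
    rcases Int.eq_one_or_neg_one_of_mul_eq_one e3 with h | h
    · exact h1 (by rw [hcs, h]; simp)
    · exact h2 (by rw [hcs, h]; simp)
  refine le_trans (Nat.mul_le_mul_right _ ?_) (dep_one_aux hA hdiam hc' (-(c⁻¹ • v)))
  refine card_le_card_of_forall_subsingleton
    (fun a w => c • dep_red p a + v = dep_red p w) ?_ ?_
  · intro a ha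
    obtain ⟨haA, w, hw, haw⟩ := mem_filter.1 ha
    refine ⟨w, mem_filter.2 ⟨hw, a, haA, ?_⟩, haw⟩
    rw [← haw, smul_add, smul_smul, inv_mul_cancel₀ h0, one_smul, add_neg_cancel_right]
  · intro w _ a ha a' ha'
    have b1 := ha.2
    have b2 := ha'.2
    refine dep_red_inj hp hdiam (mem_filter.1 ha.1).1 (mem_filter.1 ha'.1).1 ?_
    have : c • dep_red p a = c • dep_red p a' := add_right_cancel (b1.trans b2.symm)
    exact smul_right_injective _ h0 this

/-- Cauchy-Schwarz over the fibres -/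
lemma dep_cs {α β : Type*} [DecidableEq β] (D : Finset α) (φ : α → β) (u : Finset β) :
    (D.filter fun q => φ q ∈ u).card ^ 2 ≤ u.card * ((D ×ˢ D).filter fun q => φ q.1 = φ q.2).card := by
  classical
  calc (D.filter fun q => φ q ∈ u).card ^ 2
      = (∑ c ∈ u, (D.filter fun q => φ q = c).card) ^ 2 := by
        rw [← sum_card_fiberwise_eq_card_filter]
    _ ≤ u.card * ∑ c ∈ u, (D.filter fun q => φ q = c).card ^ 2 := by
        simpa using sum_mul_sq_le_sq_mul_sq (R := ℕ) u 1 _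
    _ ≤ _ := by
        refine Nat.mul_le_mul_left _ ?_
        have h1 : ∀ c, (D.filter fun q => φ q = c).card ^ 2
            = (((D ×ˢ D).filter fun q => φ q.1 = φ q.2).filter fun q => φ q.1 = c).card := by
          intro c
          rw [sq, ← card_product]
          congr 1
          ext q
          simp only [mem_product, mem_filter]
          constructor
          · rintro ⟨⟨a, b⟩, c, d⟩; exact ⟨⟨⟨a, c⟩, b.trans d.symm⟩, b⟩
          · rintro ⟨⟨⟨a, c⟩, d⟩, b⟩; exact ⟨⟨a, b⟩, c, d.symm.trans b⟩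
        simp_rw [h1]
        rw [sum_card_fiberwise_eq_card_filter]
        exact card_filter_le _ _

lemma dep_sum_eq {p n : ℕ} {B₀ : ℕ} (hp : B₀ ^ 2 < p) {A : Finset (Fin n → ℤ)}
    (hdiam : ∀ x ∈ A, ∀ y ∈ A, ∀ i, |x i - y i| < B₀) {a b a' b' : Fin n → ℤ} (ha : a ∈ A)
    (hb : b ∈ A) (ha' : a' ∈ A) (hb' : b' ∈ A)
    (h : dep_red p a + dep_red p b = dep_red p a' + dep_red p b') : a + b = a' + b' := by
  funext i
  have h0 := congrFun h i
  simp only [dep_red, Pi.add_apply] at h0 ⊢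
  have h1 : (((a i - a' i) + (b i - b' i) : ℤ) : ZMod p) = 0 := by
    push_cast
    linear_combination h0
  have h2 := hdiam a ha a' ha' i
  have h2' := hdiam b hb b' hb' i
  have h3 : (B₀ : ℤ) ^ 2 < p := by exact_mod_cast hp
  have h4 := abs_add_le (a i - a' i) (b i - b' i)
  have := dep_eq_zero h1 (by nlinarith [sq_nonneg ((B₀ : ℤ) - 1)])
  linarith

open scoped Classical in
lemma dep_two {p n : ℕ} [Fact p.Prime] {B₀ : ℕ} (hp : B₀ ^ 2 < p) {A : Finset (Fin n → ℤ)}
    (hA : BlockClosed A) (hdiam : ∀ x ∈ A, ∀ y ∈ A, ∀ i, |x i - y i| < B₀) {s t : ZMod p}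
    (hs : s = 1 ∨ s = -1) (ht : t = 1 ∨ t = -1) (v : Fin n → ZMod p) :
    (((A ×ˢ A).filter fun q => ∃ w ∈ A,
      s • dep_red p q.1 + t • dep_red p q.2 + v = dep_red p w).card : ℝ)
      ≤ 2 * (2 : ℝ) ^ (-(n : ℝ) / 38) * (A.card : ℝ) ^ 2 := by
  set φ : (Fin n → ℤ) × (Fin n → ℤ) → Fin n → ZMod p :=
    fun q => s • dep_red p q.1 + t • dep_red p q.2 + v with hφ
  have h1 := dep_cs (A ×ˢ A) φ (A.image (dep_red p))
  have hs0 : s ≠ 0 := by rcases hs with rfl | rfl <;> simp
  have h2 : (((A ×ˢ A) ×ˢ (A ×ˢ A)).filter fun q => φ q.1 = φ q.2).card ≤ addEnergy A A := by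
    have hst : t = s ∨ t = -s := by
      rcases hs with rfl | rfl <;> rcases ht with rfl | rfl <;> simp
    unfold addEnergy
    rcases hst with rfl | rfl
    · refine card_le_card_of_injOn (fun q => ((q.1.1, q.2.1), (q.1.2, q.2.2))) ?_ ?_
      · intro q hq
        simp only [coe_filter, mem_product, Set.mem_ofPred_eq] at hq ⊢
        obtain ⟨⟨⟨a1, a2⟩, a3, a4⟩, h⟩ := hq
        refine ⟨⟨⟨a1, a3⟩, a2, a4⟩, dep_sum_eq hp hdiam a1 a2 a3 a4 ?_⟩
        refine smul_right_injective _ hs0 ?_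
        simp only [hφ, add_left_inj] at h
        simp only [smul_add]
        exact h
      · intro q _ q' _ h
        simp only [Prod.mk.injEq] at h
        exact Prod.ext (Prod.ext h.1.1 h.2.1) (Prod.ext h.1.2 h.2.2)
    · refine card_le_card_of_injOn (fun q => ((q.1.1, q.2.1), (q.2.2, q.1.2))) ?_ ?_
      · intro q hq
        simp only [coe_filter, mem_product, Set.mem_ofPred_eq] at hq ⊢
        obtain ⟨⟨⟨a1, a2⟩, a3, a4⟩, h⟩ := hq
        refine ⟨⟨⟨a1, a3⟩, a4, a2⟩, dep_sum_eq hp hdiam a1 a4 a3 a2 ?_⟩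
        refine smul_right_injective _ hs0 ?_
        simp only [hφ, add_left_inj, neg_smul] at h
        simp only [smul_add]
        linear_combination (exp := 1) h
      · intro q _ q' _ h
        simp only [Prod.mk.injEq] at h
        exact Prod.ext (Prod.ext h.1.1 h.2.2) (Prod.ext h.1.2 h.2.1)
  have h3 : ((A ×ˢ A).filter fun q => ∃ w ∈ A,
      s • dep_red p q.1 + t • dep_red p q.2 + v = dep_red p w)
      = (A ×ˢ A).filter fun q => φ q ∈ A.image (dep_red p) := by
    refine filter_congr fun q _ => ?_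
    simp only [mem_image, hφ, eq_comm]
  rw [h3]
  have h4 : ((A ×ˢ A).filter fun q => φ q ∈ A.image (dep_red p)).card ^ 2
      ≤ A.card * addEnergy A A := h1.trans (Nat.mul_le_mul card_image_le h2)
  have h5 : (((A ×ˢ A).filter fun q => φ q ∈ A.image (dep_red p)).card : ℝ) ^ 2
      ≤ A.card * (addEnergy A A : ℝ) := by exact_mod_cast h4
  have h6 := mul_le_mul_of_nonneg_left (energy_le A hA) (Nat.cast_nonneg (α := ℝ) A.card)
  refine (pow_le_pow_iff_left₀ (by positivity) (by positivity) two_ne_zero).1 (h5.trans (h6.trans ?_))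
  have h7 : ((2 : ℝ) ^ (-(n : ℝ) / 38)) ^ 2 = (2 : ℝ) ^ (-(n : ℝ) / 19) := by
    rw [← Real.rpow_natCast, ← Real.rpow_mul (by norm_num)]
    congr 1
    push_cast
    ring
  rw [mul_pow, mul_pow, h7]
  apply le_of_eq
  ring

lemma dep_av_one {X : Type*} (A : Finset X) (P : X → Prop) [DecidablePred P] :
    av (fun a : A => ind (P a)) = ((A.filter P).card : ℝ) / A.card := by
  unfold av
  rw [Fintype.card_coe, sum_coe_sort A (fun a => ind (P a))]
  simp only [ind_eq_ite, sum_boole]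

lemma dep_av_two {X : Type*} (A : Finset X) (P : X × X → Prop) [DecidablePred P] :
    (av fun a : A => av fun b : A => ind (P (a, b)))
      = (((A ×ˢ A).filter P).card : ℝ) / (A.card : ℝ) ^ 2 := by
  unfold av
  rw [Fintype.card_coe, ← sum_div, div_div, ← sq]
  congr 1
  rw [sum_coe_sort A (fun a => ∑ b : A, ind (P (a, b)))]
  rw [← sum_boole, sum_product]
  refine sum_congr rfl fun a _ => ?_
  rw [sum_coe_sort A (fun b => ind (P (a, b)))]
  simp only [ind_eq_ite]

lemma dep_sum_update {p n j : ℕ} {A : Finset (Fin n → ℤ)} (c : Fin j → ZMod p) (ω : Fin j → A)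
    (l : Fin j) (a : A) :
    ∑ i, c i • dep_red p (Function.update ω l a i : A).1
      = c l • dep_red p a.1 + ∑ i ∈ univ.erase l, c i • dep_red p (ω i).1 := by
  rw [← add_sum_erase _ _ (mem_univ l), Function.update_self]
  congr 1
  refine sum_congr rfl fun i hi => ?_
  rw [Function.update_of_ne (ne_of_mem_erase hi)]

lemma dep_fixed {p n j : ℕ} [Fact p.Prime] {B₀ : ℕ} (hp : B₀ ^ 2 < p) {A : Finset (Fin n → ℤ)}
    (hA : BlockClosed A) (hdiam : ∀ x ∈ A, ∀ y ∈ A, ∀ i, |x i - y i| < B₀) (hne : A.Nonempty)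
    (c : Fin j → ZMod p) (hc : ∑ l, c l = 1) (hc1 : ∀ l, c ≠ Pi.single l 1) :
    av (fun ω : Fin j → A => ind (∃ w ∈ A, ∑ i, c i • dep_red p (ω i).1 = dep_red p w))
      ≤ 2 * (2 : ℝ) ^ (-(n : ℝ) / 38) := by
  classical
  have : Nonempty A := hne.to_subtype
  have hN : (0 : ℝ) < A.card := by exact_mod_cast hne.card_pos
  by_cases h : ∃ l, c l ≠ 0 ∧ c l ≠ 1 ∧ c l ≠ -1
  · obtain ⟨l, h0, h1, h2⟩ := h
    rw [← av_update l]
    refine av_le_of_le fun ω => ?_
    simp only [dep_sum_update]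
    rw [dep_av_one A (fun a => ∃ w ∈ A, c l • dep_red p a
      + ∑ i ∈ univ.erase l, c i • dep_red p (ω i).1 = dep_red p w), div_le_iff₀ hN]
    have h3 := dep_one hp hA hdiam h0 h1 h2 (∑ i ∈ univ.erase l, c i • dep_red p (ω i).1)
    have h4 : ((A.filter fun a => ∃ w ∈ A, c l • dep_red p a
      + ∑ i ∈ univ.erase l, c i • dep_red p (ω i).1 = dep_red p w).card : ℝ) * 2 ^ n ≤ A.card := by
      have h5 : (((A.filter fun a => ∃ w ∈ A, c l • dep_red p a
        + ∑ i ∈ univ.erase l, c i • dep_red p (ω i).1 = dep_red p w).card * 2 ^ n : ℕ) : ℝ)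
          ≤ A.card := by
        refine Nat.cast_le.2 ?_
        convert h3
      exact_mod_cast h5
    have h5 : (1 : ℝ) ≤ (2 : ℝ) ^ (-(n : ℝ) / 38) * 2 ^ n := by
      rw [← Real.rpow_natCast, ← Real.rpow_add (by norm_num)]
      refine Real.one_le_rpow (by norm_num) ?_
      have : (0 : ℝ) ≤ n := Nat.cast_nonneg n
      linarith
    set m : ℝ := ((A.filter fun a => ∃ w ∈ A, c l • dep_red p a
      + ∑ i ∈ univ.erase l, c i • dep_red p (ω i).1 = dep_red p w).card : ℝ) with hm
    have hm0 : 0 ≤ m := Nat.cast_nonneg _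
    have h6 : (0 : ℝ) < (2 : ℝ) ^ (-(n : ℝ) / 38) := by positivity
    have h7 := mul_le_mul_of_nonneg_left h5 hm0
    have h8 := mul_le_mul_of_nonneg_left h4 h6.le
    nlinarith
  · push Not at h
    have hpm : ∀ l, c l ≠ 0 → c l = 1 ∨ c l = -1 := fun l hl => by
      by_cases h1 : c l = 1
      · exact Or.inl h1
      · exact Or.inr (h l hl h1)
    obtain ⟨l, hl⟩ : ∃ l, c l ≠ 0 := by
      by_contra h0
      push Not at h0
      simp [h0] at hc
    obtain ⟨l', hll, hl'⟩ : ∃ l', l' ≠ l ∧ c l' ≠ 0 := by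
      by_contra h0
      push Not at h0
      apply hc1 l
      have h1 : c l = 1 := by
        rw [← hc, sum_eq_single l (fun i _ hi => h0 i hi) (by simp)]
      funext i
      by_cases hi : i = l
      · rw [hi, h1, Pi.single_eq_same]
      · rw [h0 i hi, Pi.single_eq_of_ne hi]
    rw [← av_update l', ← av_update l]
    refine av_le_of_le fun ω => ?_
    have e1 : ∀ a b : A, ∑ i, c i • dep_red p
        (Function.update (Function.update ω l a) l' b i : A).1
        = c l • dep_red p a.1 + c l' • dep_red p b.1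
          + ∑ i ∈ (univ.erase l').erase l, c i • dep_red p (ω i).1 := by
      intro a b
      rw [dep_sum_update, ← add_sum_erase _ _ (mem_erase.2 ⟨hll.symm, mem_univ l⟩),
        Function.update_self, ← add_assoc, add_comm (c l' • _)]
      congr 1
      refine sum_congr rfl fun i hi => ?_
      rw [Function.update_of_ne (ne_of_mem_erase hi)]
    simp only [e1]
    rw [dep_av_two A (fun q => ∃ w ∈ A, c l • dep_red p q.1 + c l' • dep_red p q.2
      + ∑ i ∈ (univ.erase l').erase l, c i • dep_red p (ω i).1 = dep_red p w),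
      div_le_iff₀ (by positivity)]
    have := dep_two hp hA hdiam (hpm l hl) (hpm l' hl')
      (∑ i ∈ (univ.erase l').erase l, c i • dep_red p (ω i).1)
    convert this using 3

/-- A pair in `depSet` is determined by the tuple and a coefficient vector `c` with `∑ c = 1`
(coordinate `0` of `hat`) that is not a unit vector.  Fix `c` (at most `p^j` choices) and count
tuples `x ∈ A^j` with `∑ c_l x_l ≡ w ∈ A (mod p)`.
(i) Some `c_l ∉ {0,1,-1}`: one of `c_l`, `c_l⁻¹` is not congruent to an integer in `(-B₀,B₀)`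
(as `p > B₀²`), so for fixed other entries there is at most one solution `x_l` (resp. `w`) in each
2-block: at most `#A / 2^n` solutions.
(ii) All `c_l ∈ {0,1,-1}`: at least two entries are nonzero; for fixed other entries the number of
`(x,y) ∈ A²` with `±x ± y + v ≡ w ∈ A` is at most `sqrt (#A * E[A])` (Cauchy-Schwarz; congruences
`x - x' ≡ ±(y' - y)` mod `p` are equalities since `2 B₀ ≤ p`), and `energy_le` applies.
(For `n = 0` or `A = ∅` the bound is trivial; otherwise `B₀ ≥ 2`.) -/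
theorem dep_le {p n : ℕ} [Fact p.Prime] (B₀ : ℕ) (hp : B₀ ^ 2 < p) (A : Finset (Fin n → ℤ))
    (hA : BlockClosed A) (hdiam : ∀ x ∈ A, ∀ y ∈ A, ∀ i, |x i - y i| < B₀) (j : ℕ) :
    ((depSet (A.image (hat p)) j).ncard : ℝ) ≤
      (p : ℝ) ^ j * (2 * (2 : ℝ) ^ (-(n : ℝ) / 38)) * (A.card : ℝ) ^ j := by
  classical
  rcases A.eq_empty_or_nonempty with rfl | hne
  · have : depSet ((∅ : Finset (Fin n → ℤ)).image (hat p)) j = ∅ := by
      ext q; simp [depSet]
    rw [this, Set.ncard_empty, Nat.cast_zero]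
    positivity
  have : Nonempty A := hne.to_subtype
  set P : (Fin j → ZMod p) × (Fin j → A) → Prop := fun q =>
    ((∑ l, q.1 l = 1) ∧ ∀ l, q.1 ≠ Pi.single l 1) ∧
      ∃ w ∈ A, ∑ i, q.1 i • dep_red p (q.2 i).1 = dep_red p w with hP
  set g : (Fin j → ZMod p) × (Fin j → A) →
      (Fin j → Fin (n + 1) → ZMod p) × (Fin (n + 1) → ZMod p) := fun q =>
    (fun l => hat p (q.2 l).1, ∑ l, q.1 l • hat p (q.2 l).1) with hg
  have hsub : depSet (A.image (hat p)) j ⊆ ((univ.filter P).image g : Finset _) := by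
    rintro ⟨y, z⟩ ⟨hy, hz, hsp, hnr⟩
    simp only at hy hz hsp hnr
    have hy' : ∀ l, ∃ a : A, hat p a.1 = y l := fun l => by
      obtain ⟨a, ha, h⟩ := mem_image.1 (hy l)
      exact ⟨⟨a, ha⟩, h⟩
    choose ω hω using hy'
    obtain ⟨w, hw, hwz⟩ := mem_image.1 hz
    obtain ⟨c, hc⟩ := (Submodule.mem_span_range_iff_exists_fun _).1 hsp
    have hc' : ∑ l, c l • hat p (ω l).1 = hat p w := by
      simp only [hω]; rw [hc, hwz]
    refine mem_coe.2 (mem_image.2 ⟨(c, ω), mem_filter.2 ⟨mem_univ _, ⟨?_, ?_⟩, w, hw, ?_⟩, ?_⟩)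
    · have := congrFun hc' 0
      simpa [hat, Finset.sum_apply] using this
    · intro l hl
      apply hnr
      refine ⟨l, ?_⟩
      simp only at hl
      rw [← hc, hl, sum_eq_single l (fun i _ hi => by rw [Pi.single_eq_of_ne hi, zero_smul])
        (by simp), Pi.single_eq_same, one_smul]
    · funext i
      have := congrFun hc' i.succ
      simpa [hat, dep_red, Finset.sum_apply] using this
    · simp only [hg, hω]
      rw [hc]
  have h1 : (depSet (A.image (hat p)) j).ncard ≤ (univ.filter P).card := by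
    refine (Set.ncard_le_ncard hsub (Finset.finite_toSet _)).trans ?_
    rw [Set.ncard_coe_finset]
    exact card_image_le
  have hcard : (Fintype.card (Fin j → A) : ℝ) = (A.card : ℝ) ^ j := by
    simp
  have hN : (0 : ℝ) < A.card := by exact_mod_cast hne.card_pos
  have h2 : ((univ.filter P).card : ℝ)
      = ∑ c : Fin j → ZMod p, av (fun ω : Fin j → A => ind (P (c, ω))) * (A.card : ℝ) ^ j := by
    rw [← sum_boole, Fintype.sum_prod_type]
    refine sum_congr rfl fun c _ => ?_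
    unfold av
    rw [hcard, div_mul_cancel₀ _ (by positivity)]
    exact sum_congr rfl fun ω _ => (ind_eq_ite _).symm
  have h3 : ∀ c : Fin j → ZMod p, av (fun ω : Fin j → A => ind (P (c, ω)))
      ≤ 2 * (2 : ℝ) ^ (-(n : ℝ) / 38) := by
    intro c
    by_cases hc : (∑ l, c l = 1) ∧ ∀ l, c ≠ Pi.single l 1
    · exact (av_mono fun ω => ind_mono fun h => h.2).trans (dep_fixed hp hA hdiam hne c hc.1 hc.2)
    · refine av_le_of_le fun ω => ?_
      rw [ind_neg fun h => hc h.1]
      positivity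
  calc ((depSet (A.image (hat p)) j).ncard : ℝ) ≤ (univ.filter P).card := by exact_mod_cast h1
    _ ≤ ∑ _c : Fin j → ZMod p, 2 * (2 : ℝ) ^ (-(n : ℝ) / 38) * (A.card : ℝ) ^ j := by
        rw [h2]
        exact sum_le_sum fun c _ => mul_le_mul_of_nonneg_right (h3 c) (by positivity)
    _ = _ := by
        rw [sum_const, card_univ, nsmul_eq_mul]
        simp only [Fintype.card_pi, ZMod.card, prod_const, card_univ, Fintype.card_fin,
          Nat.cast_pow]
        ring

end Crest.Agent.R225U
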