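import Crest.Agent.R225U.Bin
import Crest.Agent.R225U.Bonf
import Crest.Agent.R225U.Dep

/-!
Row 225 (S0347): the base law.
-/

set_option autoImplicit false

open Finset
open Crest.Agent.R153

namespace Crest.Agent.R225U

lemma base_trunc {n : ℕ} (A : Finset (Fin n → ℤ)) (hA : BlockClosed A) (t : ℝ) (ht0 : 0 ≤ t)
    (ht : t ≤ A.card) :
    ∃ A' ⊆ A, BlockClosed A' ∧ t ≤ A'.card ∧ (A'.card : ℝ) ≤ t + 2 ^ n := by
  classical
  obtain ⟨A', hA', hmin⟩ := Finset.exists_min_image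
    (A.powerset.filter fun A' => BlockClosed A' ∧ t ≤ A'.card) Finset.card
    ⟨A, Finset.mem_filter.2 ⟨Finset.mem_powerset_self _, hA, ht⟩⟩
  obtain ⟨h1, h2, h3⟩ := Finset.mem_filter.1 hA'
  rw [Finset.mem_powerset] at h1
  refine ⟨A', h1, h2, h3, ?_⟩
  rcases A'.eq_empty_or_nonempty with rfl | ⟨x, hx⟩
  · simp only [Finset.card_empty, Nat.cast_zero]; positivity
  · have hsplit := Finset.card_filter_add_card_filter_not (s := A')
      (fun y => ∀ i, y i / 2 = x i / 2)
    have hb : (A'.filter fun y => ∀ i, y i / 2 = x i / 2).card ≤ 2 ^ n := by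
      have : (A'.filter fun y => ∀ i, y i / 2 = x i / 2) ⊆
          Fintype.piFinset fun i => Finset.Icc (2 * (x i / 2)) (2 * (x i / 2) + 1) := by
        intro y hy
        rw [Fintype.mem_piFinset]
        intro i
        have := (Finset.mem_filter.1 hy).2 i
        rw [Finset.mem_Icc]
        omega
      refine (Finset.card_le_card this).trans (le_of_eq ?_)
      rw [Fintype.card_piFinset]
      have e : ∀ i, (Finset.Icc (2 * (x i / 2)) (2 * (x i / 2) + 1)).card = 2 := fun i => by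
        rw [Int.card_Icc]; omega
      simp [e]
    have hb0 : 0 < (A'.filter fun y => ∀ i, y i / 2 = x i / 2).card :=
      Finset.card_pos.2 ⟨x, Finset.mem_filter.2 ⟨hx, fun _ => rfl⟩⟩
    have hlt : ((A'.filter fun y => ¬ ∀ i, y i / 2 = x i / 2).card : ℝ) < t := by
      by_contra hcon
      have := hmin (A'.filter fun y => ¬ ∀ i, y i / 2 = x i / 2) (Finset.mem_filter.2
        ⟨Finset.mem_powerset.2 ((Finset.filter_subset _ _).trans h1), ?_, not_lt.1 hcon⟩)
      · omega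
      · intro y hy y' hy'
        obtain ⟨k1, k2⟩ := Finset.mem_filter.1 hy
        exact Finset.mem_filter.2 ⟨h2 y k1 y' hy', fun h => k2 fun i => (hy' i).symm.trans (h i)⟩
    have e : (A'.card : ℝ) = (A'.filter fun y => ∀ i, y i / 2 = x i / 2).card +
        (A'.filter fun y => ¬ ∀ i, y i / 2 = x i / 2).card := by exact_mod_cast hsplit.symm
    have hb' : ((A'.filter fun y => ∀ i, y i / 2 = x i / 2).card : ℝ) ≤ 2 ^ n := by
      exact_mod_cast hb
    linarith

/-- the identification of `(a, τ)` with a tuple of functionals -/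
def baseEquiv (F : Type) [AddCommGroup F] (n μ : ℕ) :
    (Fin n → Fin μ → F) × (Fin μ → F) ≃ (Fin μ → Fin (n + 1) → F) where
  toFun q := fun s => Fin.cons (-q.2 s) fun i => q.1 i s
  invFun L := (fun i s => L s i.succ, fun s => -L s 0)
  left_inv q := by
    ext <;> simp
  right_inv L := by
    funext s i
    refine Fin.cases ?_ (fun i => ?_) i <;> simp

lemma base_dot {p n μ : ℕ} (a : Fin n → Fin μ → ZMod p) (τ : Fin μ → ZMod p) (x : Fin n → ℤ)
    (s : Fin μ) : baseEquiv (ZMod p) n μ (a, τ) s ⬝ᵥ hat p x = dotz a x s - τ s := by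
  simp [baseEquiv, hat, dotProduct, Fin.sum_univ_succ, dotz, Finset.sum_apply, mul_comm]
  ring

/-- Pass to a block closed `A' ⊆ A` with `w ≤ w' = #A' / p^μ ≤ w + 1` (take a minimal block closed
subset with `#A' ≥ w p^μ`; a block has `2^n ≤ p^μ` points).  Identify `(a, τ)` with
`L s = Fin.cons (-τ s) (fun i => a i s)`, so that `L s ⬝ᵥ hat p x = dotz a x s - τ s`.
Apply `bonf` with an even `r ∈ [5w+3, 5w+5]` and `τ = 2 * 2^(-n/38)` (`dep_le`, `hat_injOn`):
`exp (2w') / 2^r ≤ exp (-w)` and `4 (r+1) 2^(-n/38) (p (w+1))^r ≤ exp (-w)` by `hsmall`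
(`log (p (w+1)) ≥ log 2`, `log 2 / 38 ≥ 1/60`). -/
theorem base_law {p n μ : ℕ} [Fact p.Prime] (B₀ : ℕ) (hp : B₀ ^ 2 < p) (A : Finset (Fin n → ℤ))
    (hA : BlockClosed A) (hdiam : ∀ x ∈ A, ∀ y ∈ A, ∀ i, |x i - y i| < B₀)
    (hμ : 2 ^ n ≤ p ^ μ) (w : ℝ) (hw0 : 0 ≤ w) (hw : w * (p : ℝ) ^ μ ≤ A.card)
    (hsmall : (10 * w + 10) * Real.log (p * (w + 1)) ≤ n / 60) :
    av (fun a : Fin n → Fin μ → ZMod p => av fun τ : Fin μ → ZMod p =>
      ind (∀ x ∈ A, dotz a x ≠ τ)) ≤ 3 * Real.exp (-w) := by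
  classical
  have hp2 : (2 : ℝ) ≤ p := by exact_mod_cast (Fact.out : p.Prime).two_le
  have hpμ : (0 : ℝ) < (p : ℝ) ^ μ := by positivity
  obtain ⟨A', hsub, hA', h1, h2⟩ := base_trunc A hA (w * (p : ℝ) ^ μ) (by positivity) hw
  have hμ' : (2 : ℝ) ^ n ≤ (p : ℝ) ^ μ := by exact_mod_cast hμ
  have hdiam' : ∀ x ∈ A', ∀ y ∈ A', ∀ i, |x i - y i| < B₀ := fun x hx y hy =>
    hdiam x (hsub hx) y (hsub hy)
  have hcard : (A'.image (hat p)).card = A'.card :=
    Finset.card_image_of_injOn (hat_injOn B₀ hp A' hdiam')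
  set w' : ℝ := (A'.card : ℝ) / (p : ℝ) ^ μ with hw'
  have hw1 : w ≤ w' := by rw [hw', le_div_iff₀ hpμ]; exact h1
  have hw2 : w' ≤ w + 1 := by rw [hw', div_le_iff₀ hpμ]; linarith
  set r : ℕ := 2 * ⌈(5 * w + 3) / 2⌉₊ with hr
  have hr1 : 5 * w + 3 ≤ r := by
    have := Nat.le_ceil ((5 * w + 3) / 2)
    rw [hr]; push_cast; linarith
  have hr2 : (r : ℝ) ≤ 5 * w + 5 := by
    have := Nat.ceil_lt_add_one (show 0 ≤ (5 * w + 3) / 2 by positivity)
    rw [hr]; push_cast; linarith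
  have hb := bonf (F := ZMod p) μ (A'.image (hat p)) r (by rw [hr]; exact even_two_mul _)
    (2 * (2 : ℝ) ^ (-(n : ℝ) / 38)) w' (by positivity) (by rw [hcard, ZMod.card])
    (fun j _ => by rw [hcard, ZMod.card]; exact dep_le B₀ hp A' hA' hdiam' j)
  rw [ZMod.card, ← av_equiv (baseEquiv (ZMod p) n μ), av_prod] at hb
  have hl1 := Real.log_two_gt_d9
  refine le_trans (av_mono fun a => av_mono fun τ => ind_mono fun h v hv => ?_) (hb.trans ?_)
  · obtain ⟨x, hx, rfl⟩ := Finset.mem_image.1 hv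
    by_contra hcon
    push Not at hcon
    refine h x (hsub hx) (funext fun s => ?_)
    have := hcon s
    rwa [base_dot, sub_eq_zero] at this
  · have e2 : ∀ y : ℝ, (2 : ℝ) ^ y = Real.exp (Real.log 2 * y) := fun y =>
      Real.rpow_def_of_pos two_pos y
    have t1 : Real.exp (-w') ≤ Real.exp (-w) := Real.exp_le_exp.2 (by linarith)
    have t2 : Real.exp (2 * w') / 2 ^ r ≤ Real.exp (-w) := by
      rw [← Real.rpow_natCast, e2, ← Real.exp_sub, Real.exp_le_exp]
      nlinarith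
    have hpos : 0 < (p : ℝ) * (w + 1) := by positivity
    set Lg := Real.log (p * (w + 1)) with hLg
    have hL : Real.log 2 ≤ Lg := Real.log_le_log two_pos (by nlinarith)
    have t3 : ((p : ℝ) * max 1 w') ^ r ≤ Real.exp ((5 * w + 5) * Lg) := by
      calc ((p : ℝ) * max 1 w') ^ r ≤ ((p : ℝ) * (w + 1)) ^ r := by
            gcongr
            exact max_le (by linarith) hw2
        _ = Real.exp (r * Lg) := by
            rw [Real.exp_nat_mul, hLg, Real.exp_log hpos]
        _ ≤ _ := Real.exp_le_exp.2 (by nlinarith)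
    have t4 : (2 : ℝ) ^ (-(n : ℝ) / 38) ≤ Real.exp (-((10 * w + 10) * Lg)) := by
      rw [e2, Real.exp_le_exp]
      have : (0 : ℝ) ≤ n := Nat.cast_nonneg _
      nlinarith
    have t5 : Real.exp (-((10 * w + 10) * Lg)) * Real.exp ((5 * w + 5) * Lg)
        ≤ Real.exp (-w) * (Real.exp (-(2 * w)) / 32) := by
      have : (32 : ℝ) = Real.exp (5 * Real.log 2) := by
        rw [show (5 : ℝ) = (5 : ℕ) by norm_num, Real.exp_nat_mul, Real.exp_log two_pos]
        norm_num
      rw [this, ← Real.exp_sub, ← Real.exp_add, ← Real.exp_add, Real.exp_le_exp]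
      nlinarith
    have t6 : 4 * (5 * w + 6) * (Real.exp (-(2 * w)) / 32) ≤ 1 := by
      have k1 := Real.add_one_le_exp (2 * w)
      have k2 : Real.exp (-(2 * w)) * Real.exp (2 * w) = 1 := by
        rw [← Real.exp_add]; simp
      have k3 := Real.exp_pos (-(2 * w))
      nlinarith
    have t7 : 2 * ((r : ℝ) + 1) * (2 * (2 : ℝ) ^ (-(n : ℝ) / 38)) * ((p : ℝ) * max 1 w') ^ r
        ≤ Real.exp (-w) := by
      calc _ = 4 * ((r : ℝ) + 1) * ((2 : ℝ) ^ (-(n : ℝ) / 38) * ((p : ℝ) * max 1 w') ^ r) := by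
            ring
        _ ≤ 4 * (5 * w + 6) * (Real.exp (-((10 * w + 10) * Lg)) *
              Real.exp ((5 * w + 5) * Lg)) :=
            mul_le_mul (by linarith) (mul_le_mul t4 t3 (by positivity) (by positivity))
              (by positivity) (by positivity)
        _ ≤ 4 * (5 * w + 6) * (Real.exp (-w) * (Real.exp (-(2 * w)) / 32)) := by gcongr
        _ = Real.exp (-w) * (4 * (5 * w + 6) * (Real.exp (-(2 * w)) / 32)) := by ring
        _ ≤ Real.exp (-w) * 1 := by gcongr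
        _ = _ := mul_one _
    linarith

end Crest.Agent.R225U
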