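import Crest.Agent.R225U.Defs

/-!
Row 225 (S0347): binary families.
-/

set_option autoImplicit false

open Finset
open Crest.Agent.R153

namespace Crest.Agent.R225U

lemma dotz_cons {k : ℕ} {T : Type*} [AddCommGroup T] (a : T) (ψ : Fin k → T) (c : ℤ)
    (z : Fin k → ℤ) :
    dotz (Fin.cons a ψ : Fin (k + 1) → T) (Fin.cons c z : Fin (k + 1) → ℤ) = c • a + dotz ψ z := by
  simp [dotz, Fin.sum_univ_succ]

lemma dotz_add {k : ℕ} {T : Type*} [AddCommGroup T] (ψ : Fin k → T) (z z' : Fin k → ℤ) :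
    dotz ψ (z + z') = dotz ψ z + dotz ψ z' := by
  simp [dotz, add_smul, Finset.sum_add_distrib]

lemma dotz_sub {k : ℕ} {T : Type*} [AddCommGroup T] (ψ : Fin k → T) (z z' : Fin k → ℤ) :
    dotz ψ (z - z') = dotz ψ z - dotz ψ z' := by
  simp [dotz, sub_smul, Finset.sum_sub_distrib]

lemma dotz_neg {k : ℕ} {T : Type*} [AddCommGroup T] (ψ : Fin k → T) (z : Fin k → ℤ) :
    dotz ψ (-z) = -dotz ψ z := by
  simp [dotz]

lemma dotz_zero_dim {T : Type*} [AddCommGroup T] (ψ : Fin 0 → T) (z : Fin 0 → ℤ) :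
    dotz ψ z = 0 := by
  simp [dotz]

/-- the members of `Z` with first coordinate `c`, with that coordinate removed -/
noncomputable def child {k : ℕ} (Z : Finset (Fin (k + 1) → ℤ)) (c : ℤ) : Finset (Fin k → ℤ) :=
  (Z.filter (fun z => z 0 = c)).image Fin.tail

lemma mem_child {k : ℕ} {Z : Finset (Fin (k + 1) → ℤ)} {c : ℤ} {z : Fin k → ℤ} :
    z ∈ child Z c ↔ (Fin.cons c z : Fin (k + 1) → ℤ) ∈ Z := by
  unfold child
  simp only [Finset.mem_image, Finset.mem_filter]
  constructor
  · rintro ⟨y, ⟨hy, h0⟩, rfl⟩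
    rw [← h0, Fin.cons_self_tail]; exact hy
  · intro h
    exact ⟨_, ⟨h, by simp⟩, by simp⟩

lemma Bin.child {k : ℕ} {Z : Finset (Fin (k + 1) → ℤ)} (hZ : Bin Z) (c : ℤ) :
    Bin (child Z c) := by
  intro z hz z' hz' i hi
  have := hZ _ (mem_child.1 hz) _ (mem_child.1 hz') i.succ (by
    intro l hl
    refine Fin.cases ?_ (fun l' hl' => ?_) l hl
    · intro _; simp
    · simp only [Fin.cons_succ]
      exact hi l' (Fin.succ_lt_succ_iff.1 hl'))
  simpa using this

lemma Bin.exists_first {k : ℕ} {Z : Finset (Fin (k + 1) → ℤ)} (hZ : Bin Z) :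
    ∃ c : ℤ, ∀ z ∈ Z, z 0 = c ∨ z 0 = c + 1 := by
  rcases Z.eq_empty_or_nonempty with h | h
  · exact ⟨0, by simp [h]⟩
  · obtain ⟨y, hy, hmin⟩ := Z.exists_min_image (fun z => z 0) h
    refine ⟨y 0, fun z hz => ?_⟩
    have h1 := hmin z hz
    have h2 := hZ z hz y hy 0 (fun l hl => absurd hl (Fin.not_lt_zero l))
    have h3 := abs_le.1 h2
    omega

lemma prod_split_gen {M : Type*} [CommMonoid M] {k : ℕ} {Z : Finset (Fin (k + 1) → ℤ)} {c : ℤ}
    (hc : ∀ z ∈ Z, z 0 = c ∨ z 0 = c + 1) (f : (Fin (k + 1) → ℤ) → M) :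
    ∏ z ∈ Z, f z = (∏ z ∈ child Z c, f (Fin.cons c z)) *
      ∏ z ∈ child Z (c + 1), f (Fin.cons (c + 1) z) := by
  have key : ∀ d : ℤ, ∏ z ∈ child Z d, f (Fin.cons d z) =
      ∏ z ∈ Z.filter (fun z => z 0 = d), f z := by
    intro d
    unfold child
    rw [Finset.prod_image]
    · refine Finset.prod_congr rfl fun z hz => ?_
      rw [← (Finset.mem_filter.1 hz).2, Fin.cons_self_tail]
    · intro x hx y hy hxy
      have hx0 := (Finset.mem_filter.1 hx).2
      have hy0 := (Finset.mem_filter.1 hy).2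
      rw [← Fin.cons_self_tail x, ← Fin.cons_self_tail y, hxy, hx0, hy0]
  rw [key, key, ← Finset.prod_filter_mul_prod_filter_not Z (fun z => z 0 = c)]
  congr 1
  refine Finset.prod_congr ?_ fun _ _ => rfl
  ext z
  simp only [Finset.mem_filter]
  constructor
  · rintro ⟨hz, h⟩
    exact ⟨hz, (hc z hz).resolve_left h⟩
  · rintro ⟨hz, h⟩
    exact ⟨hz, by omega⟩

lemma sum_split_gen {M : Type*} [AddCommMonoid M] {k : ℕ} {Z : Finset (Fin (k + 1) → ℤ)} {c : ℤ}
    (hc : ∀ z ∈ Z, z 0 = c ∨ z 0 = c + 1) (f : (Fin (k + 1) → ℤ) → M) :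
    ∑ z ∈ Z, f z = (∑ z ∈ child Z c, f (Fin.cons c z)) +
      ∑ z ∈ child Z (c + 1), f (Fin.cons (c + 1) z) :=
  prod_split_gen (M := Multiplicative M) hc f

lemma Bin.card_le : ∀ {k : ℕ} {Z : Finset (Fin k → ℤ)}, Bin Z → Z.card ≤ 2 ^ k
  | 0, Z, _ => by
    simpa using Finset.card_le_one.2 (fun a _ b _ => Subsingleton.elim a b)
  | k + 1, Z, hZ => by
    obtain ⟨c, hc⟩ := hZ.exists_first
    have h := sum_split_gen hc (fun _ => (1 : ℕ))
    simp only [Finset.sum_const, smul_eq_mul, mul_one] at h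
    have h0 := Bin.card_le (hZ.child c)
    have h1 := Bin.card_le (hZ.child (c + 1))
    rw [h, pow_succ]; omega

/-- Averaging over a translation. -/
lemma av_add_left {T : Type*} [Fintype T] [AddCommGroup T] (f : T → ℝ) (c : T) :
    av (fun x => f (c + x)) = av f :=
  av_equiv (Equiv.addLeft c) f

lemma av_add_right {T : Type*} [Fintype T] [AddCommGroup T] (f : T → ℝ) (c : T) :
    av (fun x => f (x + c)) = av f :=
  av_equiv (Equiv.addRight c) f

/-- the shifts of the two children of a node are independent and uniform -/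
lemma av_two_children {T : Type*} [Fintype T] [AddCommGroup T] (c : ℤ) (f : T → T → ℝ) :
    (av fun a : T => av fun τ : T => f (τ + c • a) (τ + (c + 1) • a)) =
      av fun σ₀ : T => av fun σ₁ : T => f σ₀ σ₁ := by
  have h1 : ∀ a : T, (av fun τ : T => f (τ + c • a) (τ + (c + 1) • a)) =
      av fun σ : T => f σ (σ + a) := by
    intro a
    rw [← av_add_right (fun σ : T => f σ (σ + a)) (c • a)]
    refine av_congr fun τ => ?_
    rw [add_smul, one_smul, add_assoc]
  simp only [h1]
  rw [av_comm]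
  refine av_congr fun σ => ?_
  exact av_add_left (fun x => f σ x) σ

/-- differences of distinct members of a binary family are mapped to uniform elements -/
lemma Bin.av_dotz_sub {k : ℕ} {T : Type*} [Fintype T] [AddCommGroup T]
    {Z : Finset (Fin k → ℤ)} (hZ : Bin Z) {z z' : Fin k → ℤ} (hz : z ∈ Z) (hz' : z' ∈ Z)
    (hne : z ≠ z') (f : T → ℝ) :
    av (fun ψ : Fin k → T => f (dotz ψ z' - dotz ψ z)) = av f := by
  classical
  have hex : ∃ i, z i ≠ z' i := by
    by_contra h
    push Not at h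
    exact hne (funext h)
  let i := Fin.find (fun i => z i ≠ z' i) hex
  have hi : z i ≠ z' i := Fin.find_spec hex
  have hlt : ∀ l, l < i → z l = z' l := by
    intro l hl
    by_contra h
    exact absurd (Fin.find_le_of_pos hex h) (not_le.2 hl)
  have habs := hZ z hz z' hz' i hlt
  have hcase : z' i - z i = 1 ∨ z' i - z i = -1 := by
    have := abs_le.1 habs
    omega
  rw [← av_update i]
  have hupd : ∀ (ψ : Fin k → T) (c : T),
      dotz (Function.update ψ i c) z' - dotz (Function.update ψ i c) z =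
        (∑ l ∈ Finset.univ.erase i, (z' l - z l) • ψ l) + (z' i - z i) • c := by
    intro ψ c
    rw [← dotz_sub]
    unfold dotz
    rw [← Finset.sum_erase_add _ _ (Finset.mem_univ i)]
    congr 1
    · refine Finset.sum_congr rfl fun l hl => ?_
      rw [Function.update_of_ne (Finset.ne_of_mem_erase hl)]
      rfl
    · simp
  simp only [hupd]
  have hin : ∀ ψ : Fin k → T, (av fun c : T =>
      f ((∑ l ∈ Finset.univ.erase i, (z' l - z l) • ψ l) + (z' i - z i) • c)) = av f := by
    intro ψ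
    rcases hcase with h | h
    · rw [h]; simp only [one_smul]; exact av_add_left f _
    · rw [h]
      simp only [neg_smul, one_smul]
      rw [← av_add_left f (∑ l ∈ Finset.univ.erase i, (z' l - z l) • ψ l)]
      exact av_equiv (Equiv.neg T)
        (fun c => f ((∑ l ∈ Finset.univ.erase i, (z' l - z l) • ψ l) + c))
  simp only [hin]
  rw [av_const]

end Crest.Agent.R225U
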