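import Crest.Agent.R225U.Bin

/-!
Row 225 (S0347): the block lemma.
-/

set_option autoImplicit false

open Finset
open Crest.Agent.R153

namespace Crest.Agent.R225U

lemma block_sum_prod {V : Type} [Fintype V] (ν : V → ℝ) (h1 : ∑ x, ν x = 1) (b : ℕ) :
    ∑ x : Fin b → V, ∏ i, ν (x i) = 1 := by
  rw [← Fintype.sum_pow, h1, one_pow]

lemma block_var {V : Type} [Fintype V] (ν : V → ℝ) (h1 : ∑ x, ν x = 1) (f : V → ℝ)
    (hf : ∑ x, ν x * f x = 0) (b : ℕ) :
    ∑ x : Fin b → V, (∏ i, ν (x i)) * (∑ i, f (x i)) ^ 2 = b * ∑ x, ν x * f x ^ 2 := by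
  induction b with
  | zero => simp
  | succ b ih =>
    rw [← (Fin.consEquiv (fun _ : Fin (b + 1) => V)).sum_comp, Fintype.sum_prod_type]
    have h2 : ∀ (c : V) (y : Fin b → V),
        (∏ i, ν (Fin.consEquiv (fun _ : Fin (b + 1) => V) (c, y) i)) *
          (∑ i, f (Fin.consEquiv (fun _ : Fin (b + 1) => V) (c, y) i)) ^ 2 =
        ν c * f c ^ 2 * ∏ i, ν (y i) + ν c * f c * (2 * ((∏ i, ν (y i)) * ∑ i, f (y i))) +
          ν c * ((∏ i, ν (y i)) * (∑ i, f (y i)) ^ 2) := by
      intro c y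
      simp only [Fin.consEquiv_apply, Fin.prod_univ_succ, Fin.sum_univ_succ, Fin.cons_zero,
        Fin.cons_succ]
      ring
    simp only [h2, sum_add_distrib, ← mul_sum, ← sum_mul, block_sum_prod ν h1, ih, hf, h1]
    push_cast
    ring

/-- Chebyshev for independent coordinates under a product weight: if `ν ≥ 0` has sum `1` and
`|f| ≤ H` then the `∏ ν`-weight of `{|∑ f (x i) - b * mean| > S}` is at most `b H² / S²`. -/
theorem cheb_prod {V : Type} [Fintype V] (ν : V → ℝ) (h0 : ∀ x, 0 ≤ ν x) (h1 : ∑ x, ν x = 1)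
    (f : V → ℝ) {H S : ℝ} (hf : ∀ x, |f x| ≤ H) (hS : 0 < S) (b : ℕ) :
    ∑ x : Fin b → V, (∏ i, ν (x i)) * ind (S < |∑ i, f (x i) - b * ∑ y, ν y * f y|) ≤
      b * H ^ 2 / S ^ 2 := by
  set m := ∑ y, ν y * f y with hm
  have h2 : ∑ x, ν x * (f x - m) = 0 := by
    simp only [mul_sub, sum_sub_distrib, ← sum_mul, h1, ← hm]
    ring
  have h3 := block_var ν h1 (fun x => f x - m) h2 b
  have h4 : ∑ x, ν x * (f x - m) ^ 2 ≤ H ^ 2 := by
    have e : ∑ x, ν x * (f x - m) ^ 2 = ∑ x, ν x * f x ^ 2 - m ^ 2 := by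
      have : ∀ x, ν x * (f x - m) ^ 2 = ν x * f x ^ 2 - ν x * f x * (2 * m) + ν x * m ^ 2 :=
        fun x => by ring
      simp only [this, sum_add_distrib, sum_sub_distrib, ← sum_mul, h1, ← hm]
      ring
    have e2 : ∑ x, ν x * f x ^ 2 ≤ ∑ x, ν x * H ^ 2 :=
      sum_le_sum fun x _ => mul_le_mul_of_nonneg_left (sq_le_sq' (abs_le.1 (hf x)).1
        (abs_le.1 (hf x)).2) (h0 x)
    rw [← sum_mul, h1] at e2
    nlinarith [sq_nonneg m]
  rw [le_div_iff₀ (by positivity), sum_mul]
  calc _ ≤ ∑ x : Fin b → V, (∏ i, ν (x i)) * (∑ i, (f (x i) - m)) ^ 2 := by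
        refine sum_le_sum fun x _ => ?_
        rw [mul_assoc]
        refine mul_le_mul_of_nonneg_left ?_ (prod_nonneg fun i _ => h0 _)
        have e : ∑ i, (f (x i) - m) = ∑ i, f (x i) - b * m := by
          simp [sum_sub_distrib]
        rw [e]
        by_cases h : S < |∑ i, f (x i) - b * m|
        · rw [ind_pos h, one_mul, ← sq_abs (∑ i, f (x i) - b * m)]
          exact pow_le_pow_left₀ hS.le h.le 2
        · rw [ind_neg h, zero_mul]; positivity
    _ = b * ∑ x, ν x * (f x - m) ^ 2 := h3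
    _ ≤ b * H ^ 2 := mul_le_mul_of_nonneg_left h4 (Nat.cast_nonneg b)

lemma block_av_pow {U : Type} [Fintype U] (φ : U → ℝ) (b : ℕ) :
    av (fun v : Fin b → U => ∏ i, φ (v i)) = av φ ^ b := by
  rw [av_pi_prod (fun (_ : Fin b) => φ)]
  simp

lemma block_av3 {U : Type} [Fintype U] (φ : U → U → U → ℝ) (b : ℕ) :
    av (fun v : Fin b → U => av fun τ : Fin b → U => av fun τ' : Fin b → U =>
      ∏ i, φ (v i) (τ i) (τ' i)) = (av fun c => av fun a => av fun d => φ c a d) ^ b := by
  have h1 : ∀ v τ : Fin b → U, (av fun τ' : Fin b → U => ∏ i, φ (v i) (τ i) (τ' i)) =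
      ∏ i, av fun d => φ (v i) (τ i) d := fun v τ => av_pi_prod (fun i d => φ (v i) (τ i) d)
  have h2 : ∀ v : Fin b → U, (av fun τ : Fin b → U => ∏ i, av fun d => φ (v i) (τ i) d) =
      ∏ i, av fun a => av fun d => φ (v i) a d :=
    fun v => av_pi_prod (fun i a => av fun d => φ (v i) a d)
  simp only [h1, h2]
  exact block_av_pow (fun c => av fun a => av fun d => φ c a d) b

lemma block_one_dim {U : Type} [Fintype U] [AddCommGroup U] (g χ : U → ℝ) (hg : ∀ u, 0 ≤ g u)
    (hχ : ∀ u, 0 ≤ χ u) (h1 : av g ≤ 1) :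
    (av fun c => av fun a => av fun d => g a * g (a + c) * (g d * (1 + χ (d + c) / 10))) ≤
      1 + av χ * av (fun u => g u ^ 2) / 10 := by
  have hg0 : 0 ≤ av g := av_nonneg hg
  rw [av_comm]
  have e1 : ∀ a, (av fun c => av fun d => g a * g (a + c) * (g d * (1 + χ (d + c) / 10))) =
      av fun w => av fun d => g a * g w * (g d * (1 + χ (d + (w - a)) / 10)) := by
    intro a
    rw [← av_add_left (fun w => av fun d => g a * g w * (g d * (1 + χ (d + (w - a)) / 10))) a]
    simp only [add_sub_cancel_left]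
  simp only [e1]
  rw [av_comm]
  have e2 : ∀ w, (av fun a => av fun d => g a * g w * (g d * (1 + χ (d + (w - a)) / 10))) ≤
      g w * (1 + av χ * av (fun u => g u ^ 2) / 10) := by
    intro w
    have e3 : (av fun a => av fun d => g a ^ 2 * χ (d + (w - a))) =
        av χ * av (fun u => g u ^ 2) := by
      simp only [av_const_mul, av_add_right, av_mul_const]
      ring
    have e4 : (av fun a => av fun d => g d ^ 2 * χ (d + (w - a))) =
        av χ * av (fun u => g u ^ 2) := by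
      rw [av_comm]
      have : ∀ d, (av fun a => χ (d + (w - a))) = av χ := fun d =>
        (av_equiv (Equiv.subLeft w) (fun a => χ (d + a))).trans (av_add_left χ d)
      simp only [av_const_mul, this, av_mul_const]
      ring
    calc _ ≤ av fun a => av fun d => g w * (g a * g d +
            (g a ^ 2 * χ (d + (w - a)) + g d ^ 2 * χ (d + (w - a))) / 20) := by
          refine av_mono fun a => av_mono fun d => ?_
          have := mul_nonneg (mul_nonneg (hg w) (hχ (d + (w - a)))) (sq_nonneg (g a - g d))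
          nlinarith
      _ = g w * (av g * av g + (av χ * av (fun u => g u ^ 2) +
            av χ * av (fun u => g u ^ 2)) / 20) := by
          simp only [av_const_mul (g w), av_add, av_div_const, e3, e4, ← av_mul_av]
      _ ≤ _ := by
          refine mul_le_mul_of_nonneg_left ?_ (hg w)
          nlinarith
  refine (av_mono e2).trans ?_
  rw [av_mul_const]
  refine mul_le_of_le_one_left ?_ h1
  have := mul_nonneg (av_nonneg hχ) (av_nonneg fun u => sq_nonneg (g u))
  positivity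

lemma block_chernoff {s₀ p₀ S t : ℝ} (b : ℕ) (hs : 9 / 100 ≤ s₀) (hp : 92 / 100 * s₀ ≤ p₀)
    (hS : 0 < S) (ht0 : 0 ≤ t) (ht : t ≤ 72 / 100 * s₀) :
    Real.exp (Real.log (11 / 10) * (S - b * p₀)) * (1 + t / 10) ^ b ≤ Real.exp (S - b / 1000) := by
  have h1 : Real.log (11 / 10) ≤ 1 := by
    have := Real.log_le_sub_one_of_pos (show (0 : ℝ) < 11 / 10 by norm_num)
    linarith
  have h2 : 1 / 11 ≤ Real.log (11 / 10) := by
    have := Real.one_sub_inv_le_log_of_pos (show (0 : ℝ) < 11 / 10 by norm_num)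
    linarith
  have h3 : (1 + t / 10) ^ b ≤ Real.exp (b * (t / 10)) := by
    rw [Real.exp_nat_mul]
    exact pow_le_pow_left₀ (by positivity) (by linarith [Real.add_one_le_exp (t / 10)]) b
  refine (mul_le_mul_of_nonneg_left h3 (Real.exp_pos _).le).trans ?_
  rw [← Real.exp_add]
  apply Real.exp_le_exp.2
  have hb : (0 : ℝ) ≤ b := Nat.cast_nonneg b
  have h4 : 1 / 11 * p₀ ≤ Real.log (11 / 10) * p₀ := mul_le_mul_of_nonneg_right h2 (by linarith)
  have h5 : t / 10 - Real.log (11 / 10) * p₀ ≤ -1 / 1000 := by linarith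
  have h6 := mul_le_mul_of_nonneg_left h5 hb
  have h7 := mul_le_mul_of_nonneg_right h1 hS.le
  nlinarith

lemma block_exp_ind (q : Prop) : 1 + ind q / 10 = Real.exp (Real.log (11 / 10) * ind q) := by
  by_cases h : q
  · rw [ind_pos h, mul_one, Real.exp_log (by norm_num)]; norm_num
  · rw [ind_neg h]; simp

lemma block_sum_nu {U : Type} [Fintype U] (p : U → Bool → ℝ) (c : ℝ) (φ : U → Bool → ℝ) :
    ∑ x : U × Bool, p x.1 x.2 / (Fintype.card U * c) * φ x.1 x.2 =
      av (fun u => p u false * φ u false + p u true * φ u true) / c := by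
  rw [Fintype.sum_prod_type, av, div_div, sum_div]
  refine sum_congr rfl fun u _ => ?_
  rw [Fintype.sum_bool]
  ring

/-- Let `g u = p u false + p u true`, `ḡ = av g ∈ [1-β, 1]`, `ν (u,e) = p u e / (card U * ḡ)`,
`μ₁ = ∑ ν * log g`, `p₀ = ∑ ν * ind (I u) ≥ 0.92 s₀`, `π = ∑ ν * ind (p u e ≤ g u / 2) ≥ π₀`.
`Rich u := |∑ log g (u i) - b μ₁| ≤ S ∧ b p₀ - S ≤ ∑ ind (I (u i))`,
`Keep u := if Rich u then {e | b π₀ / 2 ≤ ∑ ind (p (u i) (e i) ≤ g (u i) / 2)} else ∅`,
`Λ = exp (b μ₁)`, `η = exp (2 S) / Λ`.  `kept ≤ ∏ g (u i) ≤ Λ e^S` on `Rich`; a kept leaf is at most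
`2^{-b π₀/2} ∏ g`; `1 ≥ av (∏ g) ≥ av (ind Rich) Λ e^{-S}`;
`av kept ≥ ḡ^b (1 - three Chebyshev terms)` (`cheb_prod` on `V = U × Bool`, Bernoulli).
Chernoff: `ind (Rich u) ≤ 1.1^(S - b p₀) ∏ (1 + ind (I (u i)) / 10)`, `log 1.1 ≥ 1/11`, and
`(1 + 0.072 s₀)^b 1.1^(-0.92 s₀ b) ≤ exp (-b/1000)`.  This gives `av (ind Rich) ≤ exp (S - b/1000)`,
whence `eta_le` from `1/2 ≤ av kept ≤ Λ e^S av (ind Rich)`.  Energy: expand the square,
`av_{τ,τ',v} F τ F (τ+v) F τ' F (τ'+v) ≤ Λ e^S av_{u₁,u₂,u₃} G u₁ G u₂ G u₃ ind (Rich (u₃ + u₂ - u₁))`,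
factor over coordinates (`av_pi_prod`), and use
`av_{u₁,u₂} g u₁ g u₂ ind (I (u₃ + u₂ - u₁)) ≤ av (ind I) * av g²` (`g u₁ g u₂ ≤ (g u₁² + g u₂²)/2`). -/
theorem block {U : Type} [Fintype U] [AddCommGroup U] {p : U → Bool → ℝ} {β H π₀ : ℝ}
    (hp : Block1 p β H π₀) (b : ℕ) (hb : 0 < b) {S : ℝ} (hS : 0 < S) (hπ : 0 < π₀)
    (hβ0 : 0 ≤ β) (hβ1 : β ≤ 1)
    (hloss : b * β + b * H ^ 2 / S ^ 2 + b / S ^ 2 + 4 / (b * π₀ ^ 2) ≤ 1 / 2) :
    ∃ (η : ℝ) (Rich : (Fin b → U) → Prop) (Keep : (Fin b → U) → Finset (Fin b → Bool)),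
      BlockPkg p H S (b * π₀ / 2) (b * β + b * H ^ 2 / S ^ 2 + b / S ^ 2 + 4 / (b * π₀ ^ 2))
        η Rich Keep := by
  classical
  obtain ⟨I, s₀, hs₀, hI1, hI2, hI3⟩ := hp.interval
  set g : U → ℝ := fun u => p u false + p u true with hg
  have hgpos : ∀ u, 0 < g u := fun u => add_pos (hp.pos u false) (hp.pos u true)
  have hgm1 : av g ≤ 1 := hp.mean_le
  have hgm2 : 1 - β ≤ av g := hp.mean_ge
  have hgm0 : 0 < av g := av_pos hgpos
  have hN : (0 : ℝ) < Fintype.card U := by exact_mod_cast Fintype.card_pos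
  have hb' : (0 : ℝ) < b := by exact_mod_cast hb
  let ν : U × Bool → ℝ := fun x => p x.1 x.2 / (Fintype.card U * av g)
  have hν0 : ∀ x, 0 ≤ ν x := fun x => div_nonneg (hp.pos _ _).le (by positivity)
  have hν1 : ∑ x, ν x = 1 := by
    have := block_sum_nu p (av g) (fun _ _ => 1)
    simp only [mul_one] at this
    rw [this]
    exact div_self hgm0.ne'
  set μ₁ : ℝ := ∑ x, ν x * Real.log (g x.1) with hμ₁
  set p₀ : ℝ := ∑ x, ν x * ind (I x.1) with hp₀
  set π₁ : ℝ := ∑ x, ν x * ind (p x.1 x.2 ≤ g x.1 / 2) with hπ₁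
  have hμH : μ₁ ≤ H := by
    calc μ₁ ≤ ∑ x, ν x * H := sum_le_sum fun x _ =>
          mul_le_mul_of_nonneg_left (abs_le.1 (hp.log_le x.1)).2 (hν0 x)
      _ = H := by rw [← sum_mul, hν1, one_mul]
  have hp₀' : 92 / 100 * s₀ ≤ p₀ := by
    have h := block_sum_nu p (av g) (fun u _ => ind (I u))
    simp only [← add_mul] at h
    rw [hp₀, h, le_div_iff₀ hgm0]
    have : 0 ≤ 92 / 100 * s₀ := by linarith
    exact (mul_le_of_le_one_right this hgm1).trans hI1
  have hπ' : π₀ ≤ π₁ := by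
    have h := block_sum_nu p (av g) (fun u e => ind (p u e ≤ g u / 2))
    rw [hπ₁, h, le_div_iff₀ hgm0]
    refine (mul_le_of_le_one_right hπ.le hgm1).trans (hp.minor.trans (av_mono fun u => ?_))
    have h1 := mul_nonneg (hp.pos u false).le (ind_nonneg (p u false ≤ g u / 2))
    have h2 := mul_nonneg (hp.pos u true).le (ind_nonneg (p u true ≤ g u / 2))
    rcases le_total (p u false) (p u true) with h3 | h3
    · rw [min_eq_left h3, ind_pos (show p u false ≤ g u / 2 by simp only [hg]; linarith)]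
      linarith
    · rw [min_eq_right h3, ind_pos (show p u true ≤ g u / 2 by simp only [hg]; linarith)]
      linarith
  let Rich : (Fin b → U) → Prop := fun u =>
    |∑ i, Real.log (g (u i)) - b * μ₁| ≤ S ∧ b * p₀ - S ≤ ∑ i, ind (I (u i))
  let Keep : (Fin b → U) → Finset (Fin b → Bool) := fun u =>
    univ.filter fun e => Rich u ∧ b * π₀ / 2 ≤ ∑ i, ind (p (u i) (e i) ≤ g (u i) / 2)
  have hG : ∀ u : Fin b → U, ∏ i, g (u i) = Real.exp (∑ i, Real.log (g (u i))) := by
    intro u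
    rw [Real.exp_sum]
    exact prod_congr rfl fun i _ => (Real.exp_log (hgpos _)).symm
  have hkeep : ∀ u, ¬ Rich u → Keep u = ∅ := fun u hu =>
    filter_eq_empty_iff.2 fun e _ h => hu h.1
  have hk0 : ∀ u, 0 ≤ kept p Keep u := fun u =>
    sum_nonneg fun e _ => prod_nonneg fun i _ => (hp.pos _ _).le
  have hkG : ∀ u, kept p Keep u ≤ ∏ i, g (u i) := by
    intro u
    calc kept p Keep u ≤ ∑ e : Fin b → Bool, ∏ i, p (u i) (e i) :=
          sum_le_sum_of_subset_of_nonneg (subset_univ _)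
            fun e _ _ => prod_nonneg fun i _ => (hp.pos _ _).le
      _ = ∏ i, g (u i) := by
          rw [← Fintype.prod_sum (fun i e => p (u i) e)]
          exact prod_congr rfl fun i _ => by rw [Fintype.sum_bool, add_comm]
  have hGR : ∀ u, Rich u → ∏ i, g (u i) ≤ Real.exp (b * μ₁ + S) := by
    intro u hu
    rw [hG]
    exact Real.exp_le_exp.2 (by linarith [(abs_le.1 hu.1).2])
  have hkR : ∀ u, kept p Keep u ≤ Real.exp (b * μ₁ + S) * ind (Rich u) := by
    intro u
    by_cases hu : Rich u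
    · rw [ind_pos hu, mul_one]; exact (hkG u).trans (hGR u hu)
    · rw [ind_neg hu, mul_zero, kept, hkeep u hu, sum_empty]
  have hGav : av (fun u : Fin b → U => ∏ i, g (u i)) ≤ 1 := by
    rw [block_av_pow]; exact pow_le_one₀ hgm0.le hgm1
  have hch : ∀ u, ind (Rich u) ≤
      Real.exp (Real.log (11 / 10) * (S - b * p₀)) * ∏ i, (1 + ind (I (u i)) / 10) := by
    intro u
    simp only [block_exp_ind]
    rw [← Real.exp_sum, ← Real.exp_add, ← mul_sum, ← mul_add]
    by_cases hu : Rich u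
    · rw [ind_pos hu]
      exact Real.one_le_exp (mul_nonneg (Real.log_nonneg (by norm_num)) (by linarith [hu.2]))
    · rw [ind_neg hu]; exact (Real.exp_pos _).le
  have hRav : av (fun u => ind (Rich u)) ≤ Real.exp (S - b / 1000) := by
    refine (av_mono hch).trans ?_
    rw [av_const_mul, block_av_pow (fun u => 1 + ind (I u) / 10), av_add, av_const, av_div_const]
    exact block_chernoff b hs₀ hp₀' hS (av_nonneg fun u => ind_nonneg _) hI3
  have hmean : 1 - (b * β + b * H ^ 2 / S ^ 2 + b / S ^ 2 + 4 / (b * π₀ ^ 2)) ≤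
      av (kept p Keep) := by
    have c1 := cheb_prod ν hν0 hν1 (fun x => Real.log (g x.1)) (fun x => hp.log_le x.1) hS b
    have c2 := cheb_prod ν hν0 hν1 (fun x => ind (I x.1)) (H := 1)
      (fun x => by rw [abs_of_nonneg (ind_nonneg _)]; exact ind_le_one _) hS b
    have c3 := cheb_prod ν hν0 hν1 (fun x => ind (p x.1 x.2 ≤ g x.1 / 2)) (H := 1)
      (fun x => by rw [abs_of_nonneg (ind_nonneg _)]; exact ind_le_one _)
      (show 0 < b * π₀ / 2 by positivity) b
    have e3 : (b : ℝ) * 1 ^ 2 / (b * π₀ / 2) ^ 2 = 4 / (b * π₀ ^ 2) := by field_simp; ring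
    rw [e3, ← hπ₁] at c3
    rw [one_pow, mul_one, ← hp₀] at c2
    rw [← hμ₁] at c1
    have e : av (kept p Keep) = av g ^ b * ∑ x : Fin b → U × Bool, (∏ i, ν (x i)) *
        ind ((fun i => (x i).2) ∈ Keep (fun i => (x i).1)) := by
      rw [← (Equiv.arrowProdEquivProdArrow (Fin b) (fun _ => U) (fun _ => Bool)).symm.sum_comp,
        Fintype.sum_prod_type, av, mul_sum, sum_div]
      refine sum_congr rfl fun u _ => ?_
      have : kept p Keep u = ∑ e : Fin b → Bool, (∏ i, p (u i) (e i)) * ind (e ∈ Keep u) := by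
        simp only [ind_eq_ite, mul_ite, mul_one, mul_zero, sum_ite_mem, univ_inter, kept]
      rw [this, mul_sum, sum_div]
      refine sum_congr rfl fun e _ => ?_
      simp only [Equiv.arrowProdEquivProdArrow_symm_apply, ν, prod_div_distrib, prod_const,
        card_univ, Fintype.card_fin, Fintype.card_fun, mul_pow]
      push_cast
      field_simp
    have e2 : 1 - (b * H ^ 2 / S ^ 2 + b / S ^ 2 + 4 / (b * π₀ ^ 2)) ≤
        ∑ x : Fin b → U × Bool, (∏ i, ν (x i)) *
          ind ((fun i => (x i).2) ∈ Keep (fun i => (x i).1)) := by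
      have e4 : ∀ x : Fin b → U × Bool, (∏ i, ν (x i)) -
          ((∏ i, ν (x i)) * ind (S < |∑ i, Real.log (g (x i).1) - b * μ₁|) +
           (∏ i, ν (x i)) * ind (S < |∑ i, ind (I (x i).1) - b * p₀|) +
           (∏ i, ν (x i)) *
            ind (b * π₀ / 2 < |∑ i, ind (p (x i).1 (x i).2 ≤ g (x i).1 / 2) - b * π₁|)) ≤
          (∏ i, ν (x i)) * ind ((fun i => (x i).2) ∈ Keep (fun i => (x i).1)) := by
        intro x
        rw [← mul_add, ← mul_add, ← mul_one_sub]
        refine mul_le_mul_of_nonneg_left ?_ (prod_nonneg fun i _ => hν0 _)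
        have n1 := ind_nonneg (S < |∑ i, Real.log (g (x i).1) - b * μ₁|)
        have n2 := ind_nonneg (S < |∑ i, ind (I (x i).1) - b * p₀|)
        have n3 := ind_nonneg
          (b * π₀ / 2 < |∑ i, ind (p (x i).1 (x i).2 ≤ g (x i).1 / 2) - b * π₁|)
        have n4 := ind_nonneg ((fun i => (x i).2) ∈ Keep (fun i => (x i).1))
        by_cases h1 : S < |∑ i, Real.log (g (x i).1) - b * μ₁|
        · rw [ind_pos h1]; linarith
        by_cases h2 : S < |∑ i, ind (I (x i).1) - b * p₀|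
        · rw [ind_pos h2]; linarith
        by_cases h3 : b * π₀ / 2 < |∑ i, ind (p (x i).1 (x i).2 ≤ g (x i).1 / 2) - b * π₁|
        · rw [ind_pos h3]; linarith
        have h4 : (fun i => (x i).2) ∈ Keep (fun i => (x i).1) := by
          have h5 := (abs_le.1 (not_lt.1 h2)).1
          have h6 := (abs_le.1 (not_lt.1 h3)).1
          have h7 := mul_le_mul_of_nonneg_left hπ' hb'.le
          exact mem_filter.2 ⟨mem_univ _, ⟨not_lt.1 h1, by linarith⟩, by linarith⟩
        rw [ind_pos h4]; linarith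
      have e5 := sum_le_sum fun x (_ : x ∈ univ) => e4 x
      rw [sum_sub_distrib, sum_add_distrib, sum_add_distrib, block_sum_prod ν hν1] at e5
      linarith
    have e6 : 1 - b * β ≤ av g ^ b := by
      have := one_add_mul_le_pow (a := -β) (by linarith) b
      refine le_trans (by linarith) (this.trans (pow_le_pow_left₀ (by linarith) (by linarith) b))
    have e7 : 0 ≤ b * β := by positivity
    have e8 : 0 ≤ b * H ^ 2 / S ^ 2 + b / S ^ 2 + 4 / (b * π₀ ^ 2) := by positivity
    rw [e]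
    calc _ ≤ (1 - b * β) * (1 - (b * H ^ 2 / S ^ 2 + b / S ^ 2 + 4 / (b * π₀ ^ 2))) := by
          nlinarith [mul_nonneg e7 e8]
      _ ≤ _ := mul_le_mul e6 e2 (by linarith) (by positivity)
  refine ⟨Real.exp (2 * S - b * μ₁), Rich, Keep, ?_, ?_, hkeep, ?_, ?_, ?_, hmean,
    (av_mono hkG).trans hGav, ?_⟩
  · exact Real.exp_le_exp.2 (by nlinarith)
  · have h1 : 1 / 2 ≤ Real.exp (b * μ₁ + S) * Real.exp (S - b / 1000) := by
      have h2 := av_mono hkR
      rw [av_const_mul] at h2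
      have h3 := mul_le_mul_of_nonneg_left hRav (Real.exp_pos (b * μ₁ + S)).le
      linarith
    have h4 := mul_le_mul_of_nonneg_left h1 (Real.exp_pos (2 * S - b * μ₁)).le
    rw [← Real.exp_add, ← Real.exp_add] at h4
    rw [show 4 * S - b / 1000 = 2 * S - b * μ₁ + (b * μ₁ + S + (S - b / 1000)) by ring]
    linarith
  · intro u e he
    obtain ⟨hu, he⟩ := (mem_filter.1 he).2
    have h1 : ∏ i, p (u i) (e i) ≤
        (∏ i, g (u i)) * (2 : ℝ) ^ (-∑ i, ind (p (u i) (e i) ≤ g (u i) / 2)) := by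
      rw [← sum_neg_distrib, Real.rpow_sum_of_pos two_pos, ← prod_mul_distrib]
      refine prod_le_prod (fun i _ => (hp.pos _ _).le) fun i _ => ?_
      by_cases h : p (u i) (e i) ≤ g (u i) / 2
      · rw [ind_pos h, Real.rpow_neg_one]; linarith
      · rw [ind_neg h, neg_zero, Real.rpow_zero, mul_one]
        have h2 := hp.pos (u i) false
        have h3 := hp.pos (u i) true
        cases e i <;> simp only [hg] <;> linarith
    have h2 : (2 : ℝ) ^ (-∑ i, ind (p (u i) (e i) ≤ g (u i) / 2)) ≤ (2 : ℝ) ^ (-(b * π₀ / 2)) :=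
      Real.rpow_le_rpow_of_exponent_le one_le_two (by linarith)
    calc _ ≤ Real.exp (2 * S - b * μ₁) * (Real.exp (b * μ₁ + S) * (2 : ℝ) ^ (-(b * π₀ / 2))) :=
          mul_le_mul_of_nonneg_left (h1.trans (mul_le_mul (hGR u hu) h2 (by positivity)
            (Real.exp_pos _).le)) (Real.exp_pos _).le
      _ = _ := by rw [← mul_assoc, ← Real.exp_add]; congr 2; ring
  · intro u
    calc _ ≤ Real.exp (2 * S - b * μ₁) * Real.exp (b * μ₁ + S) :=
          mul_le_mul_of_nonneg_left ((hkR u).trans (mul_le_of_le_one_right (Real.exp_pos _).le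
            (ind_le_one _))) (Real.exp_pos _).le
      _ = _ := by rw [← Real.exp_add]; congr 1; ring
  · have h1 : ∀ u, ind (Rich u) ≤ Real.exp (S - b * μ₁) * ∏ i, g (u i) := by
      intro u
      rw [hG, ← Real.exp_add]
      by_cases hu : Rich u
      · rw [ind_pos hu]
        exact Real.one_le_exp (by linarith [(abs_le.1 hu.1).1])
      · rw [ind_neg hu]; exact (Real.exp_pos _).le
    refine (av_mono h1).trans ?_
    rw [av_const_mul, ← Real.exp_add, show 2 * S - b * μ₁ + -S = S - b * μ₁ by ring]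
    exact mul_le_of_le_one_right (Real.exp_pos _).le hGav
  · have h1 : ∀ v : Fin b → U, (av fun τ => kept p Keep τ * kept p Keep (τ + v)) ^ 2 ≤
        Real.exp (b * μ₁ + S) * Real.exp (Real.log (11 / 10) * (S - b * p₀)) *
          av fun τ : Fin b → U => av fun τ' : Fin b → U =>
            ∏ i, (g (τ i) * g (τ i + v i) * (g (τ' i) * (1 + ind (I (τ' i + v i)) / 10))) := by
      intro v
      rw [sq, av_mul_av, ← av_const_mul]
      refine av_mono fun τ => ?_
      rw [← av_const_mul]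
      refine av_mono fun τ' => ?_
      have h2 := (hkR (τ' + v)).trans (mul_le_mul_of_nonneg_left (hch (τ' + v))
        (Real.exp_pos _).le)
      have hG0 : ∀ u : Fin b → U, 0 ≤ ∏ i, g (u i) := fun u => prod_nonneg fun i _ => (hgpos _).le
      calc _ ≤ (∏ i, g (τ i)) * (∏ i, g ((τ + v) i)) * ((∏ i, g (τ' i)) *
            (Real.exp (b * μ₁ + S) * (Real.exp (Real.log (11 / 10) * (S - b * p₀)) *
              ∏ i, (1 + ind (I ((τ' + v) i)) / 10)))) :=
            mul_le_mul (mul_le_mul (hkG _) (hkG _) (hk0 _) (hG0 _))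
              (mul_le_mul (hkG _) h2 (hk0 _) (hG0 _)) (mul_nonneg (hk0 _) (hk0 _))
              (mul_nonneg (hG0 _) (hG0 _))
        _ = _ := by
            simp only [prod_mul_distrib, Pi.add_apply]
            ring
    have h2 := av_mono h1
    rw [av_const_mul, block_av3 (fun c a d => g a * g (a + c) * (g d * (1 + ind (I (d + c)) / 10)))]
      at h2
    have h3 := block_one_dim g (fun u => ind (I u)) (fun u => (hgpos u).le)
      (fun u => ind_nonneg _) hgm1
    have h4 : 0 ≤ av fun c => av fun a => av fun d =>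
        g a * g (a + c) * (g d * (1 + ind (I (d + c)) / 10)) :=
      av_nonneg fun c => av_nonneg fun a => av_nonneg fun d => by
        have := hgpos a
        have := hgpos (a + c)
        have := hgpos d
        have := ind_nonneg (I (d + c))
        positivity
    have h5 := block_chernoff b hs₀ hp₀' hS
      (mul_nonneg (av_nonneg fun u => ind_nonneg (I u)) (av_nonneg fun u => sq_nonneg (g u))) hI2
    have h6 := (mul_le_mul_of_nonneg_left (pow_le_pow_left₀ h4 h3 b)
      (Real.exp_pos (Real.log (11 / 10) * (S - b * p₀))).le).trans h5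
    rw [mul_assoc] at h2
    calc _ ≤ Real.exp (2 * S - b * μ₁) * (Real.exp (b * μ₁ + S) * Real.exp (S - b / 1000)) :=
          mul_le_mul_of_nonneg_left (h2.trans (mul_le_mul_of_nonneg_left h6 (Real.exp_pos _).le))
            (Real.exp_pos _).le
      _ = _ := by rw [← Real.exp_add, ← Real.exp_add]; congr 1; ring

end Crest.Agent.R225U
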