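import Crest.Agent.R225U.Riem

/-!
Row 225 (S0347): one block coordinate.
-/

set_option autoImplicit false

open Finset
open Crest.Agent.R153

namespace Crest.Agent.R225U

lemma block1_av (q : ℕ) [NeZero q] (F : ℕ → ℝ) :
    av (fun u : ZMod q => F u.val) = (∑ j ∈ range q, F j) / q := by
  unfold av
  rw [ZMod.card]
  congr 1
  obtain ⟨n, rfl⟩ : ∃ n, q = n + 1 := ⟨q - 1, by have := NeZero.pos q; omega⟩
  exact Fin.sum_univ_eq_sum_range F (n + 1)

lemma block1_phi (t : ℝ) : phiv 1 t = phiv 1 0 * Real.exp (-(t ^ 2) / 2) := by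
  simp [phiv]

lemma block1_phi0_le : phiv 1 0 ≤ 2 / 5 := by
  have h : (5 / 2 : ℝ) ≤ Real.sqrt (2 * Real.pi * 1) :=
    Real.le_sqrt_of_sq_le (by have := Real.pi_gt_d2; linarith)
  have e : phiv 1 0 = (Real.sqrt (2 * Real.pi * 1))⁻¹ := by simp [phiv]
  rw [e]
  calc _ ≤ (5 / 2 : ℝ)⁻¹ := inv_anti₀ (by norm_num) h
    _ = 2 / 5 := by norm_num

lemma block1_phi0_ge : 39 / 100 ≤ phiv 1 0 := by
  have h : Real.sqrt (2 * Real.pi * 1) ≤ 100 / 39 :=
    Real.sqrt_le_iff.2 ⟨by norm_num, by have := Real.pi_lt_d2; linarith⟩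
  have h0 : 0 < Real.sqrt (2 * Real.pi * 1) := Real.sqrt_pos.2 (by have := Real.pi_pos; linarith)
  have e : phiv 1 0 = (Real.sqrt (2 * Real.pi * 1))⁻¹ := by simp [phiv]
  rw [e]
  calc (39 / 100 : ℝ) = (100 / 39 : ℝ)⁻¹ := by norm_num
    _ ≤ _ := inv_anti₀ h0 h

lemma block1_phi_pos (t : ℝ) : 0 < phiv 1 t := by
  rw [block1_phi]
  have := block1_phi0_ge
  exact mul_pos (by linarith) (Real.exp_pos _)

lemma block1_phi_le (t : ℝ) : phiv 1 t ≤ phiv 1 0 := by
  rw [block1_phi t]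
  have h1 : Real.exp (-(t ^ 2) / 2) ≤ 1 := Real.exp_le_one_iff.2 (by nlinarith [sq_nonneg t])
  have := block1_phi_pos 0
  nlinarith

lemma block1_phi_ge {t a : ℝ} (h : t ^ 2 / 2 ≤ a) : phiv 1 0 * Real.exp (-a) ≤ phiv 1 t := by
  rw [block1_phi t]
  exact mul_le_mul_of_nonneg_left (Real.exp_le_exp.2 (by linarith)) (block1_phi_pos 0).le

/-- the leaf weight at position `j` -/
noncomputable def block1_A (q Δ : ℕ) (h : ℝ) (j : ℕ) : ℝ :=
  h * phiv 1 (h / q * ((j + Δ : ℕ) : ℝ))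

lemma block1_pb_false (q Δ : ℕ) (h : ℝ) (u : ZMod q) : pb q Δ h u false = block1_A q Δ h u.val := by
  simp [pb, block1_A]

lemma block1_pb_true (q Δ : ℕ) (h : ℝ) (u : ZMod q) :
    pb q Δ h u true = block1_A q Δ h (q - 1 - u.val) := by
  simp [pb, block1_A]

section
variable {q Δ : ℕ} {h : ℝ} (hh : 8 ≤ h) (hΔ : 1 ≤ Δ) (hq : 8 * h ^ 2 * Δ ≤ q)
include hh hΔ hq

omit hh in
lemma block1_q : 8 * h ^ 2 ≤ q := by
  have : (1 : ℝ) ≤ Δ := by exact_mod_cast hΔ
  nlinarith [sq_nonneg h]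

lemma block1_qpos : (0 : ℝ) < q := by
  have := block1_q hΔ hq
  nlinarith

omit hΔ hq in
lemma block1_A_pos (j : ℕ) : 0 < block1_A q Δ h j :=
  mul_pos (by linarith) (block1_phi_pos _)

omit hΔ hq in
lemma block1_A_le (j : ℕ) : block1_A q Δ h j ≤ h * phiv 1 0 :=
  mul_le_mul_of_nonneg_left (block1_phi_le _) (by linarith)

/-- lower bound of a leaf at position `j ≤ r q / h` -/
lemma block1_A_ge {j : ℕ} {r a : ℝ} (hj : h * j ≤ r * q) (ha : (r + 1 / (8 * h)) ^ 2 / 2 ≤ a) :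
    h * phiv 1 0 * Real.exp (-a) ≤ block1_A q Δ h j := by
  have hq0 := block1_qpos hh hΔ hq
  have hh0 : 0 < h := by linarith
  unfold block1_A
  rw [mul_assoc]
  refine mul_le_mul_of_nonneg_left (block1_phi_ge (le_trans ?_ ha)) hh0.le
  have h1 : h / q * ((j + Δ : ℕ) : ℝ) ≤ r + 1 / (8 * h) := by
    have e : h / q * ((j + Δ : ℕ) : ℝ) = h * j / q + h * Δ / q := by push_cast; ring
    have a1 : h * j / q ≤ r := by rwa [div_le_iff₀ hq0]
    have a2 : h * Δ / q ≤ 1 / (8 * h) := by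
      rw [div_le_div_iff₀ hq0 (by positivity)]; nlinarith
    linarith
  have h0 : 0 ≤ h / q * ((j + Δ : ℕ) : ℝ) := by positivity
  have := pow_le_pow_left₀ h0 h1 2
  linarith

omit hh hΔ hq in
lemma block1_sumA : (∑ j ∈ range q, block1_A q Δ h j) / q =
    ∑ j ∈ range q, h / q * phiv 1 (h / q * ((j + Δ : ℕ) : ℝ)) := by
  rw [sum_div]
  refine sum_congr rfl fun j _ => ?_
  unfold block1_A
  ring

omit hh hΔ hq in
lemma block1_mean [NeZero q] : av (fun u => pb q Δ h u false + pb q Δ h u true) =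
    2 * ∑ j ∈ range q, h / q * phiv 1 (h / q * ((j + Δ : ℕ) : ℝ)) := by
  simp only [block1_pb_false, block1_pb_true]
  rw [block1_av q (fun j => block1_A q Δ h j + block1_A q Δ h (q - 1 - j)), sum_add_distrib,
    sum_range_reflect (block1_A q Δ h) q, ← block1_sumA]
  ring

lemma block1_log (j k : ℕ) (hj : j ≤ q) :
    |Real.log (block1_A q Δ h j + block1_A q Δ h k)| ≤ h ^ 2 := by
  have hh0 : 0 < h := by linarith
  have p1 := block1_A_pos (q := q) (Δ := Δ) hh j
  have p2 := block1_A_pos (q := q) (Δ := Δ) hh k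
  have l1 := block1_A_le (q := q) (Δ := Δ) hh j
  have l2 := block1_A_le (q := q) (Δ := Δ) hh k
  have c1 := block1_phi0_le
  have c2 := block1_phi0_ge
  rw [abs_le]
  constructor
  · rw [Real.le_log_iff_exp_le (by linarith)]
    have hj' : (j : ℝ) ≤ q := by exact_mod_cast hj
    have h8 : 1 / (8 * h) ≤ 1 := by rw [div_le_one (by positivity)]; linarith
    have h8' : 0 ≤ 1 / (8 * h) := by positivity
    have := block1_A_ge hh hΔ hq (j := j) (r := h) (a := h ^ 2) (by gcongr) (by nlinarith)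
    have h1 : 1 ≤ h * phiv 1 0 := by nlinarith
    nlinarith [Real.exp_pos (-h ^ 2)]
  · rw [Real.log_le_iff_le_exp (by linarith)]
    have := Real.add_one_le_exp (h ^ 2)
    nlinarith

lemma block1_minor [NeZero q] : Real.exp (-h ^ 2 / 8) / (20 * h) ≤
    av (fun u => min (pb q Δ h u false) (pb q Δ h u true)) := by
  have hh0 : 0 < h := by linarith
  have hq0 := block1_qpos hh hΔ hq
  have hq8 := block1_q hΔ hq
  have hh2 : 64 ≤ h ^ 2 := by nlinarith
  simp only [block1_pb_false, block1_pb_true]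
  rw [block1_av q (fun j => min (block1_A q Δ h j) (block1_A q Δ h (q - 1 - j)))]
  set K := ⌊(q : ℝ) / h ^ 2⌋₊ with hK
  have hK1 : (K : ℝ) ≤ q / h ^ 2 := Nat.floor_le (by positivity)
  have hK2 : (q : ℝ) / h ^ 2 < K + 1 := Nat.lt_floor_add_one _
  have hK3 : 8 ≤ (q : ℝ) / h ^ 2 := by rwa [le_div_iff₀ (by positivity)]
  have hK4 : (q : ℝ) / h ^ 2 ≤ q / 64 := by gcongr
  have hKq : q / 2 + K ≤ q := by
    have : (64 * K : ℝ) ≤ q := by linarith
    have : 64 * K ≤ q := by exact_mod_cast this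
    omega
  have key : ∀ j : ℕ, (j : ℝ) ≤ q / 2 + q / h ^ 2 →
      h * (39 / 100) * (Real.exp (-h ^ 2 / 8) * (2 / 5)) ≤ block1_A q Δ h j := by
    intro j hj
    have h1 : h * j ≤ (h / 2 + 1 / h) * q := by
      calc h * j ≤ h * (q / 2 + q / h ^ 2) := by gcongr
        _ = (h / 2 + 1 / h) * q := by field_simp
    have h2 : (h / 2 + 1 / h + 1 / (8 * h)) ^ 2 / 2 ≤ h ^ 2 / 8 + 3 / 5 := by
      have e : (h / 2 + 1 / h + 1 / (8 * h)) ^ 2 / 2 = h ^ 2 / 8 + 9 / 16 + 81 / (128 * h ^ 2) := by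
        field_simp; ring
      have : 81 / (128 * h ^ 2) ≤ 81 / (128 * 64) := by gcongr
      rw [e]; linarith
    refine le_trans ?_ (block1_A_ge hh hΔ hq h1 h2)
    have e : Real.exp (-(h ^ 2 / 8 + 3 / 5)) = Real.exp (-h ^ 2 / 8) * Real.exp (-(3 / 5)) := by
      rw [← Real.exp_add]; congr 1; ring
    have h3 : (2 / 5 : ℝ) ≤ Real.exp (-(3 / 5)) := by
      have := Real.add_one_le_exp (-(3 / 5) : ℝ); linarith
    rw [e]
    have := block1_phi0_ge
    gcongr
  have hsub : Ico (q / 2) (q / 2 + K) ⊆ range q := fun j hj => by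
    rw [mem_Ico] at hj; rw [mem_range]; omega
  have h1 : ∑ _j ∈ Ico (q / 2) (q / 2 + K), h * (39 / 100) * (Real.exp (-h ^ 2 / 8) * (2 / 5)) ≤
      ∑ j ∈ range q, min (block1_A q Δ h j) (block1_A q Δ h (q - 1 - j)) := by
    refine le_trans (sum_le_sum fun j hj => ?_) (sum_le_sum_of_subset_of_nonneg hsub fun j _ _ =>
      (lt_min (block1_A_pos hh _) (block1_A_pos hh _)).le)
    rw [mem_Ico] at hj
    have a1 : 2 * j ≤ q + 2 * K := by omega
    have a2 : 2 * (q - 1 - j) ≤ q := by omega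
    have a1' : (2 * j : ℝ) ≤ q + 2 * K := by exact_mod_cast a1
    have a2' : (2 * ((q - 1 - j : ℕ) : ℝ)) ≤ q := by exact_mod_cast a2
    exact le_min (key _ (by linarith)) (key _ (by linarith))
  rw [sum_const, Nat.card_Ico, Nat.add_sub_cancel_left, nsmul_eq_mul] at h1
  rw [le_div_iff₀ hq0]
  refine le_trans ?_ h1
  have hE := Real.exp_pos (-h ^ 2 / 8)
  have h2 : (q : ℝ) / h ^ 2 / 2 ≤ K := by linarith
  calc Real.exp (-h ^ 2 / 8) / (20 * h) * q
      = (q : ℝ) / h ^ 2 / 2 * (h * (1 / 4) * (Real.exp (-h ^ 2 / 8) * (2 / 5))) := by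
        field_simp; ring
    _ ≤ _ := by
        have a : h * (1 / 4) ≤ h * (39 / 100) := by linarith
        gcongr

lemma block1_cross {j : ℕ} (hj : j < q) :
    2 * (block1_A q Δ h j * block1_A q Δ h (q - 1 - j)) ≤ 1 / 100 * (h * phiv 1 0) := by
  have hh0 : 0 < h := by linarith
  have hq0 := block1_qpos hh hΔ hq
  unfold block1_A
  set x := h / q * ((j + Δ : ℕ) : ℝ) with hx
  set y := h / q * ((q - 1 - j + Δ : ℕ) : ℝ) with hy
  have hxy : h ≤ x + y := by
    have a : q ≤ (j + Δ) + (q - 1 - j + Δ) := by omega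
    have a' : (q : ℝ) ≤ ((j + Δ : ℕ) : ℝ) + ((q - 1 - j + Δ : ℕ) : ℝ) := by exact_mod_cast a
    calc h = h / q * q := by field_simp
      _ ≤ h / q * (((j + Δ : ℕ) : ℝ) + ((q - 1 - j + Δ : ℕ) : ℝ)) := by gcongr
      _ = x + y := by rw [hx, hy]; ring
  clear_value x y
  have h1 : h ^ 2 ≤ (x + y) ^ 2 := pow_le_pow_left₀ hh0.le hxy 2
  have h2 : Real.exp (-(x ^ 2) / 2) * Real.exp (-(y ^ 2) / 2) ≤ Real.exp (-(h ^ 2 / 4)) := by
    rw [← Real.exp_add]
    exact Real.exp_le_exp.2 (by nlinarith [sq_nonneg (x - y)])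
  have h3 : 80 * h * Real.exp (-(h ^ 2 / 4)) ≤ 1 := by
    have a := Real.pow_div_factorial_le_exp (h ^ 2 / 4) (by positivity) 4
    have b : 80 * h ≤ (h ^ 2 / 4) ^ 4 / (Nat.factorial 4 : ℕ) := by
      have c : (8 : ℝ) ^ 7 ≤ h ^ 7 := pow_le_pow_left₀ (by norm_num) hh 7
      have e : (h ^ 2 / 4) ^ 4 / (Nat.factorial 4 : ℕ) = h * h ^ 7 / 6144 := by
        norm_num [Nat.factorial]; ring
      rw [e, le_div_iff₀ (by norm_num)]
      nlinarith
    rw [Real.exp_neg, ← div_eq_mul_inv, div_le_one (Real.exp_pos _)]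
    linarith
  have c1 := block1_phi0_le
  have c0 := block1_phi_pos 0
  have hE := Real.exp_pos (-(h ^ 2 / 4))
  rw [block1_phi x, block1_phi y]
  calc 2 * (h * (phiv 1 0 * Real.exp (-(x ^ 2) / 2)) * (h * (phiv 1 0 * Real.exp (-(y ^ 2) / 2))))
      = (h * phiv 1 0) * (2 * h * phiv 1 0 *
          (Real.exp (-(x ^ 2) / 2) * Real.exp (-(y ^ 2) / 2))) := by ring
    _ ≤ (h * phiv 1 0) * (2 * h * (2 / 5) * Real.exp (-(h ^ 2 / 4))) := by gcongr
    _ ≤ (h * phiv 1 0) * (1 / 100) := by gcongr; linarith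
    _ = _ := by ring

lemma block1_sq [NeZero q] : av (fun u => (pb q Δ h u false + pb q Δ h u true) ^ 2) ≤
    72 / 100 * (h * phiv 1 0) := by
  have hh0 : 0 < h := by linarith
  have hq0 := block1_qpos hh hΔ hq
  simp only [block1_pb_false, block1_pb_true]
  rw [block1_av q (fun j => (block1_A q Δ h j + block1_A q Δ h (q - 1 - j)) ^ 2), div_le_iff₀ hq0]
  have h1 : ∑ j ∈ range q, block1_A q Δ h j ^ 2 ≤ q * h * (71 / 200 * phiv 1 0) := by
    have := riem_sq_le (s := h / q) (by positivity) Δ q hΔ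
    calc ∑ j ∈ range q, block1_A q Δ h j ^ 2
        = q * h * ∑ j ∈ range q, h / q * phiv 1 (h / q * ((j + Δ : ℕ) : ℝ)) ^ 2 := by
          rw [mul_sum]
          refine sum_congr rfl fun j _ => ?_
          unfold block1_A
          field_simp
      _ ≤ _ := by gcongr
  calc ∑ j ∈ range q, (block1_A q Δ h j + block1_A q Δ h (q - 1 - j)) ^ 2
      ≤ ∑ j ∈ range q, (block1_A q Δ h j ^ 2 + block1_A q Δ h (q - 1 - j) ^ 2
          + 1 / 100 * (h * phiv 1 0)) := by
        refine sum_le_sum fun j hj => ?_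
        have := block1_cross hh hΔ hq (mem_range.1 hj)
        nlinarith
    _ = 2 * ∑ j ∈ range q, block1_A q Δ h j ^ 2 + q * (1 / 100 * (h * phiv 1 0)) := by
        rw [sum_add_distrib, sum_add_distrib, sum_range_reflect (fun j => block1_A q Δ h j ^ 2) q,
          sum_const, card_range, nsmul_eq_mul]
        ring
    _ ≤ _ := by nlinarith

end

/-- Let `f j = h φ(h j / q)`, `φ0 = phiv 1 0 = (2π)^{-1/2} ∈ [0.39, 0.4]`.  Averages over `ZMod q` are
`(1/q) ∑_{u ∈ range q}` (`ZMod.val` bijection), and `u ↦ q - 1 - u` is an involution of `range q`.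
mean: `(2/q) ∑_{u<q} f (u + Δ)`, use `riem_le`, `riem_ge` with `s = h/q`.
log: `exp (-h²) ≤ f j` for `j ≤ q + Δ`, and `f j ≤ h/2`.
minor: for the at least `q/h²` values `u` with `|u - q/2| ≤ q/h²` both leaves are
`≥ h φ0 exp (-h²/8 - 0.6)`.
interval: `J = ⌊q/(4h)⌋₊`, `I u := u.val < J ∨ q - 1 - u.val < J`, `av (ind I) = 2J/q`,
`s₀ = (2J/q) h φ0 ≥ 0.18`; on `I` one leaf is `≥ h φ0 exp (-0.27²/2) ≥ 0.92 h φ0`;
`av g² ≤ 2 h (71/200) φ0 + 2 h² φ0 φ(h/2) ≤ 0.72 h φ0` (`riem_sq_le`; the two arguments add up to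
at least `h`; `2 h φ(h/2) ≤ h exp (-h) ≤ 0.01` for `h ≥ 8`). -/
theorem block1 (q Δ : ℕ) [NeZero q] {h : ℝ} (hh : 8 ≤ h) (hΔ : 1 ≤ Δ)
    (hq : 8 * h ^ 2 * Δ ≤ q) :
    Block1 (pb q Δ h) (h * Δ / q + Real.exp (-h ^ 2 / 2)) (h ^ 2)
      (Real.exp (-h ^ 2 / 8) / (20 * h)) := by
  have hh0 : 0 < h := by linarith
  have hq0 := block1_qpos hh hΔ hq
  have hq8 := block1_q hΔ hq
  have c1 := block1_phi0_le
  have c2 := block1_phi0_ge
  refine ⟨fun u e => ?_, ?_, ?_, fun u => ?_, block1_minor hh hΔ hq, ?_⟩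
  · cases e
    · rw [block1_pb_false]; exact block1_A_pos hh _
    · rw [block1_pb_true]; exact block1_A_pos hh _
  · rw [block1_mean]
    have := riem_le (s := h / q) (by positivity) Δ q hΔ
    linarith
  · rw [block1_mean]
    have := riem_ge (s := h / q) (by positivity) Δ q
    have e1 : h / q * q = h := by field_simp
    have e2 : h / q * Δ = h * Δ / q := by ring
    rw [e1, e2] at this
    linarith
  · rw [block1_pb_false, block1_pb_true]
    exact block1_log hh hΔ hq _ _ (ZMod.val_lt u).le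
  · set J := ⌊(q : ℝ) / (4 * h)⌋₊ with hJ
    have hJ1 : (J : ℝ) ≤ q / (4 * h) := Nat.floor_le (by positivity)
    have hJ2 : (q : ℝ) / (4 * h) < J + 1 := Nat.lt_floor_add_one _
    have hJ3 : 16 ≤ (q : ℝ) / (4 * h) := by rw [le_div_iff₀ (by positivity)]; nlinarith
    have hJ4 : (q : ℝ) / (4 * h) ≤ q / 1 := by gcongr; linarith
    have hJq : J ≤ q := by
      have : (J : ℝ) ≤ q := by linarith
      exact_mod_cast this
    have hρ : av (fun u : ZMod q => ind (u.val < J)) = J / q := by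
      rw [block1_av q (fun j => ind (j < J))]
      congr 1
      simp only [ind_eq_ite, sum_boole]
      congr 1
      have : (range q).filter (fun j => j < J) = range J := by
        ext j; simp only [mem_filter, mem_range]; omega
      rw [this, card_range]
    have hρ0 : 0 ≤ av (fun u : ZMod q => ind (u.val < J)) := av_nonneg fun u => ind_nonneg _
    refine ⟨fun u => u.val < J, av (fun u : ZMod q => ind (u.val < J)) * (h * phiv 1 0), ?_, ?_, ?_, ?_⟩
    · rw [hρ]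
      have h1 : 15 / 16 * ((q : ℝ) / (4 * h)) ≤ J := by linarith
      calc (9 / 100 : ℝ) ≤ 15 / 64 * (39 / 100) := by norm_num
        _ = 15 / 16 * ((q : ℝ) / (4 * h)) / q * (h * (39 / 100)) := by field_simp; norm_num
        _ ≤ _ := by gcongr
    · rw [mul_comm (av _), ← mul_assoc, ← av_const_mul]
      refine av_mono fun u => ?_
      by_cases hu : u.val < J
      · rw [ind_pos hu, mul_one, mul_one, block1_pb_false, block1_pb_true]
        have hu' : (u.val : ℝ) ≤ J := by exact_mod_cast hu.le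
        have h1 : h * u.val ≤ 1 / 4 * q := by
          calc h * u.val ≤ h * (q / (4 * h)) := by gcongr; linarith
            _ = 1 / 4 * q := by field_simp
        have h8 : 1 / (8 * h) ≤ 1 / 64 := by gcongr; linarith
        have h8' : 0 ≤ 1 / (8 * h) := by positivity
        have h2 := block1_A_ge hh hΔ hq (a := 8 / 100) h1 (by nlinarith)
        have h3 : (92 / 100 : ℝ) ≤ Real.exp (-(8 / 100)) := by
          have := Real.add_one_le_exp (-(8 / 100) : ℝ); linarith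
        have h4 := block1_A_pos (q := q) (Δ := Δ) hh (q - 1 - u.val)
        have h5 : 0 < h * phiv 1 0 := mul_pos hh0 (block1_phi_pos 0)
        nlinarith
      · rw [ind_neg hu, mul_zero, mul_zero]
    · have := mul_le_mul_of_nonneg_left (block1_sq hh hΔ hq) hρ0
      linarith
    · have h1 : 1 ≤ 72 / 100 * (h * phiv 1 0) := by nlinarith
      nlinarith

end Crest.Agent.R225U
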