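import Crest.Agent.R225U.GConv

/-!
Row 225 (S0347): uniform central limit lemma for random marginals.
-/

set_option autoImplicit false

open MeasureTheory ProbabilityTheory
open Crest.Agent.R153

namespace Crest.Agent.R225U

/-- Cauchy-Schwarz for integrals -/
lemma clt_cs {S : Type*} [MeasurableSpace S] (ρ : Measure S) {g k : S → ℝ}
    (hg : Integrable (fun s => g s * g s) ρ) (hgk : Integrable (fun s => g s * k s) ρ)
    (hk : Integrable (fun s => k s * k s) ρ) :
    (∫ s, g s * k s ∂ρ) ^ 2 ≤ (∫ s, k s * k s ∂ρ) * ∫ s, g s * g s ∂ρ := by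
  have h : ∀ r : ℝ, 0 ≤ (∫ s, k s * k s ∂ρ) * (r * r) + (2 * ∫ s, g s * k s ∂ρ) * r
      + ∫ s, g s * g s ∂ρ := by
    intro r
    have h1 : 0 ≤ ∫ s, (r * r * (k s * k s) + 2 * r * (g s * k s) + g s * g s) ∂ρ :=
      integral_nonneg fun s => by
        have := mul_self_nonneg (r * k s + g s)
        simp only [Pi.zero_apply]
        nlinarith
    rw [integral_add ((hk.const_mul _).fun_add (hgk.const_mul _)) hg,
      integral_add (hk.const_mul _) (hgk.const_mul _), integral_const_mul, integral_const_mul] at h1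
    linarith
  have := discrim_le_zero h
  unfold discrim at this
  nlinarith

/-- Cauchy-Schwarz for the average of a family of bounded integrable functions -/
lemma clt_kernel {X S : Type*} [MeasurableSpace X] [MeasurableSpace S] (μ : Measure X)
    [IsProbabilityMeasure μ] (ρ : Measure S) [SFinite ρ] {H : X → S → ℝ}
    (hm : Measurable (Function.uncurry H)) {B : ℝ} (hB : ∀ x s, |H x s| ≤ B)
    (hi : Integrable (Function.uncurry H) (μ.prod ρ)) {k : S → ℝ} (hkm : Measurable k)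
    (hkB : ∀ s, |k s| ≤ B) (hki : Integrable k ρ) :
    (∫ x, ∫ s, H x s * k s ∂ρ ∂μ) ^ 2
      ≤ (∫ s, k s * k s ∂ρ) * ∫ x, ∫ y, ∫ s, H x s * H y s ∂ρ ∂μ ∂μ := by
  set g : S → ℝ := fun s => ∫ x, H x s ∂μ with hg
  have hswap : ∀ k : S → ℝ, Measurable k → (∀ s, |k s| ≤ B) →
      ∫ x, ∫ s, H x s * k s ∂ρ ∂μ = ∫ s, g s * k s ∂ρ := by
    intro k hkm hkB
    have h1 : Integrable (Function.uncurry fun x s => H x s * k s) (μ.prod ρ) :=
      hi.mul_bdd (c := B) (hkm.comp measurable_snd).aestronglyMeasurable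
        (Filter.Eventually.of_forall fun p => hkB p.2)
    rw [integral_integral_swap h1]
    simp only [integral_mul_const, hg]
  have hgm : Measurable g := hm.stronglyMeasurable.integral_prod_left.measurable
  have hgB : ∀ s, |g s| ≤ B := fun s => by
    have := norm_integral_le_of_norm_le_const (μ := μ) (f := fun x => H x s) (C := B)
      (Filter.Eventually.of_forall fun x => hB x s)
    simpa using this
  have hgi : Integrable g ρ := hi.integral_prod_right
  have h2 : ∀ x, ∫ y, ∫ s, H x s * H y s ∂ρ ∂μ = ∫ s, H x s * g s ∂ρ := by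
    intro x
    simp only [mul_comm (H x _)]
    exact hswap (H x) (hm.of_uncurry_left) (hB x)
  simp only [h2]
  rw [hswap k hkm hkB, hswap g hgm hgB]
  exact clt_cs ρ (hgi.mul_bdd (c := B) hgm.aestronglyMeasurable (Filter.Eventually.of_forall hgB))
    (hgi.mul_bdd (c := B) hkm.aestronglyMeasurable (Filter.Eventually.of_forall hkB))
    (hki.mul_bdd (c := B) hkm.aestronglyMeasurable (Filter.Eventually.of_forall hkB))

lemma clt_integrable_prod {X S : Type*} [MeasurableSpace X] [MeasurableSpace S] (μ : Measure X)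
    [IsProbabilityMeasure μ] (ρ : Measure S) [SFinite ρ] {H : X → S → ℝ}
    (hm : Measurable (Function.uncurry H)) (hi : ∀ x, Integrable (H x) ρ) {C : ℝ}
    (hC : ∀ x, ∫ s, ‖H x s‖ ∂ρ ≤ C) : Integrable (Function.uncurry H) (μ.prod ρ) := by
  rw [integrable_prod_iff hm.aestronglyMeasurable]
  refine ⟨Filter.Eventually.of_forall hi, ?_⟩
  refine Integrable.of_bound (C := C)
    hm.norm.stronglyMeasurable.integral_prod_right'.aestronglyMeasurable
    (Filter.Eventually.of_forall fun x => ?_)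
  rw [Real.norm_of_nonneg (integral_nonneg fun _ => norm_nonneg _)]
  exact hC x

lemma clt_measurable_gv {Ω : Type*} [MeasurableSpace Ω] {l : ℕ} {a : Ω → ℝ} {b : Ω → Fin l → ℝ}
    (ha : Measurable a) (hb : Measurable b) : Measurable fun ω => gv (a ω) (b ω) := by
  unfold gv phiv
  fun_prop

lemma clt_gv_le {l : ℕ} {v a : ℝ} (hv : 0 < v) (ha : v ≤ a) (t : Fin l → ℝ) :
    gv a t ≤ ((Real.sqrt (2 * Real.pi * v))⁻¹) ^ l := by
  have := Real.pi_pos
  refine (gv_le_zero (hv.trans_le ha) t).trans ?_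
  gcongr

lemma clt_lip {l : ℕ} {v s s' : ℝ} (hv : 0 < v) (hs : v ≤ s) (hs' : v ≤ s') :
    gv s (0 : Fin l → ℝ) - gv s' (0 : Fin l → ℝ)
      ≤ ((Real.sqrt (2 * Real.pi * v))⁻¹) ^ l * (l / (2 * v)) * |s - s'| := by
  have hπ := Real.pi_pos
  have hs0 : 0 < s := hv.trans_le hs
  have hs0' : 0 < s' := hv.trans_le hs'
  simp only [gv_eq, Pi.zero_apply, ne_eq, OfNat.ofNat_ne_zero, not_false_eq_true, zero_pow,
    Finset.sum_const_zero, neg_zero, zero_div, Real.exp_zero, mul_one]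
  set r := Real.sqrt (2 * Real.pi * s) with hr
  set r' := Real.sqrt (2 * Real.pi * s') with hr'
  set r0 := Real.sqrt (2 * Real.pi * v) with hr0
  have p0 : 0 < r0 := by positivity
  have h1 : r0 ≤ r := by rw [hr, hr0]; gcongr
  have h2 : r0 ≤ r' := by rw [hr', hr0]; gcongr
  have p1 : 0 < r := p0.trans_le h1
  have p2 : 0 < r' := p0.trans_le h2
  have e0 : r0 ^ 2 = 2 * Real.pi * v := Real.sq_sqrt (by positivity)
  have e1 : r ^ 2 = 2 * Real.pi * s := Real.sq_sqrt (by positivity)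
  have e2 : r' ^ 2 = 2 * Real.pi * s' := Real.sq_sqrt (by positivity)
  have h3 : |r⁻¹ - r'⁻¹| ≤ r0⁻¹ / (2 * v) * |s - s'| := by
    have e3 : r⁻¹ - r'⁻¹ = (2 * Real.pi / (r * r' * (r + r'))) * (s' - s) := by
      have : 2 * Real.pi * (s' - s) = r' ^ 2 - r ^ 2 := by rw [e1, e2]; ring
      rw [div_mul_eq_mul_div, this]
      field_simp
      ring
    rw [e3, abs_mul, abs_sub_comm s' s, abs_of_pos (by positivity)]
    refine mul_le_mul_of_nonneg_right ?_ (abs_nonneg _)
    calc 2 * Real.pi / (r * r' * (r + r')) ≤ 2 * Real.pi / (r0 * r0 * (r0 + r0)) := by gcongr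
      _ = r0⁻¹ / (2 * v) := by
        have : v = r0 ^ 2 / (2 * Real.pi) := by rw [e0]; field_simp
        rw [this]
        field_simp
        ring
  rcases Nat.eq_zero_or_pos l with rfl | hl
  · simp
  have h4 := abs_pow_sub_pow_le r⁻¹ r'⁻¹ l
  have h5 : max |r⁻¹| |r'⁻¹| ≤ r0⁻¹ := by
    rw [abs_of_pos (by positivity), abs_of_pos (by positivity)]
    exact max_le (by gcongr) (by gcongr)
  calc r⁻¹ ^ l - r'⁻¹ ^ l ≤ |r⁻¹ - r'⁻¹| * l * max |r⁻¹| |r'⁻¹| ^ (l - 1) :=
        (le_abs_self _).trans h4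
    _ ≤ r0⁻¹ / (2 * v) * |s - s'| * l * r0⁻¹ ^ (l - 1) := by gcongr
    _ = r0⁻¹ ^ l * (l / (2 * v)) * |s - s'| := by
        obtain ⟨k, rfl⟩ : ∃ k, l = k + 1 := ⟨l - 1, by omega⟩
        rw [Nat.add_sub_cancel, pow_succ]
        ring

/-- the covariance kernel -/
noncomputable def cltK {n l : ℕ} (lam v : ℝ) (P : Fin l → Fin n → ℝ) (x y : Fin n → ℝ) : ℝ :=
  gv (2 * v) (0 - fun i => ∑ j, P i j * (x - y) j)
    - gv (v + ((∑ i, y i ^ 2) / lam + v)) (0 - fun i => ∑ j, P i j * x j)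
    - gv (v + ((∑ i, x i ^ 2) / lam + v)) (0 - fun i => ∑ j, P i j * y j)
    + gv (((∑ i, x i ^ 2) / lam + v) + ((∑ i, y i ^ 2) / lam + v)) (0 : Fin l → ℝ)

lemma clt_fixed {n l : ℕ} (μ : Measure (Fin n → ℝ)) [IsProbabilityMeasure μ] {lam v : ℝ}
    (hlam : 0 < lam) (hv : 0 < v) (P : Fin l → Fin n → ℝ) (t : Fin l → ℝ) :
    (∫ x, gv (2 * v) (t - fun i => ∑ j, P i j * x j) ∂μ
        - ∫ x, gv ((∑ i, x i ^ 2) / lam + 2 * v) t ∂μ) ^ 2
      ≤ ((Real.sqrt (2 * Real.pi * (2 * v)))⁻¹) ^ l * ∫ x, ∫ y, cltK lam v P x y ∂μ ∂μ := by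
  set a : (Fin n → ℝ) → ℝ := fun x => (∑ i, x i ^ 2) / lam + v with ha
  set L : (Fin n → ℝ) → Fin l → ℝ := fun x i => ∑ j, P i j * x j with hL
  have hav : ∀ x, v ≤ a x := fun x => le_add_of_nonneg_left (by positivity)
  have ha0 : ∀ x, 0 < a x := fun x => hv.trans_le (hav x)
  have ham : Measurable a := by fun_prop
  have hLm : Measurable L := by fun_prop
  set H : (Fin n → ℝ) → (Fin l → ℝ) → ℝ := fun x s => gv v (s - L x) - gv (a x) (s - 0) with hH
  set B := ((Real.sqrt (2 * Real.pi * v))⁻¹) ^ l with hBdef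
  have hm : Measurable (Function.uncurry H) :=
    (clt_measurable_gv measurable_const (measurable_snd.sub (hLm.comp measurable_fst))).sub
      (clt_measurable_gv (ham.comp measurable_fst) (measurable_snd.sub measurable_const))
  have hB : ∀ x s, |H x s| ≤ B := fun x s => by
    have h1 := gv_pos hv (s - L x)
    have h2 := gv_pos (ha0 x) (s - 0)
    have h3 := clt_gv_le hv le_rfl (s - L x)
    have h4 := clt_gv_le hv (hav x) (s - 0)
    rw [abs_le]
    constructor <;> simp only [hH] <;> linarith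
  have hsh : ∀ {b : ℝ}, 0 < b → ∀ z : Fin l → ℝ, Integrable fun s => gv b (s - z) :=
    fun hb z => (integrable_gv hb).comp_sub_right z
  have hsh' : ∀ {b : ℝ}, 0 < b → ∀ z : Fin l → ℝ, ∫ s, gv b (s - z) = 1 := fun {b} hb z => by
    rw [integral_sub_right_eq_self (gv b) z, integral_gv hb]
  have hHi : ∀ x, Integrable (H x) := fun x => (hsh hv (L x)).sub' (hsh (ha0 x) 0)
  have hHn : ∀ x, ∫ s, ‖H x s‖ ≤ 2 := fun x => by
    calc ∫ s, ‖H x s‖ ≤ ∫ s, (gv v (s - L x) + gv (a x) (s - 0)) := by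
          refine integral_mono (hHi x).norm ((hsh hv (L x)).fun_add (hsh (ha0 x) 0)) fun s => ?_
          have h1 := gv_pos hv (s - L x)
          have h2 := gv_pos (ha0 x) (s - 0)
          simp only [hH, Real.norm_eq_abs, abs_le]
          constructor <;> linarith
      _ = 2 := by
          rw [integral_add (hsh hv (L x)) (hsh (ha0 x) 0), hsh' hv, hsh' (ha0 x)]; norm_num
  have hi : Integrable (Function.uncurry H) (μ.prod volume) := clt_integrable_prod μ volume hm hHi hHn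
  have key := clt_kernel μ volume hm hB hi (k := fun s => gv v (s - t))
    (clt_measurable_gv measurable_const (measurable_id.sub measurable_const))
    (fun s => by rw [abs_of_pos (gv_pos hv _)]; exact clt_gv_le hv le_rfl _) (hsh hv t)
  have e1 : ∀ x, ∫ s, H x s * gv v (s - t)
      = gv (2 * v) (t - L x) - gv ((∑ i, x i ^ 2) / lam + 2 * v) t := fun x => by
    simp only [hH, sub_mul]
    rw [integral_sub (integrable_gv_mul hv hv _ _) (integrable_gv_mul (ha0 x) hv _ _),
      gv_conv hv hv, gv_conv (ha0 x) hv, ← gv_neg (v + v), neg_sub, zero_sub, gv_neg, two_mul]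
    simp only [ha, add_assoc]
  have e2 : ∀ x y, ∫ s, H x s * H y s = cltK lam v P x y := fun x y => by
    have i1 := integrable_gv_mul hv hv (L x) (L y)
    have i2 := integrable_gv_mul hv (ha0 y) (L x) 0
    have i3 := integrable_gv_mul (ha0 x) hv 0 (L y)
    have i4 := integrable_gv_mul (ha0 x) (ha0 y) (0 : Fin l → ℝ) 0
    simp only [hH, sub_mul, mul_sub]
    rw [integral_sub (i1.sub' i3) (i2.sub' i4), integral_sub i1 i3, integral_sub i2 i4,
      gv_conv hv hv, gv_conv hv (ha0 y), gv_conv (ha0 x) hv, gv_conv (ha0 x) (ha0 y)]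
    unfold cltK
    have e3 : (fun i => ∑ j, P i j * (x - y) j) = L x - L y := by
      funext i
      simp [hL, mul_sub, Finset.sum_sub_distrib]
    rw [e3, add_comm (a x) v, two_mul]
    simp only [zero_sub, sub_zero, gv_neg]
    ring
  have e4 : ∫ s, gv v (s - t) * gv v (s - t) = ((Real.sqrt (2 * Real.pi * (2 * v)))⁻¹) ^ l := by
    rw [gv_conv hv hv, sub_self, gv_eq, two_mul v]
    simp
  simp only [e1, e2, e4] at key
  rw [integral_sub] at key
  · exact key
  · refine Integrable.of_bound (C := B) (clt_measurable_gv measurable_const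
      (measurable_const.sub hLm)).aestronglyMeasurable (Filter.Eventually.of_forall fun x => ?_)
    rw [Real.norm_of_nonneg (gv_pos (by positivity) _).le]
    exact clt_gv_le hv (by linarith) _
  · refine Integrable.of_bound (C := B) (clt_measurable_gv (by fun_prop)
      measurable_const).aestronglyMeasurable (Filter.Eventually.of_forall fun x => ?_)
    rw [Real.norm_of_nonneg (gv_pos (by positivity) _).le]
    refine clt_gv_le hv ?_ _
    have : 0 ≤ (∑ i, x i ^ 2) / lam := by positivity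
    linarith

lemma clt_integrable_gv {Ω : Type*} [MeasurableSpace Ω] (ν : Measure Ω) [IsFiniteMeasure ν]
    {l : ℕ} {v : ℝ} (hv : 0 < v) {a : Ω → ℝ} {b : Ω → Fin l → ℝ} (ha : Measurable a)
    (hb : Measurable b) (hav : ∀ ω, v ≤ a ω) : Integrable (fun ω => gv (a ω) (b ω)) ν := by
  refine Integrable.of_bound (C := ((Real.sqrt (2 * Real.pi * v))⁻¹) ^ l)
    (clt_measurable_gv ha hb).aestronglyMeasurable (Filter.Eventually.of_forall fun ω => ?_)
  rw [Real.norm_of_nonneg (gv_pos (hv.trans_le (hav ω)) _).le]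
  exact clt_gv_le hv (hav ω) _

lemma clt_integrable_K {Ω : Type*} [MeasurableSpace Ω] (ν : Measure Ω) [IsFiniteMeasure ν]
    {n l : ℕ} {lam v : ℝ} (hlam : 0 < lam) (hv : 0 < v) {P : Ω → Fin l → Fin n → ℝ}
    {x y : Ω → Fin n → ℝ} (hP : Measurable P) (hx : Measurable x) (hy : Measurable y) :
    Integrable (fun ω => cltK lam v (P ω) (x ω) (y ω)) ν := by
  have h0 : ∀ z : Fin n → ℝ, 0 ≤ (∑ i, z i ^ 2) / lam := fun z => by positivity
  unfold cltK
  refine Integrable.add (Integrable.sub (Integrable.sub ?_ ?_) ?_) ?_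
  · exact clt_integrable_gv ν hv measurable_const (by simp only [Pi.sub_apply]; fun_prop)
      fun _ => by linarith
  · exact clt_integrable_gv ν hv (by fun_prop) (by fun_prop) fun ω => by linarith [h0 (y ω)]
  · exact clt_integrable_gv ν hv (by fun_prop) (by fun_prop) fun ω => by linarith [h0 (x ω)]
  · exact clt_integrable_gv ν hv (by fun_prop) (by fun_prop)
      fun ω => by linarith [h0 (x ω), h0 (y ω)]

lemma clt_avg_K {n l : ℕ} {lam v : ℝ} (hlam : 0 < lam) (hv : 0 < v) (x y : Fin n → ℝ) :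
    ∫ P : Fin l → Fin n → ℝ, cltK lam v P x y
      ∂(Measure.pi fun _ : Fin l => Measure.pi fun _ : Fin n =>
        gaussianReal 0 (Real.toNNReal lam⁻¹))
      ≤ ((Real.sqrt (2 * Real.pi * (2 * v)))⁻¹) ^ l * (l / (2 * v)) * (|∑ i, x i * y i| / lam) := by
  have h0 : ∀ z : Fin n → ℝ, 0 ≤ (∑ i, z i ^ 2) / lam := fun z => by positivity
  set ν : Measure (Fin l → Fin n → ℝ) := Measure.pi fun _ : Fin l => Measure.pi fun _ : Fin n =>
    gaussianReal 0 (Real.toNNReal lam⁻¹) with hν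
  have i1 : ∀ (b : ℝ) (z : Fin n → ℝ), v ≤ b →
      Integrable (fun P : Fin l → Fin n → ℝ => gv b (0 - fun i => ∑ j, P i j * z j)) ν :=
    fun b z hb => clt_integrable_gv ν hv measurable_const (by fun_prop) fun _ => hb
  have j1 := i1 (2 * v) (x - y) (by linarith)
  have j2 := i1 (v + ((∑ i, y i ^ 2) / lam + v)) x (by linarith [h0 y])
  have j3 := i1 (v + ((∑ i, x i ^ 2) / lam + v)) y (by linarith [h0 x])
  unfold cltK
  rw [integral_add ((j1.sub' j2).sub' j3) (integrable_const _), integral_sub (j1.sub' j2) j3,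
    integral_sub j1 j2, hν, gv_gauss_matrix (by positivity), gv_gauss_matrix (by positivity),
    gv_gauss_matrix (by positivity), integral_const]
  simp only [Real.coe_toNNReal _ (inv_pos.2 hlam).le, probReal_univ, one_smul]
  set S := ((∑ i, x i ^ 2) / lam + v) + ((∑ i, y i ^ 2) / lam + v) with hS
  have e1 : v + ((∑ i, y i ^ 2) / lam + v) + lam⁻¹ * ∑ j, x j ^ 2 = S := by rw [hS]; ring
  have e2 : v + ((∑ i, x i ^ 2) / lam + v) + lam⁻¹ * ∑ j, y j ^ 2 = S := by rw [hS]; ring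
  have e3 : 2 * v + lam⁻¹ * ∑ j, (x - y) j ^ 2 - S = -2 * ((∑ i, x i * y i) / lam) := by
    have : ∑ j, (x - y) j ^ 2 = ∑ j, x j ^ 2 + ∑ j, y j ^ 2 - 2 * ∑ j, x j * y j := by
      rw [Finset.mul_sum, ← Finset.sum_add_distrib, ← Finset.sum_sub_distrib]
      exact Finset.sum_congr rfl fun j _ => by rw [Pi.sub_apply]; ring
    rw [this, hS]; ring
  have h1 := clt_lip (l := l) (v := 2 * v) (s := 2 * v + lam⁻¹ * ∑ j, (x - y) j ^ 2) (s' := S)
    (by positivity) (le_add_of_nonneg_right (by positivity)) (by linarith [h0 x, h0 y])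
  rw [e3, abs_mul, abs_div, abs_of_pos hlam] at h1
  rw [e1, e2]
  refine le_trans (le_of_eq (by ring)) (h1.trans (le_of_eq ?_))
  rw [show |(-2 : ℝ)| = 2 by norm_num]
  field_simp

/-- Let `P` be Gaussian with entries of variance `1 / lam`, `g_P s = ∫ gv v (s - P x) dμ`,
`m s = ∫ gv (a x) s dμ`, `a x = |x|²/lam + v`.  By `gv_conv` and Fubini,
`∫ (g_P - m)² ds = ∫∫ [gv (2v) (P x - P y) - gv (v + a y) (P x) - gv (v + a x) (P y) + gv (a x + a y) 0]`,
all terms bounded by `(4 π v)^{-l/2}`.  Averaging over `P` (`gv_gauss_matrix`) gives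
`∫∫ [gv (S - 2c) 0 - gv S 0]`, `S = a x + a y`, `c = ⟨x,y⟩/lam`, `S, S - 2c ≥ 2v`; the function
`s ↦ (2 π s)^{-l/2}` is `(l/2) (4 π v)^{-l/2} / (2v)`-Lipschitz on `[2v, ∞)` and `E |c| ≤ √Θ / lam`.
Pick `P` below the average (`exists_le_integral`).  Finally
`∫ gv (2v) (t - P x) dμ - ∫ gv (a x + v) t dμ = ∫ (g_P - m) s * gv v (s - t) ds` and Cauchy-Schwarz
with `∫ gv v (s - t)² ds = gv (2v) 0 = (4 π v)^{-l/2}`. -/
theorem uniform_clt {n l : ℕ} (μ : Measure (Fin n → ℝ)) [IsProbabilityMeasure μ] (Rb : ℝ)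
    (hb : ∀ᵐ x ∂μ, ∀ i, |x i| ≤ Rb) {lam v Θ : ℝ} (hlam : 0 < lam) (hv : 0 < v)
    (hΘ : ∫ x, ∫ y, (∑ i, x i * y i) ^ 2 ∂μ ∂μ ≤ Θ) :
    ∃ P : Matrix (Fin l) (Fin n) ℝ, ∀ t : Fin l → ℝ,
      (∫ x, gv (2 * v) (t - P.mulVec x) ∂μ - ∫ x, gv ((∑ i, x i ^ 2) / lam + 2 * v) t ∂μ) ^ 2 ≤
        ((4 * Real.pi * v)⁻¹) ^ l * (l / (2 * v)) * (Real.sqrt Θ / lam) := by
  have hπ := Real.pi_pos
  set ν : Measure (Fin l → Fin n → ℝ) := Measure.pi fun _ : Fin l => Measure.pi fun _ : Fin n =>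
    gaussianReal 0 (Real.toNNReal lam⁻¹) with hν
  set G := ((Real.sqrt (2 * Real.pi * (2 * v)))⁻¹) ^ l with hG
  have hG0 : 0 ≤ G := by positivity
  have hGG : G * G = ((4 * Real.pi * v)⁻¹) ^ l := by
    rw [hG, ← mul_pow, ← mul_inv, Real.mul_self_sqrt (by positivity)]
    congr 2
    ring
  have hI : Integrable (Function.uncurry fun (P : Fin l → Fin n → ℝ)
      (p : (Fin n → ℝ) × (Fin n → ℝ)) => cltK lam v P p.1 p.2) (ν.prod (μ.prod μ)) :=
    clt_integrable_K _ hlam hv measurable_fst measurable_snd.fst measurable_snd.snd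
  obtain ⟨P, hP⟩ := exists_le_integral hI.integral_prod_left
  simp only [Function.uncurry_apply_pair] at hP
  rw [integral_integral_swap hI] at hP
  -- the first absolute moment of the inner product
  set c : (Fin n → ℝ) × (Fin n → ℝ) → ℝ := fun p => |∑ i, p.1 i * p.2 i| with hc
  have hcm : Measurable c := by fun_prop
  have hcb : ∀ᵐ p ∂μ.prod μ, ‖c p‖ ≤ n * (Rb * Rb) := by
    filter_upwards [Measure.quasiMeasurePreserving_fst.ae hb,
      Measure.quasiMeasurePreserving_snd.ae hb] with p h1 h2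
    simp only [hc, Real.norm_eq_abs, abs_abs]
    refine (Finset.abs_sum_le_sum_abs _ _).trans ?_
    calc ∑ i, |p.1 i * p.2 i| ≤ ∑ _i : Fin n, Rb * Rb := Finset.sum_le_sum fun i _ => by
          rw [abs_mul]
          exact mul_le_mul (h1 i) (h2 i) (abs_nonneg _) ((abs_nonneg _).trans (h1 i))
      _ = n * (Rb * Rb) := by simp
  have hci : Integrable c (μ.prod μ) := Integrable.of_bound hcm.aestronglyMeasurable _ hcb
  have hcc : Integrable (fun p => c p * c p) (μ.prod μ) :=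
    hci.mul_bdd hcm.aestronglyMeasurable hcb
  have h1 : ∫ p, c p ∂μ.prod μ ≤ Real.sqrt Θ := by
    have h2 := clt_cs (μ.prod μ) (g := c) (k := fun _ => 1) hcc (by simpa using hci) (by simp)
    rw [integral_prod _ hcc] at h2
    simp only [mul_one, integral_const, probReal_univ, one_smul, one_mul] at h2
    simp only [hc, abs_mul_abs_self] at h2
    simp only [← sq] at h2
    exact Real.le_sqrt_of_sq_le (h2.trans hΘ)
  have h2 : ∫ p, cltK lam v P p.1 p.2 ∂μ.prod μ ≤ G * (l / (2 * v)) * (Real.sqrt Θ / lam) := by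
    refine hP.trans ?_
    calc ∫ p : (Fin n → ℝ) × (Fin n → ℝ), ∫ P, cltK lam v P p.1 p.2 ∂ν ∂μ.prod μ
        ≤ ∫ p, G * (l / (2 * v)) * (c p / lam) ∂μ.prod μ :=
          integral_mono hI.integral_prod_right ((hci.div_const _).const_mul _)
            fun p => clt_avg_K hlam hv p.1 p.2
      _ = G * (l / (2 * v)) * ((∫ p, c p ∂μ.prod μ) / lam) := by
          rw [integral_const_mul, integral_div]
      _ ≤ _ := by gcongr
  rw [integral_prod _ (clt_integrable_K _ hlam hv measurable_const measurable_fst measurable_snd)]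
    at h2
  refine ⟨Matrix.of P, fun t => (clt_fixed μ hlam hv P t).trans ?_⟩
  calc G * ∫ x, ∫ y, cltK lam v P x y ∂μ ∂μ ≤ G * (G * (l / (2 * v)) * (Real.sqrt Θ / lam)) :=
        mul_le_mul_of_nonneg_left h2 hG0
    _ = _ := by rw [← hGG]; ring

end Crest.Agent.R225U
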