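import Crest.Agent.R225U.Defs

/-!
Row 225 (S0347): transport of coverings.
-/

set_option autoImplicit false

open MeasureTheory
open Crest.Agent.R153

namespace Crest.Agent.R225U

theorem Cov.mono {ι : Type} [Fintype ι] [DecidableEq ι] {K : Set (ι → ℝ)} {θ θ' : ℝ}
    (h : Cov K θ) (hθ : θ ≤ θ') : Cov K θ' := by
  obtain ⟨g, h1, h2, h3⟩ := h
  exact ⟨g, h1, h2, h3.trans hθ⟩

/-- Affine invariance.  `card ι = card κ` (finrank), so reindex (`Fintype.equivOfCardEq`,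
`volume_preserving_piCongrLeft` or similar) to reduce to `ι = κ`; there `Φ` is a matrix `M`
(`LinearMap.toMatrix'`), take `g = M⁻¹ * g'`; `Measure.addHaar_image_linearMap` and translation
invariance give `volume (image) = |det M| * volume K`. -/
theorem Cov.of_equiv {ι κ : Type} [Fintype ι] [DecidableEq ι] [Fintype κ] [DecidableEq κ]
    (Φ : (ι → ℝ) ≃ₗ[ℝ] (κ → ℝ)) (v : ι → ℝ) {K : Set (ι → ℝ)} {θ : ℝ}
    (h : Cov ((fun x => Φ (x - v)) '' K) θ) : Cov K θ := by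
  obtain ⟨g', h1, h2, h3⟩ := h
  have hc : Fintype.card κ = Fintype.card ι := by
    have := Φ.finrank_eq
    simpa using this.symm
  let e : κ ≃ ι := Fintype.equivOfCardEq hc
  let E : (κ → ℝ) ≃ₗ[ℝ] (ι → ℝ) := LinearEquiv.funCongrLeft ℝ ℝ e.symm
  let Ψ : (ι → ℝ) ≃ₗ[ℝ] (ι → ℝ) := Φ.trans E
  let T : (ι → ℝ) →ₗ[ℝ] (ι → ℝ) :=
    (Ψ.symm : (ι → ℝ) →ₗ[ℝ] (ι → ℝ)) ∘ₗ
      ((E : (κ → ℝ) →ₗ[ℝ] (ι → ℝ)) ∘ₗ Matrix.toLin' g' ∘ₗ (E.symm : (ι → ℝ) →ₗ[ℝ] (κ → ℝ)))
  have hΨ : LinearMap.det (Ψ : (ι → ℝ) →ₗ[ℝ] (ι → ℝ)) ≠ 0 := Ψ.isUnit_det'.ne_zero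
  have hdet : (LinearMap.toMatrix' T).det
      = (LinearMap.det (Ψ : (ι → ℝ) →ₗ[ℝ] (ι → ℝ)))⁻¹ * g'.det := by
    rw [LinearMap.det_toMatrix', LinearMap.det_comp, LinearMap.det_conj, LinearMap.det_toLin',
      LinearEquiv.det_coe_symm]
  have hvol : volume ((fun x => Φ (x - v)) '' K)
      = ENNReal.ofReal |LinearMap.det (Ψ : (ι → ℝ) →ₗ[ℝ] (ι → ℝ))| * volume K := by
    have hE := volume_preserving_arrowCongr' e (MeasurableEquiv.refl ℝ) (MeasurePreserving.id _)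
    have e1 : (fun x => Φ (x - v)) '' K = (MeasurableEquiv.arrowCongr' e (MeasurableEquiv.refl ℝ)) ⁻¹'
        ((Ψ : (ι → ℝ) →ₗ[ℝ] (ι → ℝ)) '' ((fun x => x + v) ⁻¹' K)) := by
      ext y
      constructor
      · rintro ⟨x, hx, rfl⟩
        exact ⟨x - v, by simpa using hx, rfl⟩
      · rintro ⟨x, hx, hy⟩
        refine ⟨x + v, hx, E.injective ?_⟩
        simp only [add_sub_cancel_right]
        exact hy
    rw [e1, hE.measure_preimage_equiv, Measure.addHaar_image_linearMap, measure_preimage_add_right]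
  refine ⟨LinearMap.toMatrix' T, ?_, fun x => ?_, ?_⟩
  · rw [hdet]; exact mul_ne_zero (inv_ne_zero hΨ) h1
  · obtain ⟨z, k, hk, hz⟩ := h2 (Φ (x - v))
    refine ⟨fun i => z (e.symm i), ?_⟩
    have e2 : E.symm (fun i => (z (e.symm i) : ℝ)) = fun i => (z i : ℝ) := by
      rw [LinearEquiv.symm_apply_eq]; rfl
    have e3 : (LinearMap.toMatrix' T).mulVec (fun i => (z (e.symm i) : ℝ))
        = Φ.symm (g'.mulVec fun i => (z i : ℝ)) := by
      rw [LinearMap.toMatrix'_mulVec]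
      simp only [T, Ψ, LinearMap.comp_apply, LinearEquiv.coe_coe, e2, Matrix.toLin'_apply,
        LinearEquiv.symm_trans_apply, LinearEquiv.symm_apply_apply]
    have e4 : Φ.symm (g'.mulVec fun i => (z i : ℝ)) = x - k := by
      rw [LinearEquiv.symm_apply_eq]
      have hz' : Φ (k - v) = Φ (x - v) - g'.mulVec fun i => (z i : ℝ) := hz
      rw [eq_sub_iff_add_eq, ← eq_sub_iff_add_eq', ← map_sub] at hz'
      rw [hz']
      congr 1
      abel
    rw [e3, e4, sub_sub_cancel]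
    exact hk
  · refine le_trans (le_of_eq ?_) h3
    have hΨ' : |LinearMap.det (Ψ : (ι → ℝ) →ₗ[ℝ] (ι → ℝ))| ≠ 0 := abs_ne_zero.2 hΨ
    rw [hvol, hdet, ENNReal.toReal_mul, ENNReal.toReal_ofReal (abs_nonneg _), abs_mul, abs_inv]
    field_simp

/-- tiling by an inner cube: `g = (2 r) • 1` -/
theorem cov_of_round {n : ℕ} (K : Set (Fin n → ℝ)) {r R : ℝ} (hr : 0 < r)
    (hout : ∀ x ∈ K, ∀ i, |x i| ≤ R) (hin : ∀ x : Fin n → ℝ, (∀ i, |x i| ≤ r) → x ∈ K) :
    Cov K ((R / r) ^ n) := by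
  have hR : (fun _ : Fin n => -R) ≤ fun _ => R := by
    intro i
    have := (abs_nonneg _).trans (hout 0 (hin 0 fun _ => by simpa using hr.le) i)
    show -R ≤ R
    linarith
  have hdet : ((2 * r) • (1 : Matrix (Fin n) (Fin n) ℝ)).det = (2 * r) ^ n := by simp
  refine ⟨(2 * r) • 1, by rw [hdet]; positivity, fun x => ⟨fun i => round (x i / (2 * r)), ?_⟩, ?_⟩
  · refine hin _ fun i => ?_
    have h1 := abs_sub_round (x i / (2 * r))
    have h2 : (x - ((2 * r) • (1 : Matrix (Fin n) (Fin n) ℝ)).mulVec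
        fun i => ((round (x i / (2 * r)) : ℤ) : ℝ)) i
        = (2 * r) * (x i / (2 * r) - round (x i / (2 * r))) := by
      rw [Matrix.smul_mulVec, Matrix.one_mulVec]
      simp only [Pi.sub_apply, Pi.smul_apply, smul_eq_mul]
      field_simp
    rw [h2, abs_mul, abs_of_pos (by positivity : 0 < 2 * r)]
    nlinarith
  · have h1 : K ⊆ Set.Icc (fun _ : Fin n => -R) fun _ => R := fun x hx =>
      ⟨fun i => (abs_le.1 (hout x hx i)).1, fun i => (abs_le.1 (hout x hx i)).2⟩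
    have h2 : (volume K).toReal ≤ (2 * R) ^ n := by
      refine (ENNReal.toReal_mono (isCompact_Icc.measure_ne_top) (measure_mono h1)).trans_eq ?_
      rw [Real.volume_Icc_pi_toReal hR]
      simp [two_mul]
    rw [hdet, abs_of_pos (by positivity), div_le_iff₀ (by positivity), ← mul_pow]
    refine h2.trans_eq ?_
    congr 1
    field_simp

end Crest.Agent.R225U
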