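import Mathlib
import Crest.Agent.R153.Av

/-!
Row 225, upper bound (S0347): shared definitions.
-/

set_option autoImplicit false

open MeasureTheory Finset
open Crest.Agent.R153

namespace Crest.Agent.R225U

/-- centred normal density of variance `v` -/
noncomputable def phiv (v t : ℝ) : ℝ :=
  (Real.sqrt (2 * Real.pi * v))⁻¹ * Real.exp (-(t ^ 2) / (2 * v))

/-- centred normal density on `ℝ^k` with covariance `v • I` -/
noncomputable def gv {k : ℕ} (v : ℝ) (t : Fin k → ℝ) : ℝ := ∏ i, phiv v (t i)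

/-- binary family: along the coordinate order (index `0` on top) two members that agree above
level `i` differ by at most one at level `i` -/
def Bin {k : ℕ} (Z : Finset (Fin k → ℤ)) : Prop :=
  ∀ z ∈ Z, ∀ z' ∈ Z, ∀ i, (∀ l, l < i → z l = z' l) → |z i - z' i| ≤ 1

/-- the homomorphism `ℤ^k → T` with basis images `ψ` -/
def dotz {k : ℕ} {T : Type*} [AddCommGroup T] (ψ : Fin k → T) (z : Fin k → ℤ) : T :=
  ∑ i, z i • ψ i

/-- `K` has a lattice covering of density at most `θ` -/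
def Cov {ι : Type} [Fintype ι] [DecidableEq ι] (K : Set (ι → ℝ)) (θ : ℝ) : Prop :=
  ∃ g : Matrix ι ι ℝ, g.det ≠ 0 ∧
    (∀ x : ι → ℝ, ∃ z : ι → ℤ, x - g.mulVec (fun i => (z i : ℝ)) ∈ K) ∧
    (volume K).toReal / |g.det| ≤ θ

/-- residual of the point `s` with respect to the lattice point `B (z₀ + z)` -/
noncomputable def res {k : ℕ} (B : Matrix (Fin k) (Fin k) ℝ) (s : Fin k → ℝ) (z₀ z : Fin k → ℤ) :
    Fin k → ℝ :=
  s - B.mulVec (fun i => ((z₀ i + z i : ℤ) : ℝ))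

/-- a Gaussian design: lattice `B ℤ^k`, finitely many patterns (binary families with weights) -/
structure DesignOn {k : ℕ} (m c : ℝ) {ι : Type} (B : Matrix (Fin k) (Fin k) ℝ)
    (Z : ι → Finset (Fin k → ℤ)) (w : ι → (Fin k → ℤ) → ℝ) : Prop where
  det_pos : 0 < B.det
  det_le : B.det ≤ Real.exp ((k : ℝ) ^ 2)
  bin : ∀ π, Bin (Z π)
  w_nonneg : ∀ π, ∀ z ∈ Z π, 0 ≤ w π z
  w_le : ∀ π, ∀ z ∈ Z π, w π z ≤ c * Real.exp (-m)
  mass : ∀ π, c ≤ ∑ z ∈ Z π, w π z
  cover : ∀ s : Fin k → ℝ, ∃ (π : ι) (z₀ : Fin k → ℤ), ∀ z ∈ Z π,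
    w π z ≤ B.det * gv 1 (res B s z₀ z) ∧ ∀ i, |res B s z₀ z i| ≤ k

/-- existence of a Gaussian design in dimension `k` with at most `exp L` patterns -/
def IsDesign (k : ℕ) (m c L : ℝ) : Prop :=
  ∃ (ι : Type) (_ : Fintype ι) (B : Matrix (Fin k) (Fin k) ℝ) (Z : ι → Finset (Fin k → ℤ))
    (w : ι → (Fin k → ℤ) → ℝ), (Fintype.card ι : ℝ) ≤ Real.exp L ∧ DesignOn m c B Z w

/-- isotropic convex body -/
structure IsoBody {n : ℕ} (K : Set (Fin n → ℝ)) : Prop where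
  compact : IsCompact K
  convex : Convex ℝ K
  vol_pos : 0 < (volume K).toReal
  mean : ∀ i, ∫ x in K, x i = 0
  cov : ∀ i j, ∫ x in K, x i * x j = if i = j then (volume K).toReal else 0

/-- uniform probability measure on `K` -/
noncomputable def uni {n : ℕ} (K : Set (Fin n → ℝ)) : Measure (Fin n → ℝ) :=
  ProbabilityTheory.cond volume K

/-- horizontal slice of `K` at height `t` -/
def slice {n' k : ℕ} (K : Set (Fin n' ⊕ Fin k → ℝ)) (t : Fin k → ℝ) : Set (Fin n' → ℝ) :=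
  {u | Sum.elim u t ∈ K}

/-- a body in `ℝ^{n'} × ℝ^k` that is polynomially round and whose vertical marginal dominates
`1/11` of the standard Gaussian on the cube `[-k,k]^k` -/
structure Prepared (n' k : ℕ) (K : Set (Fin n' ⊕ Fin k → ℝ)) : Prop where
  compact : IsCompact K
  convex : Convex ℝ K
  outer : ∀ x ∈ K, ∀ i, |x (Sum.inl i)| ≤ 2 * ((n' : ℝ) + k)
  inner : ∀ x : Fin n' ⊕ Fin k → ℝ, (∀ i, |x i| ≤ 1 / ((n' : ℝ) + k) ^ 4) → x ∈ K
  marg : ∀ t : Fin k → ℝ, (∀ i, |t i| ≤ k) →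
    gv 1 t * (volume K).toReal / 11 ≤ (volume (slice K t)).toReal

/-- union of `2`-blocks `2 j + {0,1}^n` -/
def BlockClosed {n : ℕ} (A : Finset (Fin n → ℤ)) : Prop :=
  ∀ x ∈ A, ∀ y : Fin n → ℤ, (∀ i, y i / 2 = x i / 2) → y ∈ A

/-- homogenised reduction mod `p` -/
def hat (p : ℕ) {n : ℕ} (x : Fin n → ℤ) : Fin (n + 1) → ZMod p :=
  Fin.cons 1 (fun i => (x i : ZMod p))

/-- pairs (`j`-tuple in `S`, further point of `S` in the span of the tuple) -/
def depSet {F ι : Type} [Field F] (S : Finset (ι → F)) (j : ℕ) :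
    Set ((Fin j → ι → F) × (ι → F)) :=
  {q | (∀ l, q.1 l ∈ S) ∧ q.2 ∈ S ∧ q.2 ∈ Submodule.span F (Set.range q.1) ∧
    q.2 ∉ Set.range q.1}

/-- one-coordinate leaf weights of a binary block -/
noncomputable def pb (q Δ : ℕ) (h : ℝ) (u : ZMod q) (e : Bool) : ℝ :=
  h * phiv 1 (h / q * ((if e then q - 1 - u.val + Δ else u.val + Δ : ℕ) : ℝ))

/-- the one-dimensional facts used about a block coordinate -/
structure Block1 {U : Type} [Fintype U] (p : U → Bool → ℝ) (β H π₀ : ℝ) : Prop where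
  pos : ∀ u e, 0 < p u e
  mean_le : av (fun u => p u false + p u true) ≤ 1
  mean_ge : 1 - β ≤ av (fun u => p u false + p u true)
  log_le : ∀ u, |Real.log (p u false + p u true)| ≤ H
  minor : π₀ ≤ av (fun u => min (p u false) (p u true))
  interval : ∃ (I : U → Prop) (s₀ : ℝ), 9 / 100 ≤ s₀ ∧
    92 / 100 * s₀ ≤ av (fun u => (p u false + p u true) * ind (I u)) ∧
    av (fun u => ind (I u)) * av (fun u => (p u false + p u true) ^ 2) ≤ 72 / 100 * s₀ ∧
    av (fun u => ind (I u)) ≤ 72 / 100 * s₀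

/-- mass of the kept leaves over the point `u` -/
noncomputable def kept {U : Type} {b : ℕ} (p : U → Bool → ℝ)
    (Keep : (Fin b → U) → Finset (Fin b → Bool)) (u : Fin b → U) : ℝ :=
  ∑ e ∈ Keep u, ∏ i, p (u i) (e i)

/-- the output of the block lemma -/
structure BlockPkg {U : Type} [Fintype U] [AddCommGroup U] {b : ℕ} (p : U → Bool → ℝ)
    (H S θ loss η : ℝ) (Rich : (Fin b → U) → Prop)
    (Keep : (Fin b → U) → Finset (Fin b → Bool)) : Prop where
  eta_ge : Real.exp (-(b * H)) ≤ η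
  eta_le : η ≤ 2 * Real.exp (4 * S - b / 1000)
  keep_rich : ∀ u, ¬ Rich u → Keep u = ∅
  leaf_le : ∀ u, ∀ e ∈ Keep u, η * ∏ i, p (u i) (e i) ≤ Real.exp (3 * S) * (2 : ℝ) ^ (-θ)
  kept_le : ∀ u, η * kept p Keep u ≤ Real.exp (3 * S)
  rich_le : av (fun u => ind (Rich u)) ≤ η * Real.exp (-S)
  mean_ge : 1 - loss ≤ av (kept p Keep)
  mean_le : av (kept p Keep) ≤ 1
  energy : η * av (fun v => (av fun τ => kept p Keep τ * kept p Keep (τ + v)) ^ 2) ≤
    Real.exp (4 * S - b / 1000)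

/-- `a` is the only rich candidate at `τ` -/
def Uniq {G : Type} [AddCommGroup G] (L : ℕ) (Rich : G → Prop) (α τ : G) (a : ℤ) : Prop :=
  Rich (τ + a • α) ∧ ∀ a' ∈ Finset.Icc (-(L : ℤ)) L, a' ≠ a → ¬ Rich (τ + a' • α)

/-- mass collected through the glue coordinate -/
noncomputable def glueX {G : Type} [AddCommGroup G] (L : ℕ) (Rich : G → Prop) (F : G → ℝ)
    (w : ℤ → ℝ) (α τ : G) : ℝ :=
  ∑ a ∈ Finset.Icc (-(L : ℤ)) L, w a * F (τ + a • α) * ind (Uniq L Rich α τ a)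

/-- glue weights -/
noncomputable def gw (η : ℝ) (a : ℤ) : ℝ := η * phiv 1 (η * (|(a : ℝ)| + 1))

end Crest.Agent.R225U
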