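import Crest.Agent.R225U.Step

/-!
Row 225 (S0347): existence of designs.
-/

set_option autoImplicit false

open Finset
open Crest.Agent.R153

namespace Crest.Agent.R225U

/-- scale the weights by `c₂ / c₁` -/
theorem IsDesign.mono {k : ℕ} {m₁ c₁ L₁ m₂ c₂ L₂ : ℝ} (h : IsDesign k m₁ c₁ L₁) (hm : m₂ ≤ m₁)
    (hc0 : 0 < c₂) (hc : c₂ ≤ c₁) (hL : L₁ ≤ L₂) : IsDesign k m₂ c₂ L₂ := by
  obtain ⟨ι, _, B, Z, w, hι, hD⟩ := h
  have hc1 : 0 < c₁ := hc0.trans_le hc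
  have hr0 : 0 ≤ c₂ / c₁ := by positivity
  have hr1 : c₂ / c₁ ≤ 1 := (div_le_one hc1).2 hc
  refine ⟨ι, inferInstance, B, Z, fun π z => c₂ / c₁ * w π z, hι.trans (Real.exp_le_exp.2 hL),
    hD.det_pos, hD.det_le, hD.bin, fun π z hz => mul_nonneg hr0 (hD.w_nonneg π z hz),
    fun π z hz => ?_, fun π => ?_, fun s => ?_⟩
  · calc c₂ / c₁ * w π z ≤ c₂ / c₁ * (c₁ * Real.exp (-m₂)) := by
          refine mul_le_mul_of_nonneg_left ((hD.w_le π z hz).trans ?_) hr0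
          gcongr
      _ = c₂ * Real.exp (-m₂) := by field_simp
  · rw [← mul_sum]
    calc c₂ = c₂ / c₁ * c₁ := by field_simp
      _ ≤ _ := mul_le_mul_of_nonneg_left (hD.mass π) hr0
  · obtain ⟨π, z₀, h⟩ := hD.cover s
    exact ⟨π, z₀, fun z hz => ⟨(mul_le_of_le_one_left (hD.w_nonneg π z hz) hr1).trans (h z hz).1,
      (h z hz).2⟩⟩

/-- `B = 1`, one pattern `Z = {0,1}^k`, constant weight `(phiv 1 1)^k`, `z₀ = ⌊s⌋` -/
theorem design_base (k : ℕ) (hk : 1 ≤ k) :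
    IsDesign k ((k : ℝ) / 2) ((2 * phiv 1 1) ^ k) 0 := by
  have hφ : 0 < phiv 1 1 := by unfold phiv; positivity
  refine ⟨Unit, inferInstance, 1, fun _ => Fintype.piFinset fun _ => ({0, 1} : Finset ℤ),
    fun _ _ => phiv 1 1 ^ k, by simp, by simp, by simp, fun _ z hz z' hz' i _ => ?_,
    fun _ _ _ => by positivity, fun _ _ _ => ?_, fun _ => ?_, fun s => ⟨(), fun i => ⌊s i⌋, ?_⟩⟩
  · have h1 := Fintype.mem_piFinset.1 hz i
    have h2 := Fintype.mem_piFinset.1 hz' i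
    simp only [mem_insert, mem_singleton] at h1 h2
    rw [abs_le]
    omega
  · rw [show -((k : ℝ) / 2) = k * (-(1 / 2)) by ring, Real.exp_nat_mul, ← mul_pow]
    refine pow_le_pow_left₀ hφ.le ?_ k
    have := Real.add_one_le_exp (-(1 / 2) : ℝ)
    nlinarith
  · simp [mul_pow]
  · intro z hz
    have h1 : ∀ i, |res 1 s (fun i => ⌊s i⌋) z i| ≤ 1 := fun i => by
      have h2 := Fintype.mem_piFinset.1 hz i
      simp only [mem_insert, mem_singleton] at h2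
      have h3 := Int.floor_le (s i)
      have h4 := Int.lt_floor_add_one (s i)
      simp only [res, Matrix.one_mulVec, Pi.sub_apply, abs_le]
      rcases h2 with h2 | h2 <;> rw [h2] <;> push_cast <;> constructor <;> linarith
    refine ⟨?_, fun i => (h1 i).trans (by exact_mod_cast hk)⟩
    rw [Matrix.det_one, one_mul, gv]
    calc phiv 1 1 ^ k = ∏ _i : Fin k, phiv 1 1 := by simp
      _ ≤ _ := by
        refine prod_le_prod (fun _ _ => hφ.le) fun i _ => ?_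
        unfold phiv
        have := (sq_le_one_iff_abs_le_one _).2 (h1 i)
        exact mul_le_mul_of_nonneg_left (Real.exp_le_exp.2 (by linarith)) (by positivity)

/-- Let `D e := ∃ k, 1 ≤ k ≤ 2^(29 e) ∧ IsDesign k (2^(18 e)) (c₀ (1 + 2^{-e})) (2^(30 e))`.
Choose `e₀ ≥ 140` with `2^e₀ ≥ y₀`; `design_base` with `k = 2 * 2^(18 e₀)` gives `D e₀` for
`c₀ = (2 φ(1))^k / 2`.  `step` with `y = 2^e` gives `D e → D (e + e/9)` for `e ≥ e₀`.  By induction,
for every `t ≥ e₀` there is `e ∈ [t, 2t]` with `D e`.  For `m` large take `t` minimal with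
`m ≤ 2^(18 t)`; then `2^(60 t) ≤ (2^18 m)^4 ≤ m^5`. -/
theorem design_exists : ∃ c₀ : ℝ, 0 < c₀ ∧ ∃ m₀ : ℝ, ∀ m : ℝ, m₀ ≤ m →
    ∃ k : ℕ, 1 ≤ k ∧ (k : ℝ) ≤ m ^ 5 ∧ IsDesign k m c₀ (m ^ 5) := by
  obtain ⟨y₀, hy⟩ := step
  have hφ : 0 < phiv 1 1 := by unfold phiv; positivity
  set e₀ := max 140 y₀ with he₀
  have he1 : 140 ≤ e₀ := le_max_left _ _
  have he2 : y₀ ≤ e₀ := le_max_right _ _
  set c₀ : ℝ := (2 * phiv 1 1) ^ (2 * 2 ^ (18 * e₀)) / 2 with hc₀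
  have hc0 : 0 < c₀ := by positivity
  set D : ℕ → Prop := fun e => ∃ k : ℕ, 1 ≤ k ∧ k ≤ 2 ^ (29 * e) ∧
    IsDesign k ((2 : ℝ) ^ (18 * e)) (c₀ * (1 + 1 / 2 ^ e)) ((2 : ℝ) ^ (30 * e)) with hD
  have hx : ∀ e : ℕ, (1 : ℝ) / 2 ^ e ≤ 1 := fun e =>
    (div_le_one (by positivity)).2 (one_le_pow₀ one_le_two)
  have h0 : D e₀ := by
    refine ⟨2 * 2 ^ (18 * e₀), Nat.succ_le_of_lt (by positivity), ?_,
      (design_base _ (Nat.succ_le_of_lt (by positivity))).mono (le_of_eq (by push_cast; ring))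
        (by positivity) ?_ (by positivity)⟩
    · rw [← pow_succ']
      exact Nat.pow_le_pow_right two_pos (by omega)
    · have := mul_le_mul_of_nonneg_left (hx e₀) hc0.le
      linarith
  have hstep : ∀ e, e₀ ≤ e → D e → D (e + e / 9) := by
    rintro e he ⟨k', -, hk', hd⟩
    obtain ⟨k, hk1, hk2, hd'⟩ := hy (2 ^ e) (he2.trans (he.trans (Nat.lt_two_pow_self).le)) k'
      (c₀ * (1 + 1 / 2 ^ e)) (by positivity) (by rwa [← pow_mul, mul_comm])
      (by push_cast; rwa [← pow_mul, ← pow_mul, mul_comm e, mul_comm e])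
    refine ⟨k, hk1, hk2.trans ?_, hd'.mono ?_ (by positivity) ?_ ?_⟩
    · rw [← pow_mul, ← pow_succ']
      exact Nat.pow_le_pow_right two_pos (by omega)
    · push_cast
      rw [← pow_mul]
      exact pow_le_pow_right₀ one_le_two (by omega)
    · push_cast
      rw [mul_assoc]
      refine mul_le_mul_of_nonneg_left ?_ hc0.le
      have h1 : (1 : ℝ) / 2 ^ (e + e / 9) ≤ 1 / 2 ^ e / 2 := by
        rw [div_div, ← pow_succ]
        exact one_div_le_one_div_of_le (by positivity) (pow_le_pow_right₀ one_le_two (by omega))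
      have h2 : (1 : ℝ) / (4 * 2 ^ e) = 1 / 2 ^ e / 4 := by field_simp
      have h3 := hx e
      have h4 : (0 : ℝ) ≤ 1 / 2 ^ e := by positivity
      rw [h2]
      nlinarith
    · push_cast
      rw [← pow_mul, ← pow_succ']
      exact pow_le_pow_right₀ one_le_two (by omega)
  have hall : ∀ t, e₀ ≤ t → ∃ e, t ≤ e ∧ e ≤ 2 * t ∧ D e := by
    intro t ht
    induction t, ht using Nat.le_induction with
    | base => exact ⟨e₀, le_rfl, by omega, h0⟩
    | succ t ht ih =>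
      obtain ⟨e, h1, h2, h3⟩ := ih
      by_cases h4 : t + 1 ≤ e
      · exact ⟨e, h4, by omega, h3⟩
      · exact ⟨e + e / 9, by omega, by omega, hstep e (by omega) h3⟩
  have hy1 : (1 : ℝ) < 2 ^ 18 := by norm_num
  refine ⟨c₀, hc0, (2 ^ 18) ^ e₀, fun m hm => ?_⟩
  have hm1 : 1 ≤ m := (one_le_pow₀ hy1.le).trans hm
  obtain ⟨n, hn1, hn2⟩ := exists_nat_pow_near hm1 hy1
  have hn : e₀ < n + 1 := (pow_lt_pow_iff_right₀ hy1).1 (hm.trans_lt hn2)
  obtain ⟨e, h1, h2, k, hk1, hk2, hd⟩ := hall (n + 1) hn.le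
  have h3 : (2 : ℝ) ^ (30 * e) ≤ m ^ 5 := by
    calc (2 : ℝ) ^ (30 * e) ≤ 2 ^ (18 * n * 5) := pow_le_pow_right₀ one_le_two (by omega)
      _ = ((2 ^ 18) ^ n) ^ 5 := by rw [pow_mul, pow_mul]
      _ ≤ m ^ 5 := by gcongr
  refine ⟨k, hk1, le_trans ?_ h3, hd.mono (hn2.le.trans ?_) hc0 ?_ h3⟩
  · calc (k : ℝ) ≤ ((2 ^ (29 * e) : ℕ) : ℝ) := Nat.cast_le.2 hk2
      _ = 2 ^ (29 * e) := by push_cast; rfl
      _ ≤ _ := pow_le_pow_right₀ one_le_two (by omega)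
  · rw [← pow_mul]
    exact pow_le_pow_right₀ one_le_two (by omega)
  · exact le_mul_of_one_le_right hc0.le (le_add_of_nonneg_right (by positivity))

end Crest.Agent.R225U
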