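import Crest.Agent.R225U.Defs

/-!
Row 225 (S0347): additive energy of a union of 2-blocks.
-/

set_option autoImplicit false

open Finset
open Crest.Agent.R153

namespace Crest.Agent.R225U

section bsg

open scoped Pointwise

variable {G : Type*} [AddCommGroup G] [DecidableEq G]

/-- number of representations as a difference -/
def energy_r (A : Finset G) (d : G) : ℕ := #{p ∈ A ×ˢ A | p.1 - p.2 = d}

/-- the points `a` with `s - a ∈ A` -/
def energy_S (A : Finset G) (s : G) : Finset G := {a ∈ A | s - a ∈ A}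

lemma energy_r_sum (A : Finset G) {ι : Type*} (T : Finset ι) (φ : ι → G) (hφ : Set.InjOn φ T) :
    ∑ t ∈ T, (energy_r A (φ t) : ℝ) ≤ (#A : ℝ) ^ 2 := by
  have h : ∑ t ∈ T, energy_r A (φ t) ≤ #A ^ 2 := by
    rw [← sum_image (f := energy_r A) hφ]
    unfold energy_r
    rw [sum_card_fiberwise_eq_card_filter, sq, ← card_product]
    exact card_filter_le _ _
  exact_mod_cast h

lemma energy_S_card (A : Finset G) (s : G) :
    #(energy_S A s) = #{p ∈ A ×ˢ A | p.1 + p.2 = s} := by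
  refine card_nbij' (fun a => (a, s - a)) (fun p => p.1) (fun a ha => ?_) (fun p hp => ?_)
    (fun a _ => rfl) fun p hp => ?_
  · simpa [energy_S] using ha
  · simp only [coe_filter, mem_product, Set.mem_ofPred_eq] at hp
    simp [energy_S, hp.1.1, ← hp.2, hp.1.2]
  · simp only [coe_filter, mem_product, Set.mem_ofPred_eq] at hp
    simp [← hp.2]

lemma energy_S_sum (A : Finset G) : ∑ s ∈ A + A, (#(energy_S A s) : ℝ) = (#A : ℝ) ^ 2 := by
  have h : ∑ s ∈ A + A, #(energy_S A s) = #A ^ 2 := by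
    simp only [energy_S_card]
    rw [sum_card_fiberwise_eq_card_filter, sq, ← card_product, filter_true_of_mem]
    exact fun p hp => add_mem_add (mem_product.1 hp).1 (mem_product.1 hp).2
  exact_mod_cast h

lemma energy_S_sq (A : Finset G) :
    ∑ s ∈ A + A, (#(energy_S A s) : ℝ) ^ 2 = (addEnergy A A : ℝ) := by
  rw [addEnergy_eq_sum_sq']
  simp only [energy_S_card]
  push_cast
  rfl

/-- the bad pairs in `A_s` -/
noncomputable def energy_bad (A : Finset G) (θ : ℝ) (s : G) : Finset (G × G) :=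
  {p ∈ energy_S A s ×ˢ energy_S A s | (energy_r A (p.1 - p.2) : ℝ) < θ}

lemma energy_bad_sum (A : Finset G) {θ : ℝ} (hθ : 0 ≤ θ) :
    ∑ s ∈ A + A, (#(energy_bad A θ s) : ℝ) ≤ (#A : ℝ) ^ 2 * θ := by
  have h1 : ∀ s, (#(energy_bad A θ s) : ℝ) =
      ∑ p ∈ (A ×ˢ A).filter (fun p => (energy_r A (p.1 - p.2) : ℝ) < θ),
        if s - p.1 ∈ A ∧ s - p.2 ∈ A then (1 : ℝ) else 0 := fun s => by
    rw [sum_boole, filter_filter]
    congr 2
    ext p
    simp only [energy_bad, energy_S, mem_filter, mem_product]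
    tauto
  simp only [h1]
  rw [sum_comm]
  refine (sum_le_card_nsmul _ _ θ fun p hp => ?_).trans ?_
  · refine le_trans ?_ (mem_filter.1 hp).2.le
    rw [sum_boole, Nat.cast_le]
    refine card_le_card_of_injOn (fun s => (s - p.2, s - p.1)) (fun s hs => ?_) fun s _ t _ h => ?_
    · simp only [coe_filter, Set.mem_ofPred_eq] at hs
      simp [hs.2.1, hs.2.2]
    · simpa using (Prod.ext_iff.1 h).1
  · rw [nsmul_eq_mul]
    refine mul_le_mul_of_nonneg_right ?_ hθ
    have : #((A ×ˢ A).filter (fun p => (energy_r A (p.1 - p.2) : ℝ) < θ)) ≤ #A ^ 2 := by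
      rw [sq, ← card_product]; exact card_filter_le _ _
    exact_mod_cast this

lemma energy_exists (A : Finset G) (hA : A.Nonempty) {τ : ℝ} (hτ : 0 < τ)
    (hE : τ * (#A : ℝ) ^ 3 ≤ addEnergy A A) :
    ∃ s, τ ^ 2 * (#A : ℝ) ^ 2 / 2 ≤
      (#(energy_S A s) : ℝ) ^ 2 - 8 * #(energy_bad A (τ ^ 2 / 16 * #A) s) := by
  have hN : (0 : ℝ) < #A := Nat.cast_pos.2 hA.card_pos
  set N : ℝ := (#A : ℝ) with hNdef
  set r : G → ℝ := fun s => (#(energy_S A s) : ℝ) with hr
  have hr0 : ∀ s, 0 ≤ r s := fun s => Nat.cast_nonneg _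
  have hrN : ∀ s, r s ≤ N := fun s => Nat.cast_le.2 (card_filter_le _ _)
  have h1 : ∑ s ∈ A + A, r s = N ^ 2 := energy_S_sum A
  have h2 := sum_sq_le_sum_mul_sum_of_sq_le_mul (A + A) (r := fun s => r s ^ 2) (f := r)
    (g := fun s => r s ^ 3) (fun s _ => hr0 s) (fun s _ => pow_nonneg (hr0 s) 3)
    fun s _ => le_of_eq (by ring)
  rw [h1, energy_S_sq] at h2
  have h3 : τ ^ 2 * N ^ 4 ≤ ∑ s ∈ A + A, r s ^ 3 := by
    have h4 := (pow_le_pow_left₀ (by positivity) hE 2).trans h2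
    have h5 : (τ * N ^ 3) ^ 2 = N ^ 2 * (τ ^ 2 * N ^ 4) := by ring
    rw [h5] at h4
    exact le_of_mul_le_mul_left h4 (by positivity)
  have h4 : ∑ s ∈ A + A, r s * #(energy_bad A (τ ^ 2 / 16 * N) s) ≤ N * (N ^ 2 * (τ ^ 2 / 16 * N)) := by
    refine le_trans ?_ (mul_le_mul_of_nonneg_left (energy_bad_sum A (by positivity)) hN.le)
    rw [mul_sum]
    exact sum_le_sum fun s _ => mul_le_mul_of_nonneg_right (hrN s) (Nat.cast_nonneg _)
  by_contra hc
  push Not at hc
  have h5 : ∑ s ∈ A + A, r s * (r s ^ 2 - 8 * #(energy_bad A (τ ^ 2 / 16 * N) s)) <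
      ∑ s ∈ A + A, r s * (τ ^ 2 * N ^ 2 / 2) := by
    refine sum_lt_sum (fun s _ => mul_le_mul_of_nonneg_left (hc s).le (hr0 s)) ?_
    obtain ⟨a, ha⟩ := hA
    refine ⟨a + a, add_mem_add ha ha, mul_lt_mul_of_pos_left (hc _) ?_⟩
    exact Nat.cast_pos.2 (card_pos.2 ⟨a, by simp [energy_S, ha]⟩)
  rw [← sum_mul, h1, sum_congr rfl fun s _ => show r s * (r s ^ 2 -
    8 * #(energy_bad A (τ ^ 2 / 16 * N) s)) = r s ^ 3 - 8 * (r s *
      #(energy_bad A (τ ^ 2 / 16 * N) s)) by ring, sum_sub_distrib, ← mul_sum] at h5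
  nlinarith

/-- a short Balog-Szemerédi-Gowers theorem -/
lemma energy_bsg (A : Finset G) (hA : A.Nonempty) {τ : ℝ} (hτ : 0 < τ)
    (hE : τ * (#A : ℝ) ^ 3 ≤ addEnergy A A) :
    ∃ A' ⊆ A, τ * #A / 4 ≤ #A' ∧ (#(A' - A') : ℝ) * τ ^ 6 ≤ 2 ^ 12 * #A' := by
  obtain ⟨s, hs⟩ := energy_exists A hA hτ hE
  have hN : (0 : ℝ) < #A := Nat.cast_pos.2 hA.card_pos
  set N : ℝ := (#A : ℝ) with hNdef
  set θ : ℝ := τ ^ 2 / 16 * N with hθ
  have hθ0 : 0 < θ := by positivity
  set S := energy_S A s with hS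
  set r : ℝ := (#S : ℝ) with hr
  have hSA : S ⊆ A := filter_subset _ _
  have hb0 : (0 : ℝ) ≤ #(energy_bad A θ s) := Nat.cast_nonneg _
  have hr0 : 0 ≤ r := Nat.cast_nonneg _
  have hr1 : τ * N / 2 ≤ r := by
    refine le_of_sq_le_sq ?_ hr0
    nlinarith [sq_nonneg (τ * N)]
  have hr2 : 0 < r := lt_of_lt_of_le (by positivity) hr1
  set bp : G → Finset G := fun a => {b ∈ S | (energy_r A (a - b) : ℝ) < θ} with hbp
  have h1 : ∑ a ∈ S, (#(bp a) : ℝ) = #(energy_bad A θ s) := by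
    rw [energy_bad, card_filter, sum_product]
    push_cast
    exact sum_congr rfl fun a _ => by rw [sum_boole]
  set A' : Finset G := {a ∈ S | (#(bp a) : ℝ) ≤ r / 4} with hA'
  have h2 : r / 2 ≤ #A' := by
    have h3 : (#{a ∈ S | ¬ (#(bp a) : ℝ) ≤ r / 4} : ℝ) * (r / 4) ≤ #(energy_bad A θ s) := by
      rw [← h1, ← nsmul_eq_mul]
      refine (card_nsmul_le_sum _ _ _ fun a ha => (not_le.1 (mem_filter.1 ha).2).le).trans ?_
      exact sum_le_sum_of_subset_of_nonneg (filter_subset _ _) fun _ _ _ => Nat.cast_nonneg _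
    have h4 : (#A' : ℝ) + #{a ∈ S | ¬ (#(bp a) : ℝ) ≤ r / 4} = r := by
      rw [hr, hA']
      exact_mod_cast card_filter_add_card_filter_not _
    have h5 : (#{a ∈ S | ¬ (#(bp a) : ℝ) ≤ r / 4} : ℝ) * r ≤ r / 2 * r := by
      nlinarith [sq_nonneg (τ * N)]
    have := le_of_mul_le_mul_right h5 hr2
    linarith
  have hA'S : A' ⊆ S := filter_subset _ _
  refine ⟨A', hA'S.trans hSA, by linarith, ?_⟩
  have h3 : ∀ d ∈ A' - A', r / 2 * θ ^ 2 ≤
      ∑ t ∈ A - A, (energy_r A t : ℝ) * energy_r A (t - d) := by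
    intro d hd
    obtain ⟨a, ha, a', ha', rfl⟩ := mem_sub.1 hd
    set T := S \ (bp a ∪ bp a') with hT
    have h4 : r / 2 ≤ #T := by
      have h5 : #S ≤ #T + (#(bp a) + #(bp a')) :=
        (card_le_card_sdiff_add_card).trans (Nat.add_le_add_left (card_union_le _ _) _)
      have h6 : r ≤ #T + (#(bp a) + #(bp a')) := by rw [hr]; exact_mod_cast h5
      linarith [(mem_filter.1 ha).2, (mem_filter.1 ha').2]
    calc r / 2 * θ ^ 2 ≤ #T • θ ^ 2 := by rw [nsmul_eq_mul]; gcongr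
      _ ≤ ∑ b ∈ T, (energy_r A (a - b) : ℝ) * energy_r A (a - b - (a - a')) := by
          refine card_nsmul_le_sum _ _ _ fun b hb => ?_
          obtain ⟨hb1, hb2⟩ := mem_sdiff.1 hb
          simp only [hbp, mem_union, mem_filter, hb1, true_and, not_or, not_lt] at hb2
          rw [show a - b - (a - a') = a' - b by abel, sq]
          exact mul_le_mul hb2.1 hb2.2 hθ0.le (Nat.cast_nonneg _)
      _ = ∑ t ∈ T.image (fun b => a - b), (energy_r A t : ℝ) * energy_r A (t - (a - a')) :=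
          (sum_image (f := fun t => (energy_r A t : ℝ) * energy_r A (t - (a - a')))
            fun b _ c _ h => sub_right_injective h).symm
      _ ≤ _ := by
          refine sum_le_sum_of_subset_of_nonneg (fun t ht => ?_) fun _ _ _ => by positivity
          obtain ⟨b, hb, rfl⟩ := mem_image.1 ht
          exact sub_mem_sub (hSA (hA'S ha)) (hSA (mem_sdiff.1 hb).1)
  have h4 : (#(A' - A') : ℝ) * (r / 2 * θ ^ 2) ≤ N ^ 2 * N ^ 2 := by
    rw [← nsmul_eq_mul]
    refine (card_nsmul_le_sum _ _ _ h3).trans ?_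
    rw [sum_comm]
    refine le_trans ?_ (mul_le_mul_of_nonneg_right
      (energy_r_sum A (A - A) id (Set.injOn_id _)) (by positivity))
    rw [sum_mul]
    refine sum_le_sum fun t _ => ?_
    rw [← mul_sum]
    exact mul_le_mul_of_nonneg_left (energy_r_sum A _ (fun d => t - d)
      fun b _ c _ h => sub_right_injective h) (Nat.cast_nonneg _)
  have h5 : τ ^ 2 * N ^ 2 ≤ 2 * r ^ 2 := by linarith
  have h6 : (#(A' - A') : ℝ) * τ ^ 4 * r ≤ 512 * N ^ 2 := by
    have h7 : (#(A' - A') : ℝ) * (r / 2 * θ ^ 2) = (#(A' - A') * τ ^ 4 * r / 512) * N ^ 2 := by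
      rw [hθ]; ring
    rw [h7] at h4
    have := le_of_mul_le_mul_right h4 (by positivity)
    linarith
  have h7 : (#(A' - A') : ℝ) * τ ^ 6 * r ≤ 1024 * r * r := by
    calc (#(A' - A') : ℝ) * τ ^ 6 * r = (#(A' - A') : ℝ) * τ ^ 4 * r * τ ^ 2 := by ring
      _ ≤ 512 * N ^ 2 * τ ^ 2 := by gcongr
      _ ≤ _ := by nlinarith
  have := le_of_mul_le_mul_right h7 hr2
  linarith

lemma energy_classes {n : ℕ} (A' : Finset (Fin n → ℤ)) :
    #A' * #(A'.image fun x i => x i % 2) ≤ #(3 • A') := by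
  have h : ∀ c ∈ A'.image (fun x i => x i % 2), ∃ x ∈ A', (fun i => x i % 2) = c :=
    fun c hc => mem_image.1 hc
  choose! rep h1 h2 using h
  rw [← card_product]
  refine card_le_card_of_injOn (fun p => p.1 + p.1 + rep p.2) (fun p hp => ?_)
    fun p hp q hq hpq => ?_
  · obtain ⟨h3, h4⟩ := mem_product.1 hp
    rw [mem_coe, succ_nsmul, two_nsmul]
    exact add_mem_add (add_mem_add h3 h3) (h1 _ h4)
  · have h3 : p.2 = q.2 := by
      rw [← h2 _ (mem_product.1 hp).2, ← h2 _ (mem_product.1 hq).2]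
      funext i
      have := congrFun hpq i
      simp only [Pi.add_apply] at this
      omega
    refine Prod.ext (funext fun i => ?_) h3
    have := congrFun hpq i
    simp only [Pi.add_apply, h3] at this
    omega

lemma energy_block {n : ℕ} {A A' : Finset (Fin n → ℤ)} (hA : BlockClosed A) (hA' : A' ⊆ A) :
    #A' * 2 ^ n ≤ #A * #(A'.image fun x i => x i % 2) := by
  have h : 2 ^ n = #(Fintype.piFinset fun _ : Fin n => ({0, 1} : Finset ℤ)) := by simp
  rw [h, ← card_product, ← card_product]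
  refine card_le_card_of_injOn (fun p => (fun i => 2 * (p.1 i / 2) + p.2 i, fun i => p.1 i % 2))
    (fun p hp => ?_) fun p hp q hq hpq => ?_
  · obtain ⟨h1, h2⟩ := mem_product.1 hp
    refine mem_coe.2 (mem_product.2 ⟨hA _ (hA' h1) _ fun i => ?_, mem_image_of_mem _ h1⟩)
    have := Fintype.mem_piFinset.1 h2 i
    simp only [mem_insert, mem_singleton] at this ⊢
    omega
  · refine Prod.ext (funext fun i => ?_) (funext fun i => ?_) <;>
    · have h1 := Fintype.mem_piFinset.1 (mem_product.1 hp).2 i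
      have h2 := Fintype.mem_piFinset.1 (mem_product.1 hq).2 i
      have h3 := congrFun (Prod.ext_iff.1 hpq).1 i
      have h4 := congrFun (Prod.ext_iff.1 hpq).2 i
      simp only [mem_insert, mem_singleton] at h1 h2 h3 h4
      omega

end bsg

/-- Energy bound (a short Balog-Szemerédi-Gowers argument + Plünnecke + parity classes).
Let `N = #A > 0`, `E = τ N³`, `η = τ²/16`, `r₋ d = #{(x,y) ∈ A² | x - y = d}`,
`A_s = {a ∈ A | s - a ∈ A}`; `∑ #A_s = N²`, `∑ (#A_s)² = E`.  Call `(a,a')` bad if `r₋ (a-a') < η N`.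
With weights `#A_s / N²`: mean of `(#A_s)²` is `≥ τ² N²` (Cauchy-Schwarz), mean of the number of bad
pairs in `A_s²` is `≤ η N²`.  So some `s` has `(#A_s)² - 8 bad ≥ τ² N²/2`.
`A' = {a ∈ A_s | at most #A_s/4 bad partners}` has `#A' ≥ #A_s/2 ≥ τ N/4`; every `d ∈ A' - A'` has
at least `(#A_s/2)(ηN)²` representations `(x₁-y₁)-(x₂-y₂)` in `A⁴`, so `#(A'-A') ≤ 2^12 τ^{-6} #A'`.
`Finset.pluennecke_ruzsa_inequality_nsmul_sub` gives `#(3 • A') ≤ 2^36 τ^{-18} #A'`.  The sets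
`2 · A' + a` for `a` running over representatives of the parity classes met by `A'` are disjoint
in `3 • A'`, and each parity class has at most `N / 2^n` points of `A` (block closed), so
`τ 2^n / 4 ≤ 2^36 τ^{-18}`, i.e. `τ^19 ≤ 2^(38-n)`. -/
theorem energy_le {n : ℕ} (A : Finset (Fin n → ℤ)) (hA : BlockClosed A) :
    (Finset.addEnergy A A : ℝ) ≤ 4 * (2 : ℝ) ^ (-(n : ℝ) / 19) * (A.card : ℝ) ^ 3 := by
  rcases A.eq_empty_or_nonempty with rfl | hne
  · simp
  have hN : (0 : ℝ) < #A := Nat.cast_pos.2 hne.card_pos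
  set τ : ℝ := addEnergy A A / (#A : ℝ) ^ 3 with hτ
  have hτ0 : 0 < τ := div_pos (Nat.cast_pos.2 (addEnergy_pos hne hne)) (by positivity)
  obtain ⟨A', hA', h1, h2⟩ := energy_bsg A hne hτ0 (le_of_eq (by rw [hτ]; field_simp))
  have hN' : (0 : ℝ) < #A' := lt_of_lt_of_le (by positivity) h1
  have hne' : A'.Nonempty := card_pos.1 (Nat.cast_pos.1 hN')
  have h3 := pluennecke_ruzsa_inequality_nsmul_sub hne' A' 3
  have h4 := (NNRat.cast_le (K := ℝ)).2 h3
  push_cast at h4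
  set c : ℝ := (#(A'.image fun x i => x i % 2) : ℝ) with hc
  have h5 : (#A' : ℝ) * c ≤ _ := (show _ ≤ _ by rw [hc]; exact_mod_cast energy_classes A').trans h4
  have h6 : (#A' : ℝ) * 2 ^ n ≤ #A * c := by rw [hc]; exact_mod_cast energy_block hA hA'
  rw [mul_comm] at h5
  have h7 := le_of_mul_le_mul_right h5 hN'
  have h8 : c * τ ^ 18 ≤ 2 ^ 36 := by
    refine (mul_le_mul_of_nonneg_right h7 (by positivity)).trans ?_
    rw [show τ ^ 18 = (τ ^ 6) ^ 3 by ring, ← mul_pow, show (2 : ℝ) ^ 36 = (2 ^ 12) ^ 3 by norm_num]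
    refine pow_le_pow_left₀ (by positivity) ?_ 3
    rw [div_mul_eq_mul_div, div_le_iff₀ hN']
    exact h2
  have h9 : τ * 2 ^ n ≤ 4 * c := by
    have : (#A : ℝ) * (τ * 2 ^ n) ≤ #A * (4 * c) := by
      have := mul_le_mul_of_nonneg_right h1 (show (0 : ℝ) ≤ 2 ^ n by positivity)
      nlinarith
    exact le_of_mul_le_mul_left this hN
  have h10 : τ ^ 19 ≤ (4 * (2 : ℝ) ^ (-(n : ℝ) / 19)) ^ 19 := by
    rw [mul_pow, ← Real.rpow_natCast ((2 : ℝ) ^ (-(n : ℝ) / 19)), ← Real.rpow_mul two_pos.le,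
      show -(n : ℝ) / 19 * ((19 : ℕ) : ℝ) = -(n : ℝ) by push_cast; ring, Real.rpow_neg two_pos.le,
      Real.rpow_natCast, ← div_eq_mul_inv, le_div_iff₀ (by positivity)]
    calc τ ^ 19 * 2 ^ n = τ * 2 ^ n * τ ^ 18 := by ring
      _ ≤ 4 * c * τ ^ 18 := by gcongr
      _ ≤ _ := by nlinarith
  have h11 := le_of_pow_le_pow_left₀ (by norm_num) (by positivity) h10
  rwa [hτ, div_le_iff₀ (by positivity)] at h11

end Crest.Agent.R225U
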