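import Crest.Agent.R225U.Tree
import Crest.Agent.R225U.Base

/-!
Row 225 (S0347): finite covering lemma and kernel lattices.
-/

set_option autoImplicit false

open Finset
open Crest.Agent.R153

namespace Crest.Agent.R225U

/-- For each task `π` apply `tree` with `g z a τ = ind (∀ x ∈ A π z, dotz a x ≠ τ)` and `base_law`:
with `θ = (1/2)^k`, `I = av_τ ∏ g`, Markov gives
`P(I ≥ p^{-μ}) ≤ (p^μ 3^{#Z} exp (-Wt))^θ ≤ 3 (p^μ exp (-Wt))^θ` (`Bin.card_le`).  By `hcount` some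
`(a, ψ)` has `I < p^{-μ}` for all `π`; an average of `0/1` values below `1/card` vanishes. -/
theorem fin_cover {p n μ k : ℕ} [Fact p.Prime] (B₀ : ℕ) (hp : B₀ ^ 2 < p) (hμ : 2 ^ n ≤ p ^ μ)
    {ι : Type} [Fintype ι] (Z : ι → Finset (Fin k → ℤ)) (hZ : ∀ π, Bin (Z π))
    (A : ι → (Fin k → ℤ) → Finset (Fin n → ℤ)) (w : ι → (Fin k → ℤ) → ℝ)
    (hA : ∀ π, ∀ z ∈ Z π, BlockClosed (A π z))
    (hdiam : ∀ π, ∀ z ∈ Z π, ∀ x ∈ A π z, ∀ y ∈ A π z, ∀ i, |x i - y i| < B₀)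
    (hw0 : ∀ π, ∀ z ∈ Z π, 0 ≤ w π z)
    (hw : ∀ π, ∀ z ∈ Z π, w π z * (p : ℝ) ^ μ ≤ (A π z).card)
    (hsmall : ∀ π, ∀ z ∈ Z π, (10 * w π z + 10) * Real.log (p * (w π z + 1)) ≤ n / 60)
    (Wt : ℝ) (hW : ∀ π, Wt ≤ ∑ z ∈ Z π, w π z)
    (hcount : (Fintype.card ι : ℝ) *
      (3 * ((p : ℝ) ^ μ * Real.exp (-Wt)) ^ ((1 / 2 : ℝ) ^ k)) < 1) :
    ∃ (a : Fin n → Fin μ → ZMod p) (ψ : Fin k → Fin μ → ZMod p), ∀ π (τ : Fin μ → ZMod p),
      ∃ z ∈ Z π, ∃ x ∈ A π z, dotz a x = τ + dotz ψ z := by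
  by_contra hcon
  push Not at hcon
  have hp0 : (0 : ℝ) < p := by exact_mod_cast (Fact.out : p.Prime).pos
  haveI : NeZero p := ⟨(Fact.out : p.Prime).ne_zero⟩
  set θ : ℝ := (1 / 2 : ℝ) ^ k with hθ
  have hθ0 : 0 < θ := by positivity
  set N : ℝ := (p : ℝ) ^ μ with hN
  have hN0 : 0 < N := by positivity
  have hcard : (Fintype.card (Fin μ → ZMod p) : ℝ) = N := by simp [hN]
  let g : ι → (Fin k → ℤ) → (Fin n → Fin μ → ZMod p) → (Fin μ → ZMod p) → ℝ :=
    fun π z a τ => ind (∀ x ∈ A π z, dotz a x ≠ τ)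
  let I : ι → (Fin n → Fin μ → ZMod p) → (Fin k → Fin μ → ZMod p) → ℝ :=
    fun π a ψ => av fun τ : Fin μ → ZMod p => ∏ z ∈ Z π, g π z a (τ + dotz ψ z)
  have hI0 : ∀ π a ψ, 0 ≤ I π a ψ := fun π a ψ =>
    av_nonneg fun τ => Finset.prod_nonneg fun z _ => ind_nonneg _
  have h1 : ∀ a ψ, (1 : ℝ) ≤ ∑ π, N ^ θ * I π a ψ ^ θ := by
    intro a ψ
    obtain ⟨π, τ, hτ⟩ := hcon a ψ
    have h2 : 1 ≤ N * I π a ψ := by
      have h3 : (1 : ℝ) ≤ ∑ τ : Fin μ → ZMod p, ∏ z ∈ Z π, g π z a (τ + dotz ψ z) := by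
        have h4 : ∏ z ∈ Z π, g π z a (τ + dotz ψ z) = 1 :=
          Finset.prod_eq_one fun z hz => ind_pos (hτ z hz)
        rw [← h4]
        exact Finset.single_le_sum (f := fun τ : Fin μ → ZMod p => ∏ z ∈ Z π, g π z a (τ + dotz ψ z))
          (fun τ _ => Finset.prod_nonneg fun z _ => ind_nonneg _) (Finset.mem_univ τ)
      simp only [I, av]
      rw [hcard, mul_div_cancel₀ _ hN0.ne']
      exact h3
    have h5 : 1 ≤ N ^ θ * I π a ψ ^ θ := by
      rw [← Real.mul_rpow hN0.le (hI0 π a ψ)]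
      exact Real.one_le_rpow h2 hθ0.le
    exact h5.trans (Finset.single_le_sum (f := fun π => N ^ θ * I π a ψ ^ θ)
      (fun π _ => mul_nonneg (Real.rpow_nonneg hN0.le _) (Real.rpow_nonneg (hI0 π a ψ) _))
      (Finset.mem_univ π))
  have h6 : ∀ π, av (fun a => av fun ψ => I π a ψ ^ θ) ≤ 3 * Real.exp (-Wt) ^ θ := by
    intro π
    refine (tree k (Z π) (hZ π) (g π) fun z a τ => ind_nonneg _).trans ?_
    have h7 : ∏ z ∈ Z π, (av fun a => av fun τ => g π z a τ) ≤ 3 ^ (2 ^ k) * Real.exp (-Wt) := by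
      calc ∏ z ∈ Z π, (av fun a => av fun τ => g π z a τ)
          ≤ ∏ z ∈ Z π, 3 * Real.exp (-w π z) :=
            Finset.prod_le_prod (fun z _ => av_nonneg fun a => av_nonneg fun τ => ind_nonneg _)
              fun z hz => base_law B₀ hp (A π z) (hA π z hz) (hdiam π z hz) hμ (w π z)
                (hw0 π z hz) (hw π z hz) (hsmall π z hz)
        _ = 3 ^ (Z π).card * Real.exp (-∑ z ∈ Z π, w π z) := by
            rw [Finset.prod_mul_distrib, Finset.prod_const, ← Real.exp_sum, Finset.sum_neg_distrib]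
        _ ≤ 3 ^ (2 ^ k) * Real.exp (-Wt) := by
            apply mul_le_mul (pow_le_pow_right₀ (by norm_num) (hZ π).card_le)
              (Real.exp_le_exp.2 (neg_le_neg (hW π))) (Real.exp_pos _).le (by positivity)
    refine (Real.rpow_le_rpow (Finset.prod_nonneg fun z _ =>
      av_nonneg fun a => av_nonneg fun τ => ind_nonneg _) h7 hθ0.le).trans (le_of_eq ?_)
    rw [Real.mul_rpow (by positivity) (Real.exp_pos _).le, ← Real.rpow_natCast,
      ← Real.rpow_mul (by norm_num)]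
    have : ((2 ^ k : ℕ) : ℝ) * θ = 1 := by
      rw [hθ]; push_cast; rw [← mul_pow]; norm_num
    rw [this, Real.rpow_one]
  have h8 : (1 : ℝ) ≤ av fun a : Fin n → Fin μ → ZMod p => av fun ψ : Fin k → Fin μ → ZMod p =>
      ∑ π, N ^ θ * I π a ψ ^ θ := le_av_of_le fun a => le_av_of_le fun ψ => h1 a ψ
  simp only [av_sum, av_const_mul] at h8
  have h9 : ∑ π, N ^ θ * av (fun a => av fun ψ => I π a ψ ^ θ)
      ≤ ∑ _π : ι, N ^ θ * (3 * Real.exp (-Wt) ^ θ) :=
    Finset.sum_le_sum fun π _ => mul_le_mul_of_nonneg_left (h6 π) (Real.rpow_nonneg hN0.le _)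
  rw [Finset.sum_const, Finset.card_univ, nsmul_eq_mul] at h9
  rw [Real.mul_rpow hN0.le (Real.exp_pos _).le] at hcount
  nlinarith

/-- The kernel of a surjection `ℤ^ι → T` has a basis matrix of determinant `± card T`
(`AddSubgroup.index_eq_natAbs_det`, a finite-index submodule of a free `ℤ`-module is free of the
same rank). -/
theorem kernel_basis {ι : Type} [Fintype ι] [DecidableEq ι] {T : Type} [AddCommGroup T] [Fintype T]
    (H : (ι → ℤ) →+ T) (hH : Function.Surjective H) :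
    ∃ M : Matrix ι ι ℤ, M.det.natAbs = Fintype.card T ∧
      ∀ v, H v = 0 → ∃ y : ι → ℤ, v = M.mulVec y := by
  have hidx : H.ker.index = Fintype.card T := by
    rw [AddSubgroup.index_ker, AddMonoidHom.range_eq_top.2 hH, AddSubgroup.card_top,
      Nat.card_eq_fintype_card]
  haveI : H.ker.FiniteIndex := ⟨by rw [hidx]; exact Fintype.card_ne_zero⟩
  haveI : Module.Finite ℤ H.ker := Module.Finite.of_injective H.ker.subtype.toIntLinearMap
    Subtype.val_injective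
  haveI : Module.Free ℤ H.ker := inferInstance
  have hr : Module.finrank ℤ H.ker = Fintype.card ι := by
    rw [AddSubgroup.finrank_eq_of_finiteIndex, Module.finrank_fintype_fun_eq_card]
  let b : Module.Basis ι ℤ H.ker :=
    (Module.finBasisOfFinrankEq ℤ H.ker hr).reindex (Fintype.equivFin ι).symm
  refine ⟨Matrix.of fun i j => (b j : ι → ℤ) i, ?_, ?_⟩
  · rw [← hidx, AddSubgroup.index_eq_natAbs_det (Pi.basisFun ℤ ι) H.ker b, Module.Basis.det_apply]
    congr 2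
  · intro v hv
    refine ⟨fun j => b.repr ⟨v, hv⟩ j, ?_⟩
    have h := congrArg Subtype.val (b.sum_repr ⟨v, hv⟩)
    funext i
    have h2 := congrFun h i
    simp only [AddSubgroup.val_finsetSum, AddSubgroup.coe_zsmul, Finset.sum_apply, Pi.smul_apply,
      smul_eq_mul] at h2
    simp only [Matrix.mulVec, dotProduct, Matrix.of_apply]
    rw [← h2]
    exact Finset.sum_congr rfl fun j _ => mul_comm _ _

end Crest.Agent.R225U
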