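import Crest.Agent.R225U.Bin

/-!
Row 225 (S0347): horizontal step, volume bounds used in the choice of parameters.
-/

set_option autoImplicit false

open MeasureTheory Finset
open Crest.Agent.R153

namespace Crest.Agent.R225U

lemma horiz_vol_ge {n' k : ℕ} {K : Set (Fin n' ⊕ Fin k → ℝ)} (hK : Prepared n' k K) :
    (2 / ((n' : ℝ) + k) ^ 4) ^ (n' + k) ≤ (volume K).toReal := by
  set r : ℝ := 1 / ((n' : ℝ) + k) ^ 4 with hr
  have hr0 : 0 ≤ r := by positivity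
  have hsub : Set.Icc (fun _ : Fin n' ⊕ Fin k => -r) (fun _ => r) ⊆ K := by
    intro x hx
    exact hK.inner x (fun i => abs_le.2 ⟨hx.1 i, hx.2 i⟩)
  have hfin : volume K ≠ ⊤ := hK.compact.measure_lt_top.ne
  have h1 := ENNReal.toReal_mono hfin (measure_mono hsub)
  rw [Real.volume_Icc_pi_toReal (fun _ => by linarith)] at h1
  simp only [Finset.prod_const, Finset.card_univ, Fintype.card_sum, Fintype.card_fin] at h1
  refine le_trans (le_of_eq ?_) h1
  congr 1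
  rw [hr]; ring

lemma horiz_slice_le {n' k : ℕ} {K : Set (Fin n' ⊕ Fin k → ℝ)} (hK : Prepared n' k K)
    (t : Fin k → ℝ) : (volume (slice K t)).toReal ≤ (4 * ((n' : ℝ) + k)) ^ n' := by
  set R : ℝ := 2 * ((n' : ℝ) + k) with hR
  have hR0 : 0 ≤ R := by positivity
  have hsub : slice K t ⊆ Set.Icc (fun _ : Fin n' => -R) (fun _ => R) := by
    intro u hu
    have h := hK.outer _ hu
    constructor
    · intro i; exact (abs_le.1 (h i)).1
    · intro i; exact (abs_le.1 (h i)).2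
  have hfin : volume (Set.Icc (fun _ : Fin n' => -R) (fun _ => R)) ≠ ⊤ :=
    isCompact_Icc.measure_lt_top.ne
  have h1 := ENNReal.toReal_mono hfin (measure_mono hsub)
  rw [Real.volume_Icc_pi_toReal (fun _ => by linarith)] at h1
  simp only [Finset.prod_const, Finset.card_univ, Fintype.card_fin] at h1
  refine le_trans h1 (le_of_eq ?_)
  congr 1
  rw [hR]; ring

lemma horiz_vol_le {n' k : ℕ} {m c : ℝ} {ι : Type}
    {B : Matrix (Fin k) (Fin k) ℝ} {Z : ι → Finset (Fin k → ℤ)} {w : ι → (Fin k → ℤ) → ℝ}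
    (hD : DesignOn m c B Z w) {K : Set (Fin n' ⊕ Fin k → ℝ)} (hK : Prepared n' k K) :
    (volume K).toReal * c ≤ 11 * (4 * ((n' : ℝ) + k)) ^ n' * B.det * 2 ^ k := by
  obtain ⟨π, z₀, hcov⟩ := hD.cover 0
  have hmass := hD.mass π
  have hcard : ((Z π).card : ℝ) ≤ 2 ^ k := by exact_mod_cast (hD.bin π).card_le
  have hV : 0 ≤ (volume K).toReal := ENNReal.toReal_nonneg
  have hdet := hD.det_pos
  have hS : (0 : ℝ) ≤ 11 * (4 * ((n' : ℝ) + k)) ^ n' * B.det := by positivity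
  have key : ∀ z ∈ Z π, (volume K).toReal * w π z ≤
      11 * (4 * ((n' : ℝ) + k)) ^ n' * B.det := by
    intro z hz
    obtain ⟨h1, h2⟩ := hcov z hz
    have h3 := hK.marg _ h2
    have h4 := horiz_slice_le hK (res B 0 z₀ z)
    calc (volume K).toReal * w π z ≤ (volume K).toReal * (B.det * gv 1 (res B 0 z₀ z)) :=
          mul_le_mul_of_nonneg_left h1 hV
      _ = 11 * (gv 1 (res B 0 z₀ z) * (volume K).toReal / 11) * B.det := by ring
      _ ≤ 11 * (4 * ((n' : ℝ) + k)) ^ n' * B.det := by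
          have := h3.trans h4
          gcongr
  calc (volume K).toReal * c ≤ (volume K).toReal * ∑ z ∈ Z π, w π z :=
        mul_le_mul_of_nonneg_left hmass hV
    _ = ∑ z ∈ Z π, (volume K).toReal * w π z := Finset.mul_sum _ _ _
    _ ≤ ∑ _z ∈ Z π, 11 * (4 * ((n' : ℝ) + k)) ^ n' * B.det := Finset.sum_le_sum key
    _ = ((Z π).card : ℝ) * (11 * (4 * ((n' : ℝ) + k)) ^ n' * B.det) := by
        rw [Finset.sum_const, nsmul_eq_mul]
    _ ≤ 2 ^ k * (11 * (4 * ((n' : ℝ) + k)) ^ n' * B.det) :=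
        mul_le_mul_of_nonneg_right hcard hS
    _ = _ := by ring

/-- choice of `μ` and `ε` -/
lemma horiz_choose {V A ε₀ : ℝ} {n' p : ℕ} (hn' : 1 ≤ n') (hA : 0 < A) (hε₀ : 0 < ε₀)
    (hp : 2 ≤ p) (hp2 : p ≤ 2 ^ n') (hV : A * (2 * ε₀) ^ n' ≤ V) :
    ∃ (μ : ℕ) (ε : ℝ), ε₀ / 2 ≤ ε ∧ ε ≤ ε₀ ∧ 2 ^ n' ≤ p ^ μ ∧ V = A * ε ^ n' * (p : ℝ) ^ μ := by
  classical
  have hp1 : (1 : ℝ) < p := by exact_mod_cast hp
  have hp0 : (0 : ℝ) < p := by linarith
  set Θ : ℝ := V / (A * ε₀ ^ n') with hΘ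
  have hAe : 0 < A * ε₀ ^ n' := by positivity
  have hΘ2 : (2 : ℝ) ^ n' ≤ Θ := by
    rw [hΘ, le_div_iff₀ hAe]
    calc (2 : ℝ) ^ n' * (A * ε₀ ^ n') = A * (2 * ε₀) ^ n' := by rw [mul_pow]; ring
      _ ≤ V := hV
  have h21 : (1 : ℝ) < 2 ^ n' := one_lt_pow₀ (by norm_num) (by omega)
  have hΘ0 : 0 < Θ := by linarith
  have hVΘ : V = Θ * (A * ε₀ ^ n') := by rw [hΘ]; field_simp
  have hex : ∃ μ : ℕ, Θ ≤ (p : ℝ) ^ μ := by
    obtain ⟨μ, hμ⟩ := pow_unbounded_of_one_lt Θ hp1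
    exact ⟨μ, hμ.le⟩
  set μ := Nat.find hex with hμ
  have hμ1 : Θ ≤ (p : ℝ) ^ μ := Nat.find_spec hex
  have hμ0 : μ ≠ 0 := by
    intro h
    rw [h, pow_zero] at hμ1
    linarith
  have hμ2 : (p : ℝ) ^ μ ≤ 2 ^ n' * Θ := by
    obtain ⟨ν, hν⟩ := Nat.exists_eq_succ_of_ne_zero hμ0
    have hlt : ¬ Θ ≤ (p : ℝ) ^ ν := Nat.find_min hex (by omega)
    have hp2' : (p : ℝ) ≤ 2 ^ n' := by exact_mod_cast hp2
    rw [hν, pow_succ, mul_comm]
    exact mul_le_mul hp2' (not_le.1 hlt).le (by positivity) (by positivity)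
  have hpμ : (0 : ℝ) < (p : ℝ) ^ μ := by positivity
  set q : ℝ := Θ / (p : ℝ) ^ μ with hq
  have hq0 : 0 < q := by positivity
  have hq1 : q ≤ 1 := (div_le_one hpμ).2 hμ1
  have hq2 : (1 / 2 : ℝ) ^ n' ≤ q := by
    rw [hq, le_div_iff₀ hpμ, one_div, inv_pow, inv_mul_le_iff₀ (by positivity)]
    exact hμ2
  set ρ : ℝ := q ^ ((n' : ℝ)⁻¹) with hρ
  have hρ0 : 0 ≤ ρ := Real.rpow_nonneg hq0.le _
  have hρn : ρ ^ n' = q := Real.rpow_inv_natCast_pow hq0.le (by omega)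
  have hρ1 : ρ ≤ 1 := Real.rpow_le_one hq0.le hq1 (by positivity)
  have hρ2 : 1 / 2 ≤ ρ := by
    refine le_of_pow_le_pow_left₀ (n := n') (by omega) hρ0 ?_
    rw [hρn]; exact hq2
  refine ⟨μ, ρ * ε₀, by nlinarith, by nlinarith, ?_, ?_⟩
  · have : ((2 ^ n' : ℕ) : ℝ) ≤ ((p ^ μ : ℕ) : ℝ) := by push_cast; linarith
    exact_mod_cast this
  · rw [mul_pow, hρn, hVΘ, hq]
    field_simp

lemma horiz_pow16 (k : ℕ) (hk : 1 ≤ k) : 6 * k + 3 ≤ 16 ^ k := by
  induction k, hk using Nat.le_induction with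
  | base => norm_num
  | succ k hk ih => rw [pow_succ]; omega

lemma horiz_pow8 (k : ℕ) (hk : 1 ≤ k) : 7 * k + 3 ≤ 3 * 8 ^ k := by
  induction k, hk using Nat.le_induction with
  | base => norm_num
  | succ k hk ih => rw [pow_succ]; omega

/-- the counting inequality -/
lemma horiz_count {N L P X δ κ : ℝ} {k : ℕ} (hk : 1 ≤ k) (hN : 16 ^ k ≤ N) (hL : L = Real.log N)
    (hL1 : 1 ≤ L) (hδ : δ = 1 / N ^ 5) (hP0 : 0 ≤ P) (hP : P ≤ Real.exp (7 * N * L))
    (hX : 10 * N * L ≤ X) (hκ : κ ≤ Real.exp L) :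
    κ * (2 * k / δ + 2) ^ k * (3 * (P * Real.exp (-X)) ^ ((1 / 2 : ℝ) ^ k)) < 1 := by
  have h16 : (16 : ℝ) ≤ N := le_trans (le_self_pow₀ (by norm_num) (by omega)) hN
  have hN0 : 0 < N := by linarith
  have hexp : Real.exp L = N := by rw [hL, Real.exp_log hN0]
  have hk6 : (6 * k + 3 : ℝ) ≤ N := by
    have : ((6 * k + 3 : ℕ) : ℝ) ≤ ((16 ^ k : ℕ) : ℝ) := by exact_mod_cast horiz_pow16 k hk
    push_cast at this
    linarith
  have hk0 : (0 : ℝ) ≤ k := Nat.cast_nonneg k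
  have hN5 : 1 ≤ N ^ 5 := one_le_pow₀ (by linarith)
  have h1 : 2 * k / δ + 2 ≤ Real.exp (6 * L) := by
    have e : Real.exp (6 * L) = N ^ 6 := by
      rw [← hexp, ← Real.exp_nat_mul]; norm_num
    rw [e, hδ, div_div_eq_mul_div, div_one]
    nlinarith
  have h1' : (2 * k / δ + 2) ^ k ≤ Real.exp (6 * k * L) := by
    calc (2 * k / δ + 2) ^ k ≤ (Real.exp (6 * L)) ^ k := by
          refine pow_le_pow_left₀ ?_ h1 k
          rw [hδ]; positivity
      _ = Real.exp (6 * k * L) := by rw [← Real.exp_nat_mul]; congr 1; ring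
  have hθ0 : (0 : ℝ) ≤ (1 / 2 : ℝ) ^ k := by positivity
  have h2 : P * Real.exp (-X) ≤ Real.exp (-(3 * N * L)) := by
    calc P * Real.exp (-X) ≤ Real.exp (7 * N * L) * Real.exp (-(10 * N * L)) :=
          mul_le_mul hP (Real.exp_le_exp.2 (by linarith)) (Real.exp_pos _).le (Real.exp_pos _).le
      _ = _ := by rw [← Real.exp_add]; congr 1; ring
  have h8 : (8 : ℝ) ^ k ≤ N * (1 / 2 : ℝ) ^ k := by
    calc (8 : ℝ) ^ k = 16 ^ k * (1 / 2 : ℝ) ^ k := by rw [← mul_pow]; norm_num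
      _ ≤ _ := mul_le_mul_of_nonneg_right hN hθ0
  have h8' : (7 * k + 3 : ℝ) ≤ 3 * 8 ^ k := by
    have : ((7 * k + 3 : ℕ) : ℝ) ≤ ((3 * 8 ^ k : ℕ) : ℝ) := by exact_mod_cast horiz_pow8 k hk
    push_cast at this
    linarith
  have h3 : (P * Real.exp (-X)) ^ ((1 / 2 : ℝ) ^ k) ≤ Real.exp (-((7 * k + 3) * L)) := by
    calc (P * Real.exp (-X)) ^ ((1 / 2 : ℝ) ^ k)
        ≤ (Real.exp (-(3 * N * L))) ^ ((1 / 2 : ℝ) ^ k) :=
          Real.rpow_le_rpow (by positivity) h2 hθ0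
      _ = Real.exp (-(3 * N * L) * (1 / 2 : ℝ) ^ k) := by rw [← Real.exp_mul]
      _ ≤ _ := by
          refine Real.exp_le_exp.2 ?_
          have : (7 * k + 3) * L ≤ (3 * (N * (1 / 2 : ℝ) ^ k)) * L :=
            mul_le_mul_of_nonneg_right (by linarith) (by linarith)
          linarith
  have hk1 : (1 : ℝ) ≤ k := by exact_mod_cast hk
  have h4 : (3 : ℝ) < Real.exp 3 := by linarith [Real.add_one_le_exp (3 : ℝ)]
  calc κ * (2 * k / δ + 2) ^ k * (3 * (P * Real.exp (-X)) ^ ((1 / 2 : ℝ) ^ k))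
      ≤ Real.exp L * Real.exp (6 * k * L) * (3 * Real.exp (-((7 * k + 3) * L))) := by
        refine mul_le_mul (mul_le_mul hκ h1' ?_ (Real.exp_pos _).le) (by linarith) (by positivity)
          (by positivity)
        rw [hδ]; positivity
    _ < Real.exp L * Real.exp (6 * k * L) * (Real.exp 3 * Real.exp (-((7 * k + 3) * L))) := by
        gcongr
    _ = Real.exp (3 - (k + 2) * L) := by
        rw [← Real.exp_add, ← Real.exp_add, ← Real.exp_add]; congr 1; ring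
    _ ≤ 1 := Real.exp_le_one_iff.2 (by nlinarith)

/-- the smallness condition for the weights -/
lemma horiz_small {N L c p n' : ℝ} (hN0 : 0 < N) (hL : L = Real.log N) (hc : 0 < c)
    (hLc : 10 ^ 4 * (110 + c) ≤ L) (hp1 : 1 ≤ p) (hp : p ≤ N ^ 13) (hn' : N / 2 ≤ n') :
    (10 * ((110 + c) * N / (11 * L ^ 2)) + 10) *
      Real.log (p * ((110 + c) * N / (11 * L ^ 2) + 1)) ≤ n' / 60 := by
  have hL6 : (10 : ℝ) ^ 6 ≤ L := by linarith
  have hL0 : 0 < L := by linarith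
  have hexp : Real.exp L = N := by rw [hL, Real.exp_log hN0]
  have hq : L ^ 2 / 2 ≤ N := by
    have := Real.quadratic_le_exp_of_nonneg hL0.le
    linarith
  have hLN : L ≤ 2 * N / 10 ^ 6 := by
    rw [le_div_iff₀ (by norm_num)]; nlinarith
  set wm : ℝ := (110 + c) * N / (11 * L ^ 2) with hwm
  have hw0 : 0 ≤ wm := by positivity
  have hwL : wm * L ≤ N / 10 ^ 5 := by
    have e : wm * L = (110 + c) * N / (11 * L) := by rw [hwm]; field_simp
    rw [e, div_le_div_iff₀ (by positivity) (by norm_num)]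
    nlinarith
  have hw1 : wm + 1 ≤ N := by nlinarith
  have hlog : Real.log (p * (wm + 1)) ≤ 14 * L := by
    have h1 : p * (wm + 1) ≤ N ^ 14 := by
      calc p * (wm + 1) ≤ N ^ 13 * N := mul_le_mul hp hw1 (by positivity) (by positivity)
        _ = N ^ 14 := by ring
    calc Real.log (p * (wm + 1)) ≤ Real.log (N ^ 14) := Real.log_le_log (by positivity) h1
      _ = 14 * L := by rw [Real.log_pow, hL]; norm_num
  calc (10 * wm + 10) * Real.log (p * (wm + 1)) ≤ (10 * wm + 10) * (14 * L) :=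
        mul_le_mul_of_nonneg_left hlog (by positivity)
    _ = 140 * (wm * L) + 140 * L := by ring
    _ ≤ n' / 60 := by linarith

end Crest.Agent.R225U
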