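import Crest.Agent.R225U.HorizGeo
import Crest.Agent.R225U.HorizAux

/-!
Row 225 (S0347): horizontal step, choice of parameters.
-/

set_option autoImplicit false

open MeasureTheory Finset
open Crest.Agent.R153

namespace Crest.Agent.R225U

/-- Let `n = n' + k`, `W = (110 / c₀ + 1) n log n` (so `W c₀ / 11 ≥ 10 n log n`), `δ = n^{-5}`,
`ε₀ = n^{-5}/3`, `B₀ = 25 n^6`, `p` a prime in `(B₀², 2 B₀²]` (so `p ≤ n^13`, `p ≤ 2^{n'}`),
`D = det B ≤ exp (k²) ≤ n^k`, `Θ = vol K / (W D ε₀^{n'}) ≥ 2^{n'}` (`vol K ≥ (2 n^{-4})^n` from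
`inner`).  Take `μ` minimal with `Θ ≤ p^μ` and `ε = (vol K / (W D p^μ))^(1/n') ∈ [ε₀/2, ε₀]`.
Upper bound for `p^μ`: `cover` at `s = 0` and `Bin.card_le` give `z` with
`c₀ / 2^k ≤ w z ≤ D gv 1 t`, and `gv 1 t vol K / 11 ≤ vol (slice) ≤ (4n)^{n'}`, hence
`p^μ = vol K / (W ε^{n'} D) ≤ (4n/ε)^{n'} 11 2^k / (c₀ W) ≤ (24 n^6)^n ≤ exp (7 n log n)`.
`wm = n / (10^5 log n)` works when `log n ≥ 10^7 (1 + c₀)`; the count is at most
`n (4 n^6)^k 3 exp (-3 n log n / 2^k) < 1` because `16^k ≤ n`. -/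
theorem horiz (c₀ : ℝ) (hc : 0 < c₀) : ∃ (C : ℝ) (n₀ : ℕ), ∀ n' k : ℕ, n₀ ≤ n' + k → 1 ≤ k →
    16 ^ k ≤ n' + k →
    IsDesign k (3 * Real.log (Real.log ((n' : ℝ) + k))) c₀ (Real.log ((n' : ℝ) + k)) →
    ∀ K : Set (Fin n' ⊕ Fin k → ℝ), Prepared n' k K →
      Cov K (C * ((n' : ℝ) + k) * Real.log ((n' : ℝ) + k)) := by
  have hc' : 0 < 110 / c₀ := by positivity
  refine ⟨3 * (110 / c₀ + 1), ⌈Real.exp (10 ^ 4 * (110 + c₀) + (110 / c₀ + 1))⌉₊, ?_⟩
  intro n' k hn₀ hk h16 hdes K hK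
  obtain ⟨ι, _, B, Z, w, hcard, hD⟩ := hdes
  set N : ℝ := (n' : ℝ) + k with hNdef
  have hNcast : ((n' + k : ℕ) : ℝ) = N := by rw [hNdef]; push_cast; ring
  set L : ℝ := Real.log N with hL
  have hNexp : Real.exp (10 ^ 4 * (110 + c₀) + (110 / c₀ + 1)) ≤ N := by
    rw [← hNcast]
    exact (Nat.le_ceil _).trans (by exact_mod_cast hn₀)
  have hN0 : 0 < N := lt_of_lt_of_le (Real.exp_pos _) hNexp
  have hLge : 10 ^ 4 * (110 + c₀) + (110 / c₀ + 1) ≤ L := (Real.le_log_iff_exp_le hN0).2 hNexp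
  have hLc : 10 ^ 4 * (110 + c₀) ≤ L := by linarith
  have hL6 : (10 : ℝ) ^ 6 ≤ L := by linarith
  have hL0 : 0 < L := by linarith
  have hexp : Real.exp L = N := by rw [hL, Real.exp_log hN0]
  have hLN : L ≤ N := by linarith [Real.add_one_le_exp L]
  have hq : L ^ 2 / 2 ≤ N := by
    have := Real.quadratic_le_exp_of_nonneg hL0.le
    linarith
  have hLN' : L ≤ 2 * N / 10 ^ 6 := by
    rw [le_div_iff₀ (by norm_num)]; nlinarith
  have hN6 : (10 : ℝ) ^ 6 ≤ N := by linarith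
  have hN1 : 1 ≤ N := by linarith
  have h16R : (16 : ℝ) ^ k ≤ N := by rw [← hNcast]; exact_mod_cast h16
  have hk6 : 6 * k + 3 ≤ n' + k := (horiz_pow16 k hk).trans h16
  have hn'1 : 1 ≤ n' := by omega
  have hn'N : N / 2 ≤ n' := by
    have : ((6 * k + 3 : ℕ) : ℝ) ≤ ((n' + k : ℕ) : ℝ) := by exact_mod_cast hk6
    push_cast at this
    have hk0 : (0 : ℝ) ≤ k := Nat.cast_nonneg k
    rw [hNdef]; linarith
  -- parameters
  set W : ℝ := (110 / c₀ + 1) * N * L with hW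
  have hW0 : 0 < W := by positivity
  have hWc : W * c₀ = (110 + c₀) * N * L := by rw [hW]; field_simp
  have hW3 : W ≤ N ^ 3 := by
    have h1 : 110 / c₀ + 1 ≤ N := by linarith
    calc W ≤ N * N * N := by rw [hW]; gcongr
      _ = N ^ 3 := by ring
  set B₀ : ℕ := 25 * (n' + k) ^ 6 with hB₀
  have hB₀R : (B₀ : ℝ) = 25 * N ^ 6 := by rw [hB₀, ← hNcast]; push_cast; ring
  have hB₀0 : B₀ ^ 2 ≠ 0 := by
    have : 0 < n' + k := by omega
    positivity
  obtain ⟨p, hpp, hp1, hp2⟩ := Nat.exists_prime_lt_and_le_two_mul (B₀ ^ 2) hB₀0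
  haveI : Fact p.Prime := ⟨hpp⟩
  have hpR1 : (1 : ℝ) ≤ p := by exact_mod_cast hpp.one_lt.le
  have hpN : (p : ℝ) ≤ N ^ 13 := by
    have h1 : (p : ℝ) ≤ 2 * (B₀ : ℝ) ^ 2 := by exact_mod_cast hp2
    rw [hB₀R] at h1
    calc (p : ℝ) ≤ 2 * (25 * N ^ 6) ^ 2 := h1
      _ = 1250 * N ^ 12 := by ring
      _ ≤ N * N ^ 12 := by gcongr; linarith
      _ = N ^ 13 := by ring
  have hp2n : p ≤ 2 ^ n' := by
    have h1 : N ^ 13 ≤ (2 : ℝ) ^ n' := by
      have e1 : N ^ 13 = Real.exp (13 * L) := by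
        rw [← hexp, ← Real.exp_nat_mul]; norm_num
      have e2 : (2 : ℝ) ^ n' = Real.exp (n' * Real.log 2) := by
        rw [Real.exp_nat_mul, Real.exp_log (by norm_num)]
      rw [e1, e2]
      refine Real.exp_le_exp.2 ?_
      have := Real.log_two_gt_d9
      nlinarith
    have : (p : ℝ) ≤ ((2 ^ n' : ℕ) : ℝ) := by push_cast; linarith
    exact_mod_cast this
  have hdet := hD.det_pos
  have hdetN : B.det ≤ N ^ k := by
    have h1 : Real.exp k ≤ N := by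
      refine le_trans ?_ h16R
      rw [← mul_one (k : ℝ), Real.exp_nat_mul]
      refine pow_le_pow_left₀ (Real.exp_pos _).le ?_ k
      linarith [Real.exp_one_lt_d9]
    calc B.det ≤ Real.exp ((k : ℝ) ^ 2) := hD.det_le
      _ = (Real.exp k) ^ k := by rw [← Real.exp_nat_mul]; congr 1; ring
      _ ≤ N ^ k := pow_le_pow_left₀ (Real.exp_pos _).le h1 k
  have hA : 0 < W * B.det := by positivity
  have hε₀ : 0 < 1 / (3 * N ^ 5) := by positivity
  have hV : W * B.det * (2 * (1 / (3 * N ^ 5))) ^ n' ≤ (volume K).toReal := by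
    refine le_trans ?_ (horiz_vol_ge hK)
    rw [← hNdef]
    have h1 : 2 * (1 / (3 * N ^ 5)) ≤ 2 / N ^ 4 * (1 / N) := by
      rw [show 2 / N ^ 4 * (1 / N) = 2 * (1 / N ^ 5) by field_simp]
      gcongr
      linarith [pow_pos hN0 5]
    have h2 : (1 / N ^ 4) ^ k ≤ (2 / N ^ 4) ^ k := by gcongr; norm_num
    have h3 : N ^ 3 * N ^ k * (1 / N) ^ n' ≤ (1 / N ^ 4) ^ k := by
      rw [one_div, one_div, inv_pow, inv_pow, ← pow_add, ← pow_mul, mul_inv_le_iff₀ (by positivity),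
        le_inv_mul_iff₀ (by positivity), ← pow_add]
      exact pow_le_pow_right₀ hN1 (by omega)
    calc W * B.det * (2 * (1 / (3 * N ^ 5))) ^ n'
        ≤ N ^ 3 * N ^ k * (2 / N ^ 4 * (1 / N)) ^ n' := by gcongr
      _ = (2 / N ^ 4) ^ n' * (N ^ 3 * N ^ k * (1 / N) ^ n') := by rw [mul_pow]; ring
      _ ≤ (2 / N ^ 4) ^ n' * (2 / N ^ 4) ^ k := by gcongr; exact h3.trans h2
      _ = (2 / N ^ 4) ^ (n' + k) := by rw [pow_add]
  obtain ⟨μ, ε, hε1, hε2, hμ, hvol⟩ := horiz_choose hn'1 hA hε₀ hpp.two_le hp2n hV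
  have hε0 : 0 < ε := lt_of_lt_of_le (by positivity) hε1
  have hεinv : 4 * N / ε ≤ 24 * N ^ 6 := by
    rw [div_le_iff₀ hε0]
    calc 4 * N = 24 * N ^ 6 * (1 / (3 * N ^ 5) / 2) := by field_simp; ring
      _ ≤ 24 * N ^ 6 * ε := by gcongr
  have hN65 : 5 ≤ N ^ 6 := le_trans (by linarith) (le_self_pow₀ hN1 (by norm_num))
  have hpμ : (p : ℝ) ^ μ ≤ Real.exp (7 * N * L) := by
    have h1 := horiz_vol_le hD hK
    rw [← hNdef, hvol] at h1
    have h11 : 11 ≤ W * c₀ := by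
      rw [hWc]
      have : 1 ≤ N * L := one_le_mul_of_one_le_of_one_le hN1 (by linarith)
      nlinarith
    have hen : 0 < ε ^ n' := by positivity
    have h2 : ε ^ n' * (p : ℝ) ^ μ ≤ (4 * N) ^ n' * 2 ^ k := by
      have h3 : 11 * B.det * (ε ^ n' * (p : ℝ) ^ μ) ≤ 11 * B.det * ((4 * N) ^ n' * 2 ^ k) := by
        calc 11 * B.det * (ε ^ n' * (p : ℝ) ^ μ) ≤ W * c₀ * B.det * (ε ^ n' * (p : ℝ) ^ μ) := by
              gcongr
          _ = W * B.det * ε ^ n' * (p : ℝ) ^ μ * c₀ := by ring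
          _ ≤ _ := h1
          _ = _ := by ring
      exact le_of_mul_le_mul_left h3 (by positivity)
    have h7 : 24 * N ^ 6 ≤ N ^ 7 := by
      calc 24 * N ^ 6 ≤ N * N ^ 6 := by gcongr; linarith
        _ = N ^ 7 := by ring
    have h27 : 2 ≤ N ^ 7 := le_trans (by linarith) (le_self_pow₀ hN1 (by norm_num))
    calc (p : ℝ) ^ μ ≤ (4 * N / ε) ^ n' * 2 ^ k := by
          rw [div_pow, div_mul_eq_mul_div, le_div_iff₀ hen]; linarith
      _ ≤ (N ^ 7) ^ n' * (N ^ 7) ^ k := by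
          gcongr
          exact hεinv.trans h7
      _ = Real.exp (7 * N * L) := by
          rw [← pow_add, ← pow_mul, ← hexp, ← Real.exp_nat_mul, hexp]
          congr 1
          push_cast
          rw [← hNdef]
  have hexpm : Real.exp (-(3 * Real.log L)) = 1 / L ^ 3 := by
    rw [Real.exp_neg, show (3 : ℝ) * Real.log L = ((3 : ℕ) : ℝ) * Real.log L by norm_num,
      Real.exp_nat_mul, Real.exp_log hL0, one_div]
  have hfin := horiz_geo (ε := ε) (δ := 1 / N ^ 5) (W := W)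
    (wm := (110 + c₀) * N / (11 * L ^ 2)) (p := p) (μ := μ) (B₀ := B₀) hk hc hD hK hε0
    (by positivity) hW0
    (by
      rw [← hNdef]
      calc 3 * ε ≤ 3 * (1 / (3 * N ^ 5)) := by gcongr
        _ = 1 / N ^ 5 := by field_simp)
    le_rfl (by rw [← hNdef, hB₀R]; linarith) hp1 hμ (by rw [hvol]; ring)
    (by
      rw [hexpm, ← mul_assoc, hWc]
      refine le_of_eq ?_
      field_simp)
    (horiz_small hN0 hL hc hLc hpR1 hpN hn'N)
    (horiz_count hk h16R hL (by linarith) rfl (by positivity) hpμ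
      (by
        rw [hWc, le_div_iff₀ (by norm_num)]
        have : 0 ≤ c₀ * (N * L) := by positivity
        nlinarith) hcard)
  rw [show 3 * (110 / c₀ + 1) * N * L = 3 * W by rw [hW]; ring]
  exact hfin

end Crest.Agent.R225U
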