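import Crest.Agent.R225U.Defs

/-!
Row 225 (S0347): isotropic position.
-/

set_option autoImplicit false

open MeasureTheory
open Crest.Agent.R153

namespace Crest.Agent.R225U

theorem iso_pos {n : ℕ} (K : Set (Fin n → ℝ)) (hc : IsCompact K) (hi : (interior K).Nonempty)
    (v a : Fin n → ℝ) (ha : a ≠ 0) : 0 < ∫ x in K, (∑ i, a i * (x i - v i)) ^ 2 := by
  have hcont : Continuous fun x : Fin n → ℝ => (∑ i, a i * (x i - v i)) ^ 2 := by fun_prop
  have hint : IntegrableOn (fun x : Fin n → ℝ => (∑ i, a i * (x i - v i)) ^ 2) K :=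
    hcont.continuousOn.integrableOn_compact hc
  rw [setIntegral_pos_iff_support_of_nonneg_ae (Filter.Eventually.of_forall fun x => sq_nonneg _) hint]
  have hopen : IsOpen (Function.support (fun x : Fin n → ℝ => (∑ i, a i * (x i - v i)) ^ 2)
      ∩ interior K) := (hcont.isOpen_support).inter isOpen_interior
  refine lt_of_lt_of_le (hopen.measure_pos volume ?_)
    (measure_mono (Set.inter_subset_inter_right _ interior_subset))
  obtain ⟨y, hy⟩ := hi
  by_contra hne
  rw [Set.not_nonempty_iff_eq_empty] at hne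
  have hz : ∀ x ∈ interior K, ∑ i, a i * (x i - v i) = 0 := by
    intro x hx
    by_contra h0
    have : x ∈ Function.support (fun x : Fin n → ℝ => (∑ i, a i * (x i - v i)) ^ 2) ∩ interior K :=
      ⟨by simpa using h0, hx⟩
    rw [hne] at this
    exact this
  have hc2 : Continuous fun t : ℝ => y + t • a := by fun_prop
  have hnh : ∀ᶠ t in nhds (0 : ℝ), y + t • a ∈ interior K :=
    hc2.continuousAt.eventually (isOpen_interior.mem_nhds (by simpa using hy))
  obtain ⟨t, ht, ht0⟩ := ((hnh.filter_mono nhdsWithin_le_nhds).and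
    (self_mem_nhdsWithin (a := (0 : ℝ)) (s := {0}ᶜ))).exists
  have h1 := hz _ ht
  have h2 := hz _ hy
  have h3 : ∑ i, a i * ((y + t • a) i - v i) = ∑ i, a i * (y i - v i) + t * ∑ i, a i ^ 2 := by
    rw [Finset.mul_sum, ← Finset.sum_add_distrib]
    refine Finset.sum_congr rfl fun i _ => ?_
    simp only [Pi.add_apply, Pi.smul_apply, smul_eq_mul]; ring
  rw [h3, h2, zero_add] at h1
  have h4 : ∑ i, a i ^ 2 = 0 := (mul_eq_zero.1 h1).resolve_left ht0
  apply ha
  funext i
  have := (Finset.sum_eq_zero_iff_of_nonneg (fun i _ => sq_nonneg (a i))).1 h4 i (Finset.mem_univ i)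
  simpa using this

open scoped MatrixOrder in
theorem iso_whiten {n : ℕ} (S : Matrix (Fin n) (Fin n) ℝ) (hS : S.PosDef) :
    ∃ A : Matrix (Fin n) (Fin n) ℝ, A.det ≠ 0 ∧ A * S * A.transpose = 1 := by
  obtain ⟨B, hB, hSB⟩ := CStarAlgebra.isStrictlyPositive_iff_eq_star_mul_self.mp hS.isStrictlyPositive
  rw [Matrix.star_eq_conjTranspose] at hSB
  have hBd : IsUnit B.det := (Matrix.isUnit_iff_isUnit_det B).1 hB
  have hBt : IsUnit B.transpose.det := by rwa [Matrix.det_transpose]
  refine ⟨B.transpose⁻¹, ?_, ?_⟩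
  · exact (Matrix.isUnit_nonsing_inv_det _ hBt).ne_zero
  · rw [hSB, Matrix.conjTranspose_eq_transpose_of_trivial, Matrix.transpose_nonsing_inv,
      Matrix.transpose_transpose, ← Matrix.mul_assoc, Matrix.nonsing_inv_mul _ hBt, Matrix.one_mul,
      Matrix.mul_nonsing_inv _ hBd]

/-- `v` = centroid of `K`; the covariance matrix `Σ i j = (vol K)⁻¹ ∫_K (x-v) i * (x-v) j` is positive
definite (a hyperplane has measure zero / a nonzero affine functional is nonzero on an open subset
of `K`), so there is an invertible matrix `A` with `A Σ Aᵀ = 1`; `Φ = A.mulVec`.  Change variables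
with `integral_image_eq_integral_abs_det_fderiv_smul` or `Measure.map_linearMap_addHaar_eq_smul_addHaar`. -/
theorem exists_iso {n : ℕ} (K : Set (Fin n → ℝ)) (hc : IsCompact K) (hv : Convex ℝ K)
    (hi : (interior K).Nonempty) :
    ∃ (Φ : (Fin n → ℝ) ≃ₗ[ℝ] (Fin n → ℝ)) (v : Fin n → ℝ), IsoBody ((fun x => Φ (x - v)) '' K) := by
  have hKm : MeasurableSet K := hc.measurableSet
  have hV : 0 < (volume K).toReal := by
    refine ENNReal.toReal_pos ?_ hc.measure_lt_top.ne
    exact (lt_of_lt_of_le (isOpen_interior.measure_pos volume hi) (measure_mono interior_subset)).ne'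
  set V := (volume K).toReal with hVdef
  have hint : ∀ g : (Fin n → ℝ) → ℝ, Continuous g → IntegrableOn g K := fun g hg =>
    hg.continuousOn.integrableOn_compact hc
  set v : Fin n → ℝ := fun i => (∫ x in K, x i) / V with hv'
  have hmean : ∀ i, ∫ x in K, (x i - v i) = 0 := by
    intro i
    rw [integral_sub (hint _ (by fun_prop)) (hint _ (by fun_prop)), setIntegral_const, smul_eq_mul,
      Measure.real, ← hVdef, hv']
    field_simp
    ring
  set S : Matrix (Fin n) (Fin n) ℝ := fun i j => (∫ x in K, (x i - v i) * (x j - v j)) / V with hS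
  have hquad : ∀ a b : Fin n → ℝ,
      ∫ x in K, (∑ i, a i * (x i - v i)) * (∑ j, b j * (x j - v j))
        = V * ∑ i, ∑ j, a i * S i j * b j := by
    intro a b
    simp_rw [Finset.sum_mul_sum]
    rw [integral_finsetSum _ (fun i _ => hint _ (by fun_prop)), Finset.mul_sum]
    refine Finset.sum_congr rfl fun i _ => ?_
    rw [integral_finsetSum _ (fun j _ => hint _ (by fun_prop)), Finset.mul_sum]
    refine Finset.sum_congr rfl fun j _ => ?_
    have : ∀ x : Fin n → ℝ, a i * (x i - v i) * (b j * (x j - v j))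
        = (a i * b j) * ((x i - v i) * (x j - v j)) := fun x => by ring
    simp_rw [this]
    rw [integral_const_mul, hS]
    field_simp
  have hSpd : S.PosDef := by
    rw [Matrix.posDef_iff_dotProduct_mulVec]
    constructor
    · ext i j
      simp only [Matrix.conjTranspose_apply, star_trivial, hS]
      congr 2
      funext x; ring
    · intro a ha
      have h1 := iso_pos K hc hi v a ha
      simp_rw [sq] at h1
      rw [hquad] at h1
      have h2 := (mul_pos_iff_of_pos_left hV).1 h1
      refine lt_of_lt_of_eq h2 ?_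
      simp only [star_trivial, dotProduct, Matrix.mulVec, Finset.mul_sum]
      refine Finset.sum_congr rfl fun i _ => Finset.sum_congr rfl fun j _ => by ring
  obtain ⟨A, hA, hAS⟩ := iso_whiten S hSpd
  have hAu : IsUnit A := (Matrix.isUnit_iff_isUnit_det A).2 (IsUnit.mk0 _ hA)
  let Φ : (Fin n → ℝ) ≃ₗ[ℝ] (Fin n → ℝ) := Matrix.toLinearEquiv' A hAu.invertible
  have hΦ : ∀ x, Φ x = A.mulVec x := fun x => rfl
  let L : (Fin n → ℝ) →L[ℝ] (Fin n → ℝ) := LinearMap.toContinuousLinearMap (Φ : _ →ₗ[ℝ] _)
  have hL : ∀ x, L x = Φ x := fun x => rfl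
  have hdet : L.det ≠ 0 := by
    have : L.det = LinearMap.det (Φ : (Fin n → ℝ) →ₗ[ℝ] (Fin n → ℝ)) := rfl
    rw [this]
    exact (LinearEquiv.isUnit_det' Φ).ne_zero
  have hcov : ∀ g : (Fin n → ℝ) → ℝ, ∫ y in (fun x => Φ (x - v)) '' K, g y
      = |L.det| * ∫ x in K, g (Φ (x - v)) := by
    intro g
    rw [integral_image_eq_integral_abs_det_fderiv_smul volume hKm (f' := fun _ => L)
      (fun x _ => ?_) (fun x _ y _ h => sub_left_injective (Φ.injective h)), ← integral_const_mul]
    · rfl
    · have h1 : HasFDerivAt (fun x => L (x - v)) L x := by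
        have := L.hasFDerivAt (x := x - v) |>.comp x ((hasFDerivAt_id x).sub_const v)
        simpa using this
      exact h1.hasFDerivWithinAt
  have hvol : (volume ((fun x => Φ (x - v)) '' K)).toReal = |L.det| * V := by
    have := hcov (fun _ => 1)
    simpa [Measure.real, ← hVdef] using this
  have hco : ∀ x i, Φ (x - v) i = ∑ k, A i k * (x k - v k) := fun x i => by
    rw [hΦ]; rfl
  refine ⟨Φ, v, ?_, ?_, ?_, ?_, ?_⟩
  · exact hc.image (L.continuous.comp (continuous_id.sub continuous_const))
  · have h1 : (fun x => Φ (x - v)) '' K = Φ '' ((fun x => x - v) '' K) := by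
      rw [Set.image_image]
    rw [h1]
    refine Convex.linear_image (f := (Φ : (Fin n → ℝ) →ₗ[ℝ] (Fin n → ℝ))) ?_
    simpa [sub_eq_add_neg, add_comm] using hv.translate (-v)
  · rw [hvol]; exact mul_pos (abs_pos.2 hdet) hV
  · intro i
    rw [hcov (fun y => y i)]
    simp_rw [hco]
    rw [integral_finsetSum _ (fun k _ => hint _ (by fun_prop))]
    simp_rw [integral_const_mul, hmean]
    simp
  · intro i j
    rw [hcov (fun y => y i * y j), hvol]
    simp_rw [hco]
    rw [hquad]
    have h1 : ∑ k, ∑ l, A i k * S k l * A j l = (A * S * A.transpose) i j := by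
      simp only [Matrix.mul_apply, Matrix.transpose_apply, Finset.sum_mul]
      rw [Finset.sum_comm]
    rw [h1, hAS, Matrix.one_apply]
    split_ifs <;> simp

end Crest.Agent.R225U
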