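import Crest.Agent.R225U.Defs

/-!
Row 225 (S0347): Gaussian densities.
-/

set_option autoImplicit false

open MeasureTheory ProbabilityTheory
open Crest.Agent.R153

namespace Crest.Agent.R225U

lemma phiv_pos {v : ℝ} (hv : 0 < v) (t : ℝ) : 0 < phiv v t := by
  unfold phiv
  have := Real.pi_pos
  positivity

lemma gv_pos {k : ℕ} {v : ℝ} (hv : 0 < v) (t : Fin k → ℝ) : 0 < gv v t :=
  Finset.prod_pos fun i _ => phiv_pos hv (t i)

lemma gv_eq {k : ℕ} (v : ℝ) (t : Fin k → ℝ) :
    gv v t = ((Real.sqrt (2 * Real.pi * v))⁻¹) ^ k * Real.exp (-(∑ i, t i ^ 2) / (2 * v)) := by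
  unfold gv phiv
  rw [Finset.prod_mul_distrib, Finset.prod_const, Finset.card_univ, Fintype.card_fin,
    ← Real.exp_sum, ← Finset.sum_div, Finset.sum_neg_distrib]

lemma continuous_phiv (v : ℝ) : Continuous (phiv v) := by
  unfold phiv; fun_prop

lemma continuous_gv {k : ℕ} (v : ℝ) : Continuous (gv (k := k) v) := by
  unfold gv
  exact continuous_finsetProd _ fun i _ => (continuous_phiv v).comp (continuous_apply i)

lemma gv_neg {k : ℕ} (v : ℝ) (t : Fin k → ℝ) : gv v (-t) = gv v t := by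
  simp [gv_eq]

lemma gv_le_zero {k : ℕ} {v : ℝ} (hv : 0 < v) (t : Fin k → ℝ) :
    gv v t ≤ ((Real.sqrt (2 * Real.pi * v))⁻¹) ^ k := by
  rw [gv_eq]
  have h : Real.exp (-(∑ i, t i ^ 2) / (2 * v)) ≤ 1 := by
    rw [Real.exp_le_one_iff]
    have : 0 ≤ ∑ i, t i ^ 2 := Finset.sum_nonneg fun i _ => sq_nonneg _
    exact div_nonpos_of_nonpos_of_nonneg (by linarith) (by positivity)
  exact mul_le_of_le_one_right (by positivity) h

lemma gconv_phiv_eq {v : ℝ} (hv : 0 < v) (m t : ℝ) :
    phiv v (t - m) = gaussianPDFReal m ⟨v, hv.le⟩ t := rfl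

lemma gconv_phiv_neg (v t : ℝ) : phiv v (-t) = phiv v t := by simp [phiv]

lemma gconv_integrable_phiv {v : ℝ} (hv : 0 < v) (m : ℝ) :
    Integrable (fun t => phiv v (t - m)) :=
  integrable_gaussianPDFReal m ⟨v, hv.le⟩

lemma gconv_integral_phiv {v : ℝ} (hv : 0 < v) (m : ℝ) : ∫ t, phiv v (t - m) = 1 :=
  integral_gaussianPDFReal_eq_one m (v := ⟨v, hv.le⟩) (fun h => hv.ne' (congrArg NNReal.toReal h))

lemma gconv_phiv_mul {a b : ℝ} (ha : 0 < a) (hb : 0 < b) (x y s : ℝ) :
    phiv a (s - x) * phiv b (s - y)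
      = phiv (a + b) (x - y) * phiv (a * b / (a + b)) (s - (b * x + a * y) / (a + b)) := by
  have hπ := Real.pi_pos
  have h1 : Real.sqrt (2 * Real.pi * a) * Real.sqrt (2 * Real.pi * b)
      = Real.sqrt (2 * Real.pi * (a + b)) * Real.sqrt (2 * Real.pi * (a * b / (a + b))) := by
    rw [← Real.sqrt_mul (by positivity), ← Real.sqrt_mul (by positivity)]
    congr 1
    field_simp
  have h2 : -((s - x) ^ 2) / (2 * a) + -((s - y) ^ 2) / (2 * b)
      = -((x - y) ^ 2) / (2 * (a + b))
        + -((s - (b * x + a * y) / (a + b)) ^ 2) / (2 * (a * b / (a + b))) := by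
    field_simp
    ring
  unfold phiv
  rw [mul_mul_mul_comm, ← mul_inv, h1, ← Real.exp_add, h2, Real.exp_add, mul_inv,
    mul_mul_mul_comm]

lemma gconv_integrable_mul {a b : ℝ} (ha : 0 < a) (hb : 0 < b) (x y : ℝ) :
    Integrable (fun s => phiv a (s - x) * phiv b (s - y)) := by
  simp only [gconv_phiv_mul ha hb]
  exact (gconv_integrable_phiv (by positivity) _).const_mul _

lemma gconv_conv {a b : ℝ} (ha : 0 < a) (hb : 0 < b) (x y : ℝ) :
    ∫ s, phiv a (s - x) * phiv b (s - y) = phiv (a + b) (x - y) := by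
  simp only [gconv_phiv_mul ha hb]
  rw [integral_const_mul, gconv_integral_phiv (by positivity), mul_one]

lemma gconv_gauss {v : ℝ} (hv : 0 < v) (w : NNReal) (t : ℝ) :
    ∫ p, phiv v (t - p) ∂(gaussianReal 0 w) = phiv (v + w) t := by
  by_cases hw : w = 0
  · subst hw
    simp
  · have hw' : (0 : ℝ) < w := lt_of_le_of_ne w.2 (fun h => hw (NNReal.coe_injective h.symm))
    rw [integral_gaussianReal_eq_integral_smul hw]
    have h := gconv_conv hv hw' t 0
    rw [sub_zero] at h
    rw [← h]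
    refine integral_congr_ae (Filter.Eventually.of_forall fun p => ?_)
    have e1 : gaussianPDFReal 0 w p = phiv w (p - 0) := rfl
    simp only [e1, smul_eq_mul]
    rw [← gconv_phiv_neg v (t - p), neg_sub, mul_comm]

lemma gconv_map_row {n : ℕ} (σ : NNReal) (x : Fin n → ℝ) :
    (Measure.pi fun _ : Fin n => gaussianReal 0 σ).map (fun p => ∑ j, p j * x j)
      = gaussianReal 0 (σ * NNReal.mk (∑ j, x j ^ 2) (Finset.sum_nonneg fun _ _ => sq_nonneg _)) := by
  have h1 : (fun p : Fin n → ℝ => ∑ j, p j * x j)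
      = (fun p : Fin n → ℝ => ∑ j, p j) ∘ (fun (p : Fin n → ℝ) j => p j * x j) := rfl
  rw [h1, ← Measure.map_map (by fun_prop) (by fun_prop),
    Measure.pi_map_pi (f := fun j (y : ℝ) => y * x j) (fun j => by fun_prop)]
  simp only [gaussianReal_map_mul_const]
  apply Measure.ext_of_charFun
  rw [charFun_map_sum_pi_eq_prod]
  funext t
  simp only [Finset.prod_apply, charFun_gaussianReal]
  rw [← Complex.exp_sum]
  congr 1
  simp only [mul_zero, Complex.ofReal_zero, zero_mul, zero_sub, NNReal.coe_mul, NNReal.coe_mk,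
    Complex.ofReal_mul, Complex.ofReal_sum, Finset.sum_neg_distrib, Finset.mul_sum, Finset.sum_mul,
    Finset.sum_div]
  congr 1
  exact Finset.sum_congr rfl fun j _ => by ring

lemma gconv_row {n : ℕ} {v : ℝ} (hv : 0 < v) (σ : NNReal) (x : Fin n → ℝ) (t : ℝ) :
    ∫ p : Fin n → ℝ, phiv v (t - ∑ j, p j * x j)
      ∂(Measure.pi fun _ : Fin n => gaussianReal 0 σ) = phiv (v + σ * ∑ j, x j ^ 2) t := by
  have h := integral_map (μ := Measure.pi fun _ : Fin n => gaussianReal 0 σ)
    (φ := fun p : Fin n → ℝ => ∑ j, p j * x j) (Measurable.aemeasurable (by fun_prop)) (f := fun y => phiv v (t - y))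
    ((continuous_phiv v).comp (by fun_prop)).aestronglyMeasurable
  rw [← h, gconv_map_row, gconv_gauss hv]
  rfl

theorem integrable_gv {k : ℕ} {v : ℝ} (hv : 0 < v) : Integrable (gv (k := k) v) := by
  have h := gconv_integrable_phiv hv 0
  simp only [sub_zero] at h
  exact Integrable.fintype_prod (f := fun _ : Fin k => phiv v) (μ := fun _ => volume) fun _ => h

theorem integral_gv {k : ℕ} {v : ℝ} (hv : 0 < v) : ∫ t : Fin k → ℝ, gv v t = 1 := by
  have h := gconv_integral_phiv hv 0
  simp only [sub_zero] at h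
  unfold gv
  rw [integral_fintype_prod_volume_eq_prod (fun _ : Fin k => phiv v)]
  simp [h]

theorem integrable_gv_mul {k : ℕ} {a b : ℝ} (ha : 0 < a) (hb : 0 < b) (x y : Fin k → ℝ) :
    Integrable (fun s : Fin k → ℝ => gv a (s - x) * gv b (s - y)) := by
  simp only [gv, ← Finset.prod_mul_distrib, Pi.sub_apply]
  exact Integrable.fintype_prod (f := fun (i : Fin k) s => phiv a (s - x i) * phiv b (s - y i))
    (μ := fun _ => volume) fun i => gconv_integrable_mul ha hb _ _

/-- convolution of Gaussian densities (one dimension: complete the square; then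
`integral_fintype_prod_volume_eq_prod`) -/
theorem gv_conv {k : ℕ} {a b : ℝ} (ha : 0 < a) (hb : 0 < b) (x y : Fin k → ℝ) :
    ∫ s : Fin k → ℝ, gv a (s - x) * gv b (s - y) = gv (a + b) (x - y) := by
  simp only [gv, ← Finset.prod_mul_distrib, Pi.sub_apply]
  rw [integral_fintype_prod_volume_eq_prod
    (fun (i : Fin k) s => phiv a (s - x i) * phiv b (s - y i))]
  exact Finset.prod_congr rfl fun i _ => gconv_conv ha hb _ _

/-- a Gaussian matrix maps `x` to a centred Gaussian vector of variance `σ * ∑ x²`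
(rows are independent; one row: induction on `n` with the one-dimensional convolution) -/
theorem gv_gauss_matrix {l n : ℕ} {v : ℝ} (hv : 0 < v) (σ : NNReal) (x : Fin n → ℝ)
    (t : Fin l → ℝ) :
    ∫ P : Fin l → Fin n → ℝ, gv v (t - fun i => ∑ j, P i j * x j)
      ∂(Measure.pi fun _ : Fin l => Measure.pi fun _ : Fin n => gaussianReal 0 σ) =
      gv (v + σ * ∑ j, x j ^ 2) t := by
  simp only [gv, Pi.sub_apply]
  rw [integral_fintype_prod_eq_prod
    (fun (i : Fin l) (p : Fin n → ℝ) => phiv v (t i - ∑ j, p j * x j))]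
  exact Finset.prod_congr rfl fun i _ => gconv_row hv σ x _

end Crest.Agent.R225U
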