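import Crest.Agent.R225U.Round
import Crest.Agent.R225U.GConv
import Crest.Agent.Lib.PL.PrekopaLeindler

/-!
Row 225 (S0347): log-concavity facts (from Prékopa-Leindler).
-/

set_option autoImplicit false

open MeasureTheory
open Crest.Agent.R153
open scoped ENNReal

namespace Crest.Agent.R225U

/-- multiplicative Brunn-Minkowski on `Fin n → ℝ` -/
lemma logc_bm {a b : ℝ} (ha : 0 < a) (hb : 0 < b) (hab : a + b = 1) {n : ℕ}
    {A B C : Set (Fin n → ℝ)} (hA : MeasurableSet A) (hB : MeasurableSet B)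
    (hC : MeasurableSet C) (H : ∀ x ∈ A, ∀ y ∈ B, a • x + b • y ∈ C) :
    volume A ^ a * volume B ^ b ≤ volume C := by
  have key := Lib.PL.prekopa_leindler_pi ha hb hab (f := A.indicator 1) (g := B.indicator 1)
    (h := C.indicator 1) (measurable_one.indicator hA) (measurable_one.indicator hB)
    (measurable_one.indicator hC) (by
      intro x y
      by_cases hx : x ∈ A
      · by_cases hy : y ∈ B
        · simp [hx, hy, H x hx y hy]
        · simp [hy, ENNReal.zero_rpow_of_pos hb]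
      · simp [hx, ENNReal.zero_rpow_of_pos ha])
  simpa only [lintegral_indicator_one hA, lintegral_indicator_one hB,
    lintegral_indicator_one hC] using key

lemma logc_sq {p q r : ℝ≥0∞} (hr : r ≠ ∞) (h : p ^ (1 / 2 : ℝ) * q ^ (1 / 2 : ℝ) ≤ r) :
    p.toReal * q.toReal ≤ r.toReal ^ 2 := by
  have h1 : p * q ≤ r ^ 2 := by
    have h2 : (p ^ (1 / 2 : ℝ) * q ^ (1 / 2 : ℝ)) ^ 2 = p * q := by
      rw [← ENNReal.mul_rpow_of_nonneg _ _ (by norm_num), ← ENNReal.rpow_natCast,
        ← ENNReal.rpow_mul]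
      norm_num
    rw [← h2]
    exact pow_le_pow_left' h 2
  rw [← ENNReal.toReal_mul, ← ENNReal.toReal_pow]
  exact ENNReal.toReal_mono (ENNReal.pow_ne_top hr) h1

/-- real-valued midpoint Prékopa-Leindler -/
lemma logc_pl {n : ℕ} {f g h : (Fin n → ℝ) → ℝ} (hf : Measurable f) (hg : Measurable g)
    (hh : Measurable h) (hf0 : ∀ x, 0 ≤ f x) (hg0 : ∀ x, 0 ≤ g x) (hh0 : ∀ x, 0 ≤ h x)
    (hi : Integrable h)
    (H : ∀ x y, f x * g y ≤ h ((1 / 2 : ℝ) • x + (1 / 2 : ℝ) • y) ^ 2) :
    (∫ x, f x) * (∫ x, g x) ≤ (∫ x, h x) ^ 2 := by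
  rw [integral_eq_lintegral_of_nonneg_ae (Filter.Eventually.of_forall hf0)
      hf.aestronglyMeasurable,
    integral_eq_lintegral_of_nonneg_ae (Filter.Eventually.of_forall hg0) hg.aestronglyMeasurable,
    integral_eq_lintegral_of_nonneg_ae (Filter.Eventually.of_forall hh0) hh.aestronglyMeasurable]
  refine logc_sq hi.lintegral_lt_top.ne ?_
  refine Lib.PL.prekopa_leindler_pi (by norm_num) (by norm_num) (by norm_num)
    hf.ennreal_ofReal hg.ennreal_ofReal hh.ennreal_ofReal fun x y => ?_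
  rw [← ENNReal.mul_rpow_of_nonneg _ _ (by norm_num), ← ENNReal.ofReal_mul (hf0 x),
    ENNReal.ofReal_rpow_of_nonneg (mul_nonneg (hf0 x) (hg0 y)) (by norm_num)]
  refine ENNReal.ofReal_le_ofReal ?_
  rw [← Real.sqrt_eq_rpow]
  exact Real.sqrt_le_iff.mpr ⟨hh0 _, H x y⟩

/-- `prekopa_leindler_pi` with the indicators of `K ∩ U`, `K ∩ V`, `K ∩ W` -/
theorem uni_logconcave {n : ℕ} {K : Set (Fin n → ℝ)} (hK : IsoBody K) {U V W : Set (Fin n → ℝ)}
    (hU : MeasurableSet U) (hV : MeasurableSet V) (hW : MeasurableSet W)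
    (h : ∀ x ∈ U, ∀ y ∈ V, (1 / 2 : ℝ) • x + (1 / 2 : ℝ) • y ∈ W) :
    (uni K).real U * (uni K).real V ≤ (uni K).real W ^ 2 := by
  have hm := hK.compact.measurableSet
  have h1 := logc_bm (a := 1 / 2) (b := 1 / 2) (by norm_num) (by norm_num) (by norm_num)
    (hm.inter hU) (hm.inter hV) (hm.inter hW) fun x hx y hy =>
      ⟨hK.convex hx.1 hy.1 (by norm_num) (by norm_num) (by norm_num), h x hx.2 y hy.2⟩
  have h2 := logc_sq
    (ne_top_of_le_ne_top hK.compact.measure_lt_top.ne (measure_mono Set.inter_subset_left)) h1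
  rw [hK.real_uni, hK.real_uni, hK.real_uni, mul_pow]
  have h3 := mul_le_mul_of_nonneg_left h2 (sq_nonneg (volume K).toReal⁻¹)
  linarith

lemma logc_gv {l : ℕ} {v : ℝ} (hv : 0 < v) (s t : Fin l → ℝ) :
    gv v s * gv v t ≤ gv v ((1 / 2 : ℝ) • s + (1 / 2 : ℝ) • t) ^ 2 := by
  simp only [gv_eq]
  rw [mul_pow, mul_mul_mul_comm, ← sq, ← Real.exp_add, sq (Real.exp _), ← Real.exp_add]
  refine mul_le_mul_of_nonneg_left (Real.exp_le_exp.mpr ?_) (sq_nonneg _)
  rw [← add_div, ← add_div]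
  refine div_le_div_of_nonneg_right ?_ (by positivity)
  rw [← neg_add, ← neg_add, neg_le_neg_iff, ← Finset.sum_add_distrib, ← Finset.sum_add_distrib]
  refine Finset.sum_le_sum fun i _ => ?_
  simp only [Pi.add_apply, Pi.smul_apply, smul_eq_mul]
  nlinarith [sq_nonneg (s i - t i)]

/-- `prekopa_leindler_pi` with `1_K x * gv v (t - P x)` -/
theorem smooth_logconcave {n l : ℕ} {K : Set (Fin n → ℝ)} (hK : IsoBody K) {v : ℝ} (hv : 0 < v)
    (P : Matrix (Fin l) (Fin n) ℝ) (t₁ t₂ : Fin l → ℝ) :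
    (∫ x, gv v (t₁ - P.mulVec x) ∂(uni K)) * (∫ x, gv v (t₂ - P.mulVec x) ∂(uni K)) ≤
      (∫ x, gv v (((1 / 2 : ℝ) • t₁ + (1 / 2 : ℝ) • t₂) - P.mulVec x) ∂(uni K)) ^ 2 := by
  have hm := hK.compact.measurableSet
  have hc : ∀ t : Fin l → ℝ, Continuous fun x : Fin n → ℝ => gv v (t - P.mulVec x) := fun t =>
    (continuous_gv v).comp (continuous_const.sub (continuous_const.matrix_mulVec continuous_id))
  have h0 : ∀ (t : Fin l → ℝ) (x : Fin n → ℝ),
      0 ≤ K.indicator (fun x => gv v (t - P.mulVec x)) x := fun t x =>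
    Set.indicator_nonneg (fun y _ => (gv_pos hv _).le) x
  have h1 := logc_pl ((hc t₁).measurable.indicator hm) ((hc t₂).measurable.indicator hm)
    ((hc ((1 / 2 : ℝ) • t₁ + (1 / 2 : ℝ) • t₂)).measurable.indicator hm) (h0 _) (h0 _) (h0 _)
    ((integrable_indicator_iff hm).mpr
      ((hc _).continuousOn.integrableOn_compact hK.compact)) (by
      intro x y
      by_cases hx : x ∈ K
      · by_cases hy : y ∈ K
        · have hxy : (1 / 2 : ℝ) • x + (1 / 2 : ℝ) • y ∈ K :=
            hK.convex hx hy (by norm_num) (by norm_num) (by norm_num)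
          rw [Set.indicator_of_mem hx, Set.indicator_of_mem hy, Set.indicator_of_mem hxy]
          refine (logc_gv hv _ _).trans_eq ?_
          congr 2
          rw [Matrix.mulVec_add, Matrix.mulVec_smul, Matrix.mulVec_smul, smul_sub, smul_sub]
          abel
        · rw [Set.indicator_of_notMem hy, mul_zero]
          exact sq_nonneg _
      · rw [Set.indicator_of_notMem hx, zero_mul]
        exact sq_nonneg _)
  rw [integral_indicator hm, integral_indicator hm, integral_indicator hm] at h1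
  rw [hK.integral_uni, hK.integral_uni, hK.integral_uni, mul_pow]
  have h3 := mul_le_mul_of_nonneg_left h1 (sq_nonneg (volume K).toReal⁻¹)
  linarith

lemma logc_slice_compact {n' k : ℕ} {K : Set (Fin n' ⊕ Fin k → ℝ)} (hc : IsCompact K)
    (t : Fin k → ℝ) : IsCompact (slice K t) := by
  have h1 : Continuous fun x : Fin n' ⊕ Fin k → ℝ => fun i => x (Sum.inl i) := by fun_prop
  have h2 : Continuous fun u : Fin n' → ℝ => (Sum.elim u t : Fin n' ⊕ Fin k → ℝ) := by
    refine continuous_pi fun i => ?_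
    rcases i with i | i
    · exact continuous_apply i
    · exact continuous_const
  exact (hc.image h1).of_isClosed_subset (hc.isClosed.preimage h2) fun u hu => ⟨_, hu, rfl⟩

/-- quasi-concavity of slice volumes (slices are compact; multiplicative Brunn-Minkowski) -/
theorem slice_convex {n' k : ℕ} {K : Set (Fin n' ⊕ Fin k → ℝ)} (hc : IsCompact K)
    (hv : Convex ℝ K) {lam : ℝ} (hlam : 0 < lam) :
    Convex ℝ {t : Fin k → ℝ | lam ≤ (volume (slice K t)).toReal} := by
  refine convex_iff_forall_pos.mpr fun s hs t ht a b ha hb hab => ?_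
  have h1 := logc_bm ha hb hab (logc_slice_compact hc s).measurableSet
    (logc_slice_compact hc t).measurableSet (logc_slice_compact hc (a • s + b • t)).measurableSet
    fun x hx y hy => by
      have h2 := hv hx hy ha.le hb.le hab
      have h3 : a • (Sum.elim x s : Fin n' ⊕ Fin k → ℝ) + b • Sum.elim y t =
          Sum.elim (a • x + b • y) (a • s + b • t) := by
        funext i
        rcases i with i | i <;> rfl
      rwa [h3] at h2
  have hs' : ENNReal.ofReal lam ≤ volume (slice K s) := ENNReal.ofReal_le_of_le_toReal hs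
  have ht' : ENNReal.ofReal lam ≤ volume (slice K t) := ENNReal.ofReal_le_of_le_toReal ht
  have h4 : ENNReal.ofReal lam ≤ volume (slice K (a • s + b • t)) := by
    refine le_trans ?_ h1
    calc ENNReal.ofReal lam = ENNReal.ofReal lam ^ a * ENNReal.ofReal lam ^ b := by
          rw [← ENNReal.rpow_add_of_nonneg _ _ ha.le hb.le, hab, ENNReal.rpow_one]
      _ ≤ _ := mul_le_mul' (ENNReal.rpow_le_rpow hs' ha.le) (ENNReal.rpow_le_rpow ht' hb.le)
  exact (ENNReal.ofReal_le_iff_le_toReal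
    (logc_slice_compact hc (a • s + b • t)).measure_lt_top.ne).mp h4

lemma logc_pointwise {r N : ℝ} (hr : 0 < r) (hN : 0 ≤ N) (J : ℕ)
    (h : N ≤ (2 ^ (J + 1) - 1) * r) :
    N ^ 2 ≤ r ^ 2 + ∑ j ∈ Finset.range J,
      if (2 ^ (j + 1) - 1) * r < N then 4 ^ (j + 2) * r ^ 2 else 0 := by
  induction J with
  | zero =>
    simp only [Finset.range_zero, Finset.sum_empty, add_zero]
    exact pow_le_pow_left₀ hN (by norm_num at h; exact h) 2
  | succ J ih =>
    rw [Finset.sum_range_succ]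
    by_cases hJ : (2 ^ (J + 1) - 1) * r < N
    · rw [if_pos hJ]
      have h1 : 0 ≤ ∑ j ∈ Finset.range J,
          if (2 ^ (j + 1) - 1) * r < N then (4 : ℝ) ^ (j + 2) * r ^ 2 else 0 :=
        Finset.sum_nonneg fun j _ => by split_ifs <;> positivity
      have h2 : N ≤ 2 ^ (J + 2) * r := by linarith
      have h3 := pow_le_pow_left₀ hN h2 2
      have h4 : ((2 : ℝ) ^ (J + 2) * r) ^ 2 = 4 ^ (J + 2) * r ^ 2 := by
        rw [mul_pow, ← pow_mul, mul_comm (J + 2) 2, pow_mul]
        norm_num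
      nlinarith [sq_nonneg r]
    · rw [if_neg hJ, add_zero]
      exact ih (not_lt.mp hJ)

lemma logc_decay (T : ℕ → ℝ) (h0 : ∀ j, 0 ≤ T j) (h1 : T 0 ≤ 1 / 4)
    (h : ∀ j, T (j + 1) * (3 / 4) ≤ T j ^ 2) (j : ℕ) : T j ≤ (1 / 8) ^ j := by
  have a1 : T 1 ≤ 1 / 12 := by nlinarith [h 0, h0 0]
  have a2 : ∀ j, T (j + 2) ≤ 1 / 64 * (1 / 8) ^ j := by
    intro j
    induction j with
    | zero => nlinarith [h 1, h0 1]
    | succ j ih =>
      have b1 := pow_le_pow_left₀ (h0 _) ih 2
      have b2 := h (j + 2)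
      have b3 : ((1 : ℝ) / 8) ^ j ≤ 1 := pow_le_one₀ (by norm_num) (by norm_num)
      have b4 : (0 : ℝ) ≤ (1 / 8) ^ j := by positivity
      rw [pow_succ]
      nlinarith
  match j with
  | 0 => linarith
  | 1 => linarith
  | j + 2 =>
    refine (a2 j).trans_eq ?_
    rw [pow_add]
    ring

/-- Borell's argument.  Suppose the ball of radius `r₀ = √(n/40)` has measure `≥ 3/4`, and let
`T s = μ {|x| > s}`.  `uni_logconcave` gives `T (2 s + r₀) * (3/4) ≤ T s ^ 2`, so for
`s_j = (2^{j+1} - 1) r₀` one gets `T s_j ≤ 3^{-2^j} ≤ 8^{-j}`; pointwise on the bounded set `K`,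
`|x|² ≤ r₀² + ∑_{j<J} 4^{j+2} r₀² 1[|x| > s_j]`, so `n = E |x|² ≤ 33 r₀² < n`. -/
theorem borell {n : ℕ} (hn : 1 ≤ n) {K : Set (Fin n → ℝ)} (hK : IsoBody K) :
    (uni K).real {x | ∑ i, x i ^ 2 ≤ (n : ℝ) / 40} < 3 / 4 := by
  by_contra hcon
  rw [not_lt] at hcon
  haveI := hK.isProb
  have hn0 : (0 : ℝ) < n := by exact_mod_cast hn
  set r : ℝ := √((n : ℝ) / 40) with hrdef
  have hr : 0 < r := Real.sqrt_pos.mpr (by positivity)
  have hr2 : r ^ 2 = n / 40 := Real.sq_sqrt (by positivity)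
  let N : (Fin n → ℝ) → ℝ := fun x => ‖(WithLp.toLp 2 x : EuclideanSpace ℝ (Fin n))‖
  have hNc : Continuous N := continuous_norm.comp (PiLp.continuous_toLp 2 _)
  have hN2 : ∀ x, N x ^ 2 = ∑ i, x i ^ 2 := fun x => by
    simp only [N, EuclideanSpace.norm_sq_eq, Real.norm_eq_abs, sq_abs]
  have hN0 : ∀ x, 0 ≤ N x := fun x => norm_nonneg _
  have hball : {x : Fin n → ℝ | ∑ i, x i ^ 2 ≤ (n : ℝ) / 40} = {x | N x ≤ r} := by
    ext x
    simp only [Set.mem_ofPred_eq, ← hN2, ← hr2]
    exact pow_le_pow_iff_left₀ (hN0 x) hr.le two_ne_zero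
  rw [hball] at hcon
  have hmb : MeasurableSet {x | N x ≤ r} := measurableSet_le hNc.measurable measurable_const
  have hmt : ∀ s : ℝ, MeasurableSet {x | s < N x} := fun s =>
    measurableSet_lt measurable_const hNc.measurable
  let T : ℕ → ℝ := fun j => (uni K).real {x | (2 ^ (j + 1) - 1) * r < N x}
  have hT : ∀ j, T j ≤ (1 / 8) ^ j := by
    refine logc_decay T (fun j => measureReal_nonneg) ?_ fun j => ?_
    · have h1 : {x | ((2 : ℝ) ^ (0 + 1) - 1) * r < N x} = {x | N x ≤ r}ᶜ := by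
        ext x
        simp only [Set.mem_ofPred_eq, Set.mem_compl_iff, not_le]
        norm_num
      simp only [T]
      rw [h1, probReal_compl_eq_one_sub hmb]
      linarith
    · refine (mul_le_mul_of_nonneg_left hcon measureReal_nonneg).trans
        (uni_logconcave hK (hmt _) hmb (hmt _) fun x hx y hy => ?_)
      simp only [Set.mem_ofPred_eq] at hx hy ⊢
      have h1 : N x ≤ 2 * N ((1 / 2 : ℝ) • x + (1 / 2 : ℝ) • y) + N y := by
        have h2 : (WithLp.toLp 2 x : EuclideanSpace ℝ (Fin n)) =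
            (2 : ℝ) • WithLp.toLp 2 ((1 / 2 : ℝ) • x + (1 / 2 : ℝ) • y) - WithLp.toLp 2 y := by
          ext i
          simp only [PiLp.sub_apply, PiLp.smul_apply, Pi.add_apply, Pi.smul_apply, smul_eq_mul]
          ring
        simp only [N]
        rw [h2]
        refine (norm_sub_le _ _).trans_eq ?_
        rw [norm_smul, Real.norm_two]
      rw [pow_succ] at hx
      linarith
  obtain ⟨R, hR⟩ := hK.compact.bddAbove_image hNc.continuousOn
  obtain ⟨J, hJ⟩ := exists_nat_ge (R / r)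
  have hJ2 : (J : ℝ) ≤ 2 ^ (J + 1) - 1 := by
    have h1 : J + 1 ≤ 2 ^ (J + 1) := (Nat.lt_two_pow_self).le
    have h2 : ((J + 1 : ℕ) : ℝ) ≤ ((2 ^ (J + 1) : ℕ) : ℝ) := Nat.cast_le.mpr h1
    push_cast at h2
    linarith
  have hint : ∀ j, Integrable ({x | (2 ^ (j + 1) - 1) * r < N x}.indicator
      fun _ => (4 : ℝ) ^ (j + 2) * r ^ 2) (uni K) := fun j => (integrable_const _).indicator (hmt _)
  have hle : ∫ x, (∑ i, x i ^ 2) ∂(uni K) ≤ ∫ x, (r ^ 2 + ∑ j ∈ Finset.range J,
      {x | (2 ^ (j + 1) - 1) * r < N x}.indicator (fun _ => (4 : ℝ) ^ (j + 2) * r ^ 2) x)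
        ∂(uni K) := by
    refine integral_mono_ae (hK.integrable (by fun_prop))
      ((integrable_const _).add (integrable_finsetSum _ fun j _ => hint j)) ?_
    filter_upwards [hK.ae_mem] with x hx
    rw [← hN2]
    have h1 : N x ≤ (2 ^ (J + 1) - 1) * r := by
      have h2 : N x ≤ R := hR ⟨x, hx, rfl⟩
      rw [div_le_iff₀ hr] at hJ
      nlinarith
    simpa only [Set.indicator_apply, Set.mem_ofPred_eq] using logc_pointwise hr (hN0 x) J h1
  rw [hK.sq_norm, integral_add (integrable_const _) (integrable_finsetSum _ fun j _ => hint j),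
    integral_finsetSum _ fun j _ => hint j] at hle
  simp only [integral_const, probReal_univ, one_smul, integral_indicator_const _ (hmt _),
    smul_eq_mul] at hle
  have hsum : ∑ j ∈ Finset.range J, T j * ((4 : ℝ) ^ (j + 2) * r ^ 2) ≤ 32 * r ^ 2 := by
    calc ∑ j ∈ Finset.range J, T j * ((4 : ℝ) ^ (j + 2) * r ^ 2)
        ≤ ∑ j ∈ Finset.range J, (1 / 2 : ℝ) ^ j * (16 * r ^ 2) := by
          refine Finset.sum_le_sum fun j _ => ?_
          refine (mul_le_mul_of_nonneg_right (hT j) (by positivity)).trans_eq ?_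
          rw [pow_add, ← mul_assoc, ← mul_assoc, ← mul_pow]
          norm_num
          ring
      _ ≤ 2 * (16 * r ^ 2) := by
          rw [← Finset.sum_mul]
          exact mul_le_mul_of_nonneg_right (sum_geometric_two_le J) (by positivity)
      _ = _ := by ring
  simp only [T] at hsum
  linarith

end Crest.Agent.R225U
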