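import Crest.Agent.R225U.Hull
import Crest.Agent.R225U.LogC

/-!
Row 225 (S0347): from the smoothed bound to a prepared body.
-/

set_option autoImplicit false

open MeasureTheory
open Crest.Agent.R153
open scoped ENNReal NNReal

namespace Crest.Agent.R225U

/-- Fubini over the slices -/
lemma Prep_fubini {n' k : ℕ} {K : Set (Fin n' ⊕ Fin k → ℝ)} (hK : MeasurableSet K)
    {A : Set (Fin k → ℝ)} (hA : MeasurableSet A) {g : (Fin k → ℝ) → ℝ≥0∞} (hg : Measurable g)
    {lam : ℝ≥0∞} (hl : ∀ s ∈ A, volume (slice K s) ≤ lam) :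
    ∫⁻ y : Fin n' ⊕ Fin k → ℝ, (K ∩ {y | (fun i => y (Sum.inr i)) ∈ A}).indicator
      (fun y => g (fun i => y (Sum.inr i))) y ≤ lam * ∫⁻ s, g s := by
  have hr : Measurable (fun (y : Fin n' ⊕ Fin k → ℝ) (i : Fin k) => y (Sum.inr i)) :=
    measurable_pi_lambda _ fun i => measurable_pi_apply _
  have hF : Measurable ((K ∩ {y | (fun i => y (Sum.inr i)) ∈ A}).indicator
      (fun y : Fin n' ⊕ Fin k → ℝ => g (fun i => y (Sum.inr i)))) :=
    (hg.comp hr).indicator (hK.inter (hr hA))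
  have hmp := volume_measurePreserving_sumPiEquivProdPi_symm (fun _ : Fin n' ⊕ Fin k => ℝ)
  rw [← hmp.lintegral_comp hF, Measure.volume_eq_prod,
    lintegral_prod_symm _ (by exact (hF.comp hmp.measurable).aemeasurable),
    ← lintegral_const_mul _ hg]
  refine lintegral_mono fun s => ?_
  have hsl : MeasurableSet (slice K s) := by
    have : Measurable (fun u : Fin n' → ℝ => (Sum.elim u s : Fin n' ⊕ Fin k → ℝ)) := by
      refine measurable_pi_lambda _ ?_
      rintro (i | i)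
      · exact measurable_pi_apply i
      · exact measurable_const
    exact this hK
  have he : ∀ u : Fin n' → ℝ,
      (MeasurableEquiv.sumPiEquivProdPi (fun _ : Fin n' ⊕ Fin k => ℝ)).symm (u, s) =
        Sum.elim u s := by
    intro u
    funext i
    rcases i with i | i <;> rfl
  simp only [he]
  by_cases hs : s ∈ A
  · have h1 : ∀ u : Fin n' → ℝ, (K ∩ {y | (fun i => y (Sum.inr i)) ∈ A}).indicator
        (fun y : Fin n' ⊕ Fin k → ℝ => g (fun i => y (Sum.inr i))) (Sum.elim u s) =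
        (slice K s).indicator (fun _ => g s) u := by
      intro u
      by_cases hu : u ∈ slice K s
      · rw [Set.indicator_of_mem hu, Set.indicator_of_mem]
        · rfl
        · exact ⟨hu, hs⟩
      · rw [Set.indicator_of_notMem hu, Set.indicator_of_notMem]
        exact fun h => hu h.1
    simp only [h1]
    rw [lintegral_indicator_const hsl, mul_comm]
    exact mul_le_mul_left (hl s hs) _
  · have h1 : ∀ u : Fin n' → ℝ, (K ∩ {y | (fun i => y (Sum.inr i)) ∈ A}).indicator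
        (fun y : Fin n' ⊕ Fin k → ℝ => g (fun i => y (Sum.inr i))) (Sum.elim u s) = 0 := by
      intro u
      rw [Set.indicator_of_notMem]
      exact fun h => hs h.2
    simp only [h1, lintegral_zero]
    exact zero_le

/-- a linear equivalence scales Lebesgue measure by a constant -/
lemma Prep_scale {n' k : ℕ} (Φ : (Fin (n' + k) → ℝ) ≃ₗ[ℝ] (Fin n' ⊕ Fin k → ℝ)) :
    ∃ c : ℝ≥0, 0 < c ∧ Measure.map Φ volume = c • (volume : Measure (Fin n' ⊕ Fin k → ℝ)) := by
  have h : (Measure.map Φ.toContinuousLinearEquiv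
      (volume : Measure (Fin (n' + k) → ℝ))).IsAddHaarMeasure :=
    ContinuousLinearEquiv.isAddHaarMeasure_map _ _
  exact ⟨_, Measure.addHaarScalarFactor_pos_of_isAddHaarMeasure
    (Measure.map Φ.toContinuousLinearEquiv volume) volume,
    Measure.isAddLeftInvariant_eq_smul (Measure.map Φ.toContinuousLinearEquiv volume) volume⟩

lemma Prep_lintegral_gv {k : ℕ} {v : ℝ} (hv : 0 < v) (t : Fin k → ℝ) :
    ∫⁻ s : Fin k → ℝ, ENNReal.ofReal (gv v (t - s)) = 1 := by
  rw [lintegral_sub_left_eq_self (fun s => ENNReal.ofReal (gv v s)) t,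
    ← ofReal_integral_eq_lintegral_ofReal (integrable_gv hv)
      (Filter.Eventually.of_forall fun s => (gv_pos hv s).le), integral_gv hv, ENNReal.ofReal_one]

/-- some slice over the small cube is large -/
lemma Prep_slice {n' k : ℕ} {K : Set (Fin (n' + k) → ℝ)} (hK : IsoBody K)
    (P : Matrix (Fin k) (Fin (n' + k)) ℝ) {v : ℝ} (hv : 0 < v)
    (Φ : (Fin (n' + k) → ℝ) ≃ₗ[ℝ] (Fin n' ⊕ Fin k → ℝ))
    (hΦ : ∀ x i, Φ x (Sum.inr i) = P.mulVec x i) (t : Fin k → ℝ) {r a : ℝ} (ha : 0 < a)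
    (h : a / 8 ≤ ∫ x in {x | ∀ i, |P.mulVec x i - t i| ≤ r}, gv v (t - P.mulVec x) ∂(uni K)) :
    ∃ s : Fin k → ℝ, (∀ i, |s i - t i| ≤ r) ∧
      a * (volume (Φ '' K)).toReal / 9 ≤ (volume (slice (Φ '' K) s)).toReal := by
  by_contra hcon
  push Not at hcon
  have hΦc : Continuous Φ := Φ.toContinuousLinearEquiv.continuous
  have hK'c : IsCompact (Φ '' K) := hK.compact.image hΦc
  have hK'm : MeasurableSet (Φ '' K) := hK'c.measurableSet
  have hKm : MeasurableSet K := hK.compact.measurableSet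
  obtain ⟨c, hc, hmap⟩ := Prep_scale Φ
  set A : Set (Fin k → ℝ) := {s | ∀ i, |s i - t i| ≤ r} with hA
  have hAm : MeasurableSet A := by
    have : IsClosed A := by
      rw [hA, Set.ofPred_forall]
      exact isClosed_iInter fun i => isClosed_le (by fun_prop) continuous_const
    exact this.measurableSet
  set g : (Fin k → ℝ) → ℝ≥0∞ := fun s => ENNReal.ofReal (gv v (t - s)) with hg
  have hgm : Measurable g :=
    ENNReal.measurable_ofReal.comp ((continuous_gv v).comp (by fun_prop)).measurable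
  set lam : ℝ := a * (volume (Φ '' K)).toReal / 9 with hlam
  have hslice : ∀ s ∈ A, volume (slice (Φ '' K) s) ≤ ENNReal.ofReal lam := by
    intro s hs
    have hfin : volume (slice (Φ '' K) s) ≠ ∞ := by
      have hb : Bornology.IsBounded (slice (Φ '' K) s) := by
        obtain ⟨R, hR⟩ := hK'c.isBounded.exists_norm_le
        refine (Metric.isBounded_closedBall (x := (0 : Fin n' → ℝ)) (r := max R 0)).subset ?_
        intro u hu
        rw [mem_closedBall_zero_iff, pi_norm_le_iff_of_nonneg (le_max_right _ _)]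
        intro i
        have h1 := hR _ hu
        have h2 := norm_le_pi_norm (Sum.elim u s : Fin n' ⊕ Fin k → ℝ) (Sum.inl i)
        exact le_trans (le_trans h2 h1) (le_max_left _ _)
      exact hb.measure_lt_top.ne
    rw [← ENNReal.ofReal_toReal hfin]
    exact ENNReal.ofReal_le_ofReal (hcon s hs).le
  have hfub := Prep_fubini hK'm hAm hgm hslice
  rw [hg, Prep_lintegral_gv hv, mul_one, ← hg] at hfub
  set F : (Fin n' ⊕ Fin k → ℝ) → ℝ≥0∞ := (Φ '' K ∩ {y | (fun i => y (Sum.inr i)) ∈ A}).indicator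
      (fun y => g (fun i => y (Sum.inr i))) with hF
  have hr : Measurable (fun (y : Fin n' ⊕ Fin k → ℝ) (i : Fin k) => y (Sum.inr i)) :=
    measurable_pi_lambda _ fun i => measurable_pi_apply _
  have hFm : Measurable F := (hgm.comp hr).indicator (hK'm.inter (hr hAm))
  have hPc : Continuous P.mulVec := (Matrix.mulVecLin P).continuous_of_finiteDimensional
  have hSm : MeasurableSet {x | ∀ i, |P.mulVec x i - t i| ≤ r} := hPc.measurable hAm
  have hPΦ : ∀ x, (fun i => Φ x (Sum.inr i)) = P.mulVec x := fun x => funext (hΦ x)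
  have hvolK : volume K = c * volume (Φ '' K) := by
    have := congrArg (fun μ : Measure (Fin n' ⊕ Fin k → ℝ) => μ (Φ '' K)) hmap
    simp only [Measure.smul_apply] at this
    rw [Measure.map_apply hΦc.measurable hK'm, Set.preimage_image_eq _ Φ.injective] at this
    rw [this]; rfl
  have hint : ∫⁻ x in {x | ∀ i, |P.mulVec x i - t i| ≤ r}, g (P.mulVec x) ∂(uni K) =
      (volume K)⁻¹ * (c * ∫⁻ y, F y) := by
    have h1 : ∫⁻ x, F (Φ x) = c * ∫⁻ y, F y := by
      rw [← lintegral_map hFm hΦc.measurable, hmap, lintegral_smul_measure]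
      rfl
    rw [← h1]
    unfold uni ProbabilityTheory.cond
    rw [Measure.restrict_smul, lintegral_smul_measure, Measure.restrict_restrict hSm,
      ← lintegral_indicator (hSm.inter hKm), smul_eq_mul]
    congr 1
    refine lintegral_congr fun x => ?_
    by_cases hx : x ∈ {x | ∀ i, |P.mulVec x i - t i| ≤ r} ∩ K
    · rw [Set.indicator_of_mem hx, hF, Set.indicator_of_mem, hPΦ]
      refine ⟨⟨x, hx.2, rfl⟩, ?_⟩
      show (fun i => Φ x (Sum.inr i)) ∈ A
      rw [hPΦ]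
      exact hx.1
    · rw [Set.indicator_of_notMem hx, hF, Set.indicator_of_notMem]
      rintro ⟨⟨x', hx', hxx⟩, h2⟩
      have : x' = x := Φ.injective hxx
      subst this
      refine hx ⟨?_, hx'⟩
      have h3 : (fun i => Φ x' (Sum.inr i)) ∈ A := h2
      rw [hPΦ] at h3
      exact h3
  have hreal : ∫ x in {x | ∀ i, |P.mulVec x i - t i| ≤ r}, gv v (t - P.mulVec x) ∂(uni K) =
      (∫⁻ x in {x | ∀ i, |P.mulVec x i - t i| ≤ r}, g (P.mulVec x) ∂(uni K)).toReal := by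
    rw [integral_eq_lintegral_of_nonneg_ae (Filter.Eventually.of_forall fun x => (gv_pos hv _).le)]
    exact ((continuous_gv v).comp (continuous_const.sub hPc)).aestronglyMeasurable
  have hK'fin : volume (Φ '' K) ≠ ∞ := hK'c.measure_lt_top.ne
  have hvp := hK.vol_pos
  have hvolKr : (volume K).toReal = c * (volume (Φ '' K)).toReal := by
    rw [hvolK, ENNReal.toReal_mul]; rfl
  have hc' : (0 : ℝ) < c := hc
  have hK'pos : 0 < (volume (Φ '' K)).toReal := by
    rw [hvolKr] at hvp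
    exact (mul_pos_iff_of_pos_left hc').1 hvp
  have hlam0 : 0 ≤ lam := by positivity
  have hFr : (∫⁻ y, F y).toReal ≤ lam := ENNReal.toReal_le_of_le_ofReal hlam0 hfub
  rw [hreal, hint, ENNReal.toReal_mul, ENNReal.toReal_mul, ENNReal.toReal_inv, hvolKr,
    ENNReal.coe_toReal] at h
  have h2 : ((c : ℝ) * (volume (Φ '' K)).toReal)⁻¹ * ((c : ℝ) * (∫⁻ y, F y).toReal) ≤
      ((c : ℝ) * (volume (Φ '' K)).toReal)⁻¹ * ((c : ℝ) * lam) := by gcongr
  have h3 : ((c : ℝ) * (volume (Φ '' K)).toReal)⁻¹ * ((c : ℝ) * lam) = a / 9 := by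
    rw [hlam]; field_simp
  linarith

/-- positivity of the smoothed integral gives a point of `K` over the small cube -/
lemma Prep_point {n k : ℕ} {K : Set (Fin n → ℝ)} (hK : IsoBody K) (P : Matrix (Fin k) (Fin n) ℝ)
    (t : Fin k → ℝ) {r : ℝ} {f : (Fin n → ℝ) → ℝ}
    (h : 0 < ∫ x in {x | ∀ i, |P.mulVec x i - t i| ≤ r}, f x ∂(uni K)) :
    ∃ x ∈ K, ∀ i, |P.mulVec x i - t i| ≤ r := by
  by_contra hcon
  have h0 : uni K {x | ∀ i, |P.mulVec x i - t i| ≤ r} = 0 := by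
    refine measure_mono_null ?_ (ae_iff.1 hK.ae_mem)
    intro x hx hxK
    exact hcon ⟨x, hxK, hx⟩
  rw [setIntegral_measure_zero _ h0] at h
  exact lt_irrefl _ h

/-- the corner `t + r σ` -/
noncomputable def Prep_corner {k : ℕ} (t : Fin k → ℝ) (r : ℝ) (σ : Fin k → Bool) : Fin k → ℝ :=
  fun i => if σ i then t i + r else t i - r

lemma Prep_corner_sign {k : ℕ} {t c : Fin k → ℝ} {r : ℝ} {σ : Fin k → Bool}
    (h : ∀ i, |c i - Prep_corner t r σ i| ≤ r) (i : Fin k) :
    if σ i then t i ≤ c i else c i ≤ t i := by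
  have h1 := abs_le.1 (h i)
  unfold Prep_corner at h1
  split_ifs at h1 ⊢ <;> linarith [h1.1, h1.2]

lemma Prep_corner_abs {k : ℕ} {t : Fin k → ℝ} {r b : ℝ} (hr : 0 ≤ r) (ht : ∀ i, |t i| ≤ b)
    (σ : Fin k → Bool) (i : Fin k) : |Prep_corner t r σ i| ≤ b + r := by
  have h1 := abs_le.1 (ht i)
  unfold Prep_corner
  rw [abs_le]
  split_ifs <;> constructor <;> linarith [h1.1, h1.2]

lemma Prep_r_le {k : ℕ} (hk : 1 ≤ k) : 1 / (10 * (k : ℝ) ^ 2) ≤ 1 / 10 := by
  have h : (1 : ℝ) ≤ k := by exact_mod_cast hk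
  apply one_div_le_one_div_of_le (by norm_num)
  nlinarith

lemma Prep_gv_corner {k : ℕ} (hk : 1 ≤ k) {t : Fin k → ℝ} (ht : ∀ i, |t i| ≤ k)
    (σ : Fin k → Bool) :
    9 / 11 * gv 1 t ≤ gv 1 (Prep_corner t (1 / (10 * (k : ℝ) ^ 2)) σ) := by
  have h : (1 : ℝ) ≤ k := by exact_mod_cast hk
  set r : ℝ := 1 / (10 * (k : ℝ) ^ 2) with hr
  have hr0 : 0 < r := by positivity
  have hr1 : r ≤ 1 / 10 := Prep_r_le hk
  have hrk : r * k ^ 2 = 1 / 10 := by rw [hr]; field_simp
  have hsum : ∑ i, Prep_corner t r σ i ^ 2 ≤ ∑ i, t i ^ 2 + 21 / 100 := by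
    have h1 : ∀ i, Prep_corner t r σ i ^ 2 ≤ t i ^ 2 + (2 * r * k + r ^ 2) := by
      intro i
      have h2 := abs_le.1 (ht i)
      unfold Prep_corner
      split_ifs <;> nlinarith [h2.1, h2.2]
    calc ∑ i, Prep_corner t r σ i ^ 2 ≤ ∑ i, (t i ^ 2 + (2 * r * k + r ^ 2)) :=
          Finset.sum_le_sum fun i _ => h1 i
      _ = ∑ i, t i ^ 2 + k * (2 * r * k + r ^ 2) := by
          rw [Finset.sum_add_distrib, Finset.sum_const, Finset.card_univ, Fintype.card_fin,
            nsmul_eq_mul]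
      _ ≤ _ := by
          have h3 : (k : ℝ) * r ^ 2 ≤ 1 / 100 := by
            have : (k : ℝ) * r ≤ 1 / 10 := by nlinarith
            nlinarith
          nlinarith
  rw [gv_eq, gv_eq, mul_left_comm]
  refine mul_le_mul_of_nonneg_left ?_ (by positivity)
  have h4 : Real.exp (-(21 / 200)) * Real.exp (-(∑ i, t i ^ 2) / (2 * 1)) ≤
      Real.exp (-(∑ i, Prep_corner t r σ i ^ 2) / (2 * 1)) := by
    rw [← Real.exp_add]
    exact Real.exp_le_exp.2 (by linarith)
  refine le_trans (mul_le_mul_of_nonneg_right ?_ (Real.exp_pos _).le) h4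
  have := Real.add_one_le_exp (-(21 / 200) : ℝ)
  linarith

lemma Prep_sq_add {ι : Type*} [Fintype ι] (x y : ι → ℝ) :
    ∑ i, (x i + y i) ^ 2 ≤ 2 * ∑ i, x i ^ 2 + 2 * ∑ i, y i ^ 2 := by
  rw [Finset.mul_sum, Finset.mul_sum, ← Finset.sum_add_distrib]
  exact Finset.sum_le_sum fun i _ => by nlinarith [sq_nonneg (x i - y i)]

/-- Let `r = 1/(10 k²)`, `n = n' + k`.  For `|t|_∞ ≤ k` and a sign vector `σ`, positivity of the
integral at `t + r σ` gives `x ∈ K` with `|P x - (t + r σ)|_∞ ≤ r`; `mem_of_signs` gives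
`t ∈ P K`; so `P` is onto; take `Φ` from `exists_coords`, `K' = Φ K`.
`outer`: `IsoBody.outer`.  `inner`: for `y = (u,t)` with `|y|_∞ ≤ r₀ = n^{-4}` pick `x* = r₀ x₁`,
`x₁ ∈ K`, `P x₁ = t / r₀`; `x = Φ⁻¹ y` has `x - x* ∈ ker P`, so
`|x|² ≤ 2 |x*|² + 2 |x - x*|² ≤ (8 n² + 4 n + 16 n²) r₀² ≤ 1/(16 n²)` for `n ≥ 5`; `IsoBody.inner`.
`marg`: `Φ` scales Lebesgue measure by a constant (uniqueness of Haar measure, or reindex and use
`det`), so the hypothesis reads
`gv 1 t / 8 ≤ ∫_{|s - t|_∞ ≤ r} (vol (slice K' s) / vol K') gv v (t - s) ds` (Fubini through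
`MeasurableEquiv.sumPiEquivProdPi`); as `∫ gv v = 1` some `s` in the small cube has
`vol (slice K' s) ≥ gv 1 t vol K' / 9`.  Use it at `t + r σ`, where
`gv 1 (t + r σ) ≥ exp (-0.105) gv 1 t ≥ (9/11) gv 1 t`, then `slice_convex` and `mem_of_signs`. -/
theorem prepare {n' k : ℕ} (hk : 1 ≤ k) (hn : 5 ≤ n' + k) {K : Set (Fin (n' + k) → ℝ)}
    (hK : IsoBody K) (P : Matrix (Fin k) (Fin (n' + k)) ℝ) {v : ℝ} (hv : 0 < v)
    (hP : ∀ t : Fin k → ℝ, (∀ i, |t i| ≤ k + 1) →
        gv 1 t / 8 ≤ ∫ x in {x | ∀ i, |P.mulVec x i - t i| ≤ 1 / (10 * (k : ℝ) ^ 2)},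
          gv v (t - P.mulVec x) ∂(uni K)) :
    ∃ Φ : (Fin (n' + k) → ℝ) ≃ₗ[ℝ] (Fin n' ⊕ Fin k → ℝ), Prepared n' k (Φ '' K) := by
  have hk1 : (1 : ℝ) ≤ k := by exact_mod_cast hk
  set r : ℝ := 1 / (10 * (k : ℝ) ^ 2) with hr
  have hr0 : 0 < r := by positivity
  have hr1 : r ≤ 1 / 10 := Prep_r_le hk
  have hcor : ∀ t : Fin k → ℝ, (∀ i, |t i| ≤ k) → ∀ σ i, |Prep_corner t r σ i| ≤ k + 1 :=
    fun t ht σ i => (Prep_corner_abs hr0.le ht σ i).trans (by linarith)
  -- the cube lies in `P K`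
  have hcube : ∀ t : Fin k → ℝ, (∀ i, |t i| ≤ k) → ∃ x ∈ K, P.mulVec x = t := by
    intro t ht
    have hconv : Convex ℝ (P.mulVecLin '' K) := hK.convex.linear_image _
    refine mem_of_signs hconv t fun σ => ?_
    have h1 := hP _ (hcor t ht σ)
    have h2 := gv_pos one_pos (Prep_corner t r σ)
    obtain ⟨x, hx, hxr⟩ := Prep_point hK P (Prep_corner t r σ) (lt_of_lt_of_le (by positivity) h1)
    exact ⟨P.mulVec x, ⟨x, hx, rfl⟩, Prep_corner_sign hxr⟩
  have hsurj : Function.Surjective P.mulVec := by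
    intro y
    have hy : 0 < ‖y‖ + 1 := by positivity
    obtain ⟨x, -, hx⟩ := hcube ((‖y‖ + 1)⁻¹ • y) (by
      intro i
      have h1 : |y i| ≤ ‖y‖ := norm_le_pi_norm y i
      rw [Pi.smul_apply, smul_eq_mul, abs_mul, abs_of_pos (inv_pos.2 hy), inv_mul_le_iff₀ hy]
      nlinarith)
    refine ⟨(‖y‖ + 1) • x, ?_⟩
    rw [Matrix.mulVec_smul, hx, smul_smul, mul_inv_cancel₀ hy.ne', one_smul]
  obtain ⟨Φ, hΦ1, hΦ2, hΦ3⟩ := exists_coords P hsurj
  have hΦc : Continuous Φ := Φ.toContinuousLinearEquiv.continuous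
  have hK'c : IsCompact (Φ '' K) := hK.compact.image hΦc
  have hK'v : Convex ℝ (Φ '' K) := hK.convex.linear_image Φ.toLinearMap
  have hn2 : 2 ≤ n' + k := by omega
  have hcast : ((n' + k : ℕ) : ℝ) = (n' : ℝ) + k := by push_cast; ring
  set N : ℝ := (n' : ℝ) + k with hN
  have hN5 : 5 ≤ N := by rw [← hcast]; exact_mod_cast hn
  have hout : ∀ x ∈ K, ∑ i, x i ^ 2 ≤ 4 * N ^ 2 := fun x hx => hcast ▸ hK.outer hn2 x hx
  refine ⟨Φ, hK'c, hK'v, ?_, ?_, ?_⟩
  · rintro _ ⟨x, hx, rfl⟩ i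
    have h1 : Φ x (Sum.inl i) ^ 2 ≤ ∑ i, Φ x (Sum.inl i) ^ 2 :=
      Finset.single_le_sum (f := fun i => Φ x (Sum.inl i) ^ 2) (fun _ _ => sq_nonneg _)
        (Finset.mem_univ i)
    have h2 : Φ x (Sum.inl i) ^ 2 ≤ (2 * N) ^ 2 := by
      have := hΦ2 x
      have := hout x hx
      nlinarith
    exact abs_le_of_sq_le_sq' h2 (by linarith) |> abs_le.2
  · intro y hy
    set r₀ : ℝ := 1 / N ^ 4 with hr₀
    have hr₀0 : 0 < r₀ := by positivity
    obtain ⟨x₁, hx₁, hPx₁⟩ := hcube (fun i => r₀⁻¹ * y (Sum.inr i)) (by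
      intro i
      rw [abs_mul, abs_of_pos (inv_pos.2 hr₀0), inv_mul_le_iff₀ hr₀0]
      have := hy (Sum.inr i)
      nlinarith)
    refine ⟨Φ.symm y, ?_, Φ.apply_symm_apply y⟩
    set x := Φ.symm y with hx
    have hΦx : Φ x = y := Φ.apply_symm_apply y
    have hker : P.mulVec (x - r₀ • x₁) = 0 := by
      funext i
      rw [Matrix.mulVec_sub, Matrix.mulVec_smul, hPx₁, Pi.sub_apply, ← hΦ1, hΦx]
      simp only [Pi.smul_apply, smul_eq_mul, Pi.zero_apply]
      field_simp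
      ring
    have hstar : ∑ i, (r₀ • x₁) i ^ 2 ≤ 4 * N ^ 2 * r₀ ^ 2 := by
      simp only [Pi.smul_apply, smul_eq_mul, mul_pow, ← Finset.mul_sum]
      have := hout x₁ hx₁
      nlinarith [sq_nonneg r₀]
    have hu : ∑ i, y (Sum.inl i) ^ 2 ≤ N * r₀ ^ 2 := by
      calc ∑ i, y (Sum.inl i) ^ 2 ≤ ∑ _i : Fin n', r₀ ^ 2 :=
            Finset.sum_le_sum fun i _ => sq_le_sq' (abs_le.1 (hy _)).1 (abs_le.1 (hy _)).2
        _ = n' * r₀ ^ 2 := by simp
        _ ≤ _ := by
            refine mul_le_mul_of_nonneg_right ?_ (sq_nonneg _)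
            rw [hN]; linarith
    have hdiff : ∑ i, (x - r₀ • x₁) i ^ 2 ≤ 2 * (N * r₀ ^ 2) + 2 * (4 * N ^ 2 * r₀ ^ 2) := by
      rw [← hΦ3 _ hker]
      have h1 : ∀ i, Φ (x - r₀ • x₁) (Sum.inl i) =
          y (Sum.inl i) + Φ (-(r₀ • x₁)) (Sum.inl i) := by
        intro i
        rw [sub_eq_add_neg, map_add, hΦx]; rfl
      simp only [h1]
      refine (Prep_sq_add _ _).trans ?_
      have h2 := hΦ2 (-(r₀ • x₁))
      simp only [Pi.neg_apply, even_two, Even.neg_pow] at h2 ⊢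
      linarith
    have hxx : ∑ i, x i ^ 2 ≤ (24 * N ^ 2 + 4 * N) * r₀ ^ 2 := by
      have h1 : ∀ i, x i = (r₀ • x₁) i + (x - r₀ • x₁) i := fun i => by simp
      have h2 := Prep_sq_add (r₀ • x₁) (x - r₀ • x₁)
      simp only [← h1] at h2
      linarith
    refine hK.inner hn2 x (hxx.trans ?_)
    rw [hcast, hr₀, div_pow, mul_div_assoc', div_le_div_iff₀ (by positivity) (by positivity)]
    have h1 : 625 ≤ N ^ 4 := by
      calc (625 : ℝ) = 5 ^ 4 := by norm_num
        _ ≤ N ^ 4 := pow_le_pow_left₀ (by norm_num) hN5 4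
    have h2 : (24 * N ^ 2 + 4 * N) * (16 * N ^ 2) ≤ 625 * N ^ 4 := by
      have h3 : 0 < N ^ 3 := by positivity
      nlinarith
    have h4 : 0 < N ^ 4 := by positivity
    nlinarith
  · intro t ht
    have hpos : 0 < (volume (Φ '' K)).toReal := by
      obtain ⟨c, hc, hmap⟩ := Prep_scale Φ
      have h1 := congrArg (fun μ : Measure (Fin n' ⊕ Fin k → ℝ) => μ (Φ '' K)) hmap
      simp only [Measure.smul_apply] at h1
      rw [Measure.map_apply hΦc.measurable hK'c.measurableSet,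
        Set.preimage_image_eq _ Φ.injective] at h1
      have h2 := hK.vol_pos
      rw [h1] at h2
      refine ENNReal.toReal_pos (fun h0 => ?_) hK'c.measure_lt_top.ne
      simp [h0] at h2
    have hg := gv_pos one_pos t
    refine mem_of_signs (slice_convex hK'c hK'v (lam := gv 1 t * (volume (Φ '' K)).toReal / 11)
      (by positivity)) t fun σ => ?_
    obtain ⟨s, hs, hvol⟩ := Prep_slice hK P hv Φ hΦ1 (Prep_corner t r σ) (gv_pos one_pos _)
      (hP _ (hcor t ht σ))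
    refine ⟨s, ?_, Prep_corner_sign hs⟩
    refine le_trans ?_ hvol
    have h1 := Prep_gv_corner hk ht σ
    rw [← hr] at h1
    nlinarith

end Crest.Agent.R225U
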