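import Crest.Agent.R225U.Shell

/-!
Row 225 (S0347): smoothed Gaussian lower bound for a marginal.
-/

set_option autoImplicit false

open MeasureTheory
open Crest.Agent.R153

namespace Crest.Agent.R225U

lemma smooth_inv_sqrt (v : ℝ) :
    (Real.sqrt (2 * Real.pi * v))⁻¹ = (Real.sqrt (2 * Real.pi * 1))⁻¹ * (Real.sqrt v)⁻¹ := by
  have := Real.pi_pos
  rw [mul_one, Real.sqrt_mul (by positivity), mul_inv]

lemma smooth_ratio {k : ℕ} (hk : 1 ≤ k) {V : ℝ} (hV : |V - 1| ≤ 1 / (20 * (k : ℝ) ^ 3))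
    {t : Fin k → ℝ} (ht : ∑ i, t i ^ 2 ≤ 4 * (k : ℝ) ^ 3) : 3 / 4 * gv 1 t ≤ gv V t := by
  have hk1 : (1 : ℝ) ≤ k := by exact_mod_cast hk
  have hk3 : (1 : ℝ) ≤ (k : ℝ) ^ 3 := one_le_pow₀ hk1
  set ε : ℝ := 1 / (20 * (k : ℝ) ^ 3) with hε
  have hε0 : 0 < ε := by positivity
  have hε1 : ε * (k : ℝ) ^ 3 = 1 / 20 := by rw [hε]; field_simp
  have hε2 : ε ≤ 1 / 20 := by nlinarith
  have hε3 : ε * k ≤ 1 / 20 := by
    have : (k : ℝ) ≤ (k : ℝ) ^ 3 := le_self_pow₀ hk1 (by norm_num)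
    nlinarith
  obtain ⟨hV1, hV2⟩ := abs_le.1 hV
  have hV0 : 0 < V := by linarith
  set S := ∑ i, t i ^ 2 with hS
  have hS0 : 0 ≤ S := Finset.sum_nonneg fun i _ => sq_nonneg _
  have h1 : Real.exp (-(ε / 2)) ≤ (Real.sqrt V)⁻¹ := by
    rw [Real.exp_neg]
    refine inv_anti₀ (Real.sqrt_pos.2 hV0) ?_
    rw [Real.sqrt_le_left (Real.exp_pos _).le, ← Real.exp_nat_mul]
    have := Real.add_one_le_exp ε
    have e : ((2 : ℕ) : ℝ) * (ε / 2) = ε := by push_cast; ring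
    rw [e]
    linarith
  have h2 : Real.exp (-(1 / 40)) ≤ (Real.sqrt V)⁻¹ ^ k := by
    refine le_trans ?_ (pow_le_pow_left₀ (Real.exp_pos _).le h1 k)
    rw [← Real.exp_nat_mul]
    exact Real.exp_le_exp.2 (by nlinarith)
  have h3 : -S / (2 * 1) - 2 / 19 ≤ -S / (2 * V) := by
    rw [le_div_iff₀ (by positivity)]
    have h4 : S * ε ≤ 1 / 5 := by nlinarith
    have h5 : S * (1 - V) ≤ S * ε := mul_le_mul_of_nonneg_left (by linarith) hS0
    nlinarith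
  have h4 : (3 / 4 : ℝ) ≤ Real.exp (-(1 / 40)) * Real.exp (-(2 / 19)) := by
    rw [← Real.exp_add]
    have := Real.add_one_le_exp (-(1 / 40) + -(2 / 19) : ℝ)
    linarith
  rw [gv_eq, gv_eq, smooth_inv_sqrt V, mul_pow, ← hS]
  have hc : 0 ≤ (Real.sqrt (2 * Real.pi * 1))⁻¹ ^ k := by positivity
  have h5 : Real.exp (-S / (2 * 1)) * Real.exp (-(2 / 19)) ≤ Real.exp (-S / (2 * V)) := by
    rw [← Real.exp_add]
    exact Real.exp_le_exp.2 (by linarith)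
  have h6 : 3 / 4 * Real.exp (-S / (2 * 1)) ≤ (Real.sqrt V)⁻¹ ^ k * Real.exp (-S / (2 * V)) :=
    calc 3 / 4 * Real.exp (-S / (2 * 1))
        ≤ Real.exp (-(1 / 40)) * Real.exp (-(2 / 19)) * Real.exp (-S / (2 * 1)) :=
          mul_le_mul_of_nonneg_right h4 (Real.exp_pos _).le
      _ = Real.exp (-(1 / 40)) * (Real.exp (-S / (2 * 1)) * Real.exp (-(2 / 19))) := by ring
      _ ≤ _ := mul_le_mul h2 h5 (by positivity) (by positivity)
  calc 3 / 4 * ((Real.sqrt (2 * Real.pi * 1))⁻¹ ^ k * Real.exp (-S / (2 * 1)))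
      = (Real.sqrt (2 * Real.pi * 1))⁻¹ ^ k * (3 / 4 * Real.exp (-S / (2 * 1))) := by ring
    _ ≤ (Real.sqrt (2 * Real.pi * 1))⁻¹ ^ k * ((Real.sqrt V)⁻¹ ^ k * Real.exp (-S / (2 * V))) :=
        mul_le_mul_of_nonneg_left h6 hc
    _ = _ := by ring

lemma smooth_gamma {k : ℕ} {t : Fin k → ℝ} (ht : ∑ i, t i ^ 2 ≤ 4 * (k : ℝ) ^ 3) :
    (Real.sqrt (2 * Real.pi * 1))⁻¹ ^ k * Real.exp (-(2 * (k : ℝ) ^ 3)) ≤ gv 1 t := by
  rw [gv_eq]
  exact mul_le_mul_of_nonneg_left (Real.exp_le_exp.2 (by linarith)) (by positivity)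

lemma smooth_poly_le {k : ℕ} (hk : 1 ≤ k) : 100 * (k : ℝ) ^ 4 ≤ Real.exp (9 * k) := by
  have hk1 : (1 : ℝ) ≤ k := by exact_mod_cast hk
  have h1 : (k : ℝ) ≤ Real.exp k := by have := Real.add_one_le_exp (k : ℝ); linarith
  have h2 : (k : ℝ) ^ 4 ≤ Real.exp (4 * k) := by
    have := pow_le_pow_left₀ (by positivity) h1 4
    rwa [← Real.exp_nat_mul] at this
  have h3 : (100 : ℝ) ≤ Real.exp (5 * k) := by
    have h4 : (2.7 : ℝ) ≤ Real.exp 1 := by have := Real.exp_one_gt_d9; linarith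
    have h5 : (2.7 : ℝ) ^ 5 ≤ Real.exp 1 ^ 5 := pow_le_pow_left₀ (by norm_num) h4 5
    rw [← Real.exp_nat_mul] at h5
    have h6 : Real.exp ((5 : ℕ) * 1) ≤ Real.exp (5 * k) := Real.exp_le_exp.2 (by push_cast; linarith)
    have h7 : (100 : ℝ) ≤ 2.7 ^ 5 := by norm_num
    exact h7.trans (h5.trans h6)
  calc 100 * (k : ℝ) ^ 4 ≤ Real.exp (5 * k) * Real.exp (4 * k) :=
        mul_le_mul h3 h2 (by positivity) (by positivity)
    _ = _ := by rw [← Real.exp_add]; ring_nf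

lemma smooth_tail {k : ℕ} (hk : 1 ≤ k) {u : Fin k → ℝ} {i : Fin k}
    (hu : 1 / (10 * (k : ℝ) ^ 2) ≤ |u i|) :
    gv (1 / (100 * (k : ℝ) ^ 4) ^ 2) u ≤
      (Real.sqrt (2 * Real.pi * 1))⁻¹ ^ k * Real.exp (-(2 * (k : ℝ) ^ 3)) / 8 := by
  have hk1 : (1 : ℝ) ≤ k := by exact_mod_cast hk
  have hk0 : (0 : ℝ) < k := by linarith
  rw [gv_eq, smooth_inv_sqrt, mul_pow, mul_assoc, mul_div_assoc]
  refine mul_le_mul_of_nonneg_left ?_ (by positivity)
  have e1 : (Real.sqrt (1 / (100 * (k : ℝ) ^ 4) ^ 2))⁻¹ = 100 * (k : ℝ) ^ 4 := by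
    rw [one_div, Real.sqrt_inv, inv_inv, Real.sqrt_sq (by positivity)]
  have h1 : (100 * (k : ℝ) ^ 4) ^ k ≤ Real.exp (9 * (k : ℝ) ^ 2) := by
    have := pow_le_pow_left₀ (by positivity) (smooth_poly_le hk) k
    rw [← Real.exp_nat_mul] at this
    exact this.trans (le_of_eq (by congr 1; ring))
  have h2 : (1 / (10 * (k : ℝ) ^ 2)) ^ 2 ≤ ∑ j, u j ^ 2 :=
    calc (1 / (10 * (k : ℝ) ^ 2)) ^ 2 ≤ |u i| ^ 2 := pow_le_pow_left₀ (by positivity) hu 2
      _ = u i ^ 2 := sq_abs _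
      _ ≤ _ := Finset.single_le_sum (f := fun j => u j ^ 2) (fun j _ => sq_nonneg _)
        (Finset.mem_univ i)
  have h3 : -(∑ j, u j ^ 2) / (2 * (1 / (100 * (k : ℝ) ^ 4) ^ 2)) ≤ -(50 * (k : ℝ) ^ 4) := by
    rw [div_le_iff₀ (by positivity)]
    have e : -(50 * (k : ℝ) ^ 4) * (2 * (1 / (100 * (k : ℝ) ^ 4) ^ 2)) =
        -(1 / (10 * (k : ℝ) ^ 2)) ^ 2 := by
      field_simp
      ring
    rw [e]
    linarith
  have h4 : (8 : ℝ) ≤ Real.exp 7 := by have := Real.add_one_le_exp (7 : ℝ); linarith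
  rw [e1, le_div_iff₀ (by norm_num)]
  have h5 : (k : ℝ) ^ 2 ≤ (k : ℝ) ^ 4 := pow_le_pow_right₀ hk1 (by norm_num)
  have h6 : (k : ℝ) ^ 3 ≤ (k : ℝ) ^ 4 := pow_le_pow_right₀ hk1 (by norm_num)
  have h7 : (1 : ℝ) ≤ (k : ℝ) ^ 4 := one_le_pow₀ hk1
  calc (100 * (k : ℝ) ^ 4) ^ k *
        Real.exp (-(∑ j, u j ^ 2) / (2 * (1 / (100 * (k : ℝ) ^ 4) ^ 2))) * 8
      ≤ Real.exp (9 * (k : ℝ) ^ 2) * Real.exp (-(50 * (k : ℝ) ^ 4)) * Real.exp 7 :=
        mul_le_mul (mul_le_mul h1 (Real.exp_le_exp.2 h3) (by positivity) (by positivity)) h4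
          (by norm_num) (by positivity)
    _ ≤ _ := by
        rw [← Real.exp_add, ← Real.exp_add]
        exact Real.exp_le_exp.2 (by linarith)

lemma smooth_zeta {k n : ℕ} (hk : 1 ≤ k) (hn : 2 ≤ n) (hlog : 200 * (k : ℝ) ^ 20 ≤ Real.log n)
    {s : ℝ} (hs : 1 / 80 ≤ s) :
    ((4 * Real.pi * (1 / (100 * (k : ℝ) ^ 4) ^ 2 / 2))⁻¹) ^ k *
        (k / (2 * (1 / (100 * (k : ℝ) ^ 4) ^ 2 / 2))) * (Real.sqrt n / (s * n)) ≤
      ((Real.sqrt (2 * Real.pi * 1))⁻¹ ^ k * Real.exp (-(2 * (k : ℝ) ^ 3)) / 4) ^ 2 := by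
  have hk1 : (1 : ℝ) ≤ k := by exact_mod_cast hk
  have hk0 : (0 : ℝ) < k := by linarith
  have hn0 : (0 : ℝ) < n := by exact_mod_cast (by omega : 0 < n)
  have hpi := Real.pi_pos
  have hs0 : 0 < s := by linarith
  set A : ℝ := 100 * (k : ℝ) ^ 4 with hA
  have hA0 : 0 < A := by positivity
  have hA1 : A ≤ Real.exp (9 * k) := smooth_poly_le hk
  have e1 : (4 * Real.pi * (1 / A ^ 2 / 2))⁻¹ = (2 * Real.pi)⁻¹ * A ^ 2 := by
    field_simp
    ring
  have e2 : (k : ℝ) / (2 * (1 / A ^ 2 / 2)) = k * A ^ 2 := by field_simp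
  have e3 : ((Real.sqrt (2 * Real.pi * 1))⁻¹ ^ k * Real.exp (-(2 * (k : ℝ) ^ 3)) / 4) ^ 2 =
      (2 * Real.pi)⁻¹ ^ k * (Real.exp (-(4 * (k : ℝ) ^ 3)) / 16) := by
    rw [div_pow, mul_pow, ← pow_mul, mul_comm k 2, pow_mul, inv_pow, mul_one,
      Real.sq_sqrt (by positivity), ← Real.exp_nat_mul]
    have : ((2 : ℕ) : ℝ) * -(2 * (k : ℝ) ^ 3) = -(4 * (k : ℝ) ^ 3) := by push_cast; ring
    rw [this]
    ring
  have h1 : Real.exp (100 * (k : ℝ) ^ 20) ≤ Real.sqrt n := by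
    refine Real.le_sqrt_of_sq_le ?_
    rw [← Real.exp_nat_mul, ← Real.exp_log hn0]
    exact Real.exp_le_exp.2 (by push_cast; linarith)
  have h2 : Real.sqrt n / (s * n) ≤ 80 * Real.exp (-(100 * (k : ℝ) ^ 20)) := by
    have hq : 0 < Real.sqrt n := Real.sqrt_pos.2 hn0
    have e : Real.sqrt n / (s * n) = s⁻¹ * (Real.sqrt n)⁻¹ := by
      have := Real.mul_self_sqrt hn0.le
      field_simp
      nlinarith
    rw [e, Real.exp_neg]
    refine mul_le_mul ?_ (inv_anti₀ (Real.exp_pos _) h1) (by positivity) (by norm_num)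
    rw [inv_le_comm₀ hs0 (by norm_num)]
    linarith
  have h3 : A ^ 2 ≤ Real.exp (18 * k) := by
    have := pow_le_pow_left₀ hA0.le hA1 2
    rw [← Real.exp_nat_mul] at this
    exact this.trans (le_of_eq (by congr 1; push_cast; ring))
  have h4 : (A ^ 2) ^ k ≤ Real.exp (18 * (k : ℝ) ^ 2) := by
    have := pow_le_pow_left₀ (by positivity) h3 k
    rw [← Real.exp_nat_mul] at this
    exact this.trans (le_of_eq (by congr 1; ring))
  have h5 : (k : ℝ) ≤ Real.exp k := by have := Real.add_one_le_exp (k : ℝ); linarith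
  have h6 : (1280 : ℝ) ≤ Real.exp 50 := by
    have := Real.quadratic_le_exp_of_nonneg (by norm_num : (0 : ℝ) ≤ 50)
    linarith
  have p1 : (k : ℝ) ≤ (k : ℝ) ^ 20 := le_self_pow₀ hk1 (by norm_num)
  have p2 : (k : ℝ) ^ 2 ≤ (k : ℝ) ^ 20 := pow_le_pow_right₀ hk1 (by norm_num)
  have p3 : (k : ℝ) ^ 3 ≤ (k : ℝ) ^ 20 := pow_le_pow_right₀ hk1 (by norm_num)
  have p0 : (1 : ℝ) ≤ (k : ℝ) ^ 20 := one_le_pow₀ hk1
  rw [e1, e2, e3, mul_pow, mul_assoc, mul_assoc]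
  refine mul_le_mul_of_nonneg_left ?_ (by positivity)
  rw [le_div_iff₀ (by norm_num)]
  calc (A ^ 2) ^ k * (k * A ^ 2 * (Real.sqrt n / (s * n))) * 16
      ≤ Real.exp (18 * (k : ℝ) ^ 2) * (Real.exp k * Real.exp (18 * k) *
          (80 * Real.exp (-(100 * (k : ℝ) ^ 20)))) * 16 := by
        gcongr
    _ = 1280 * (Real.exp (18 * (k : ℝ) ^ 2) * Real.exp k * Real.exp (18 * k) *
          Real.exp (-(100 * (k : ℝ) ^ 20))) := by ring
    _ ≤ Real.exp 50 * (Real.exp (18 * (k : ℝ) ^ 2) * Real.exp k * Real.exp (18 * k) *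
          Real.exp (-(100 * (k : ℝ) ^ 20))) := by gcongr
    _ ≤ _ := by
        simp only [← Real.exp_add]
        exact Real.exp_le_exp.2 (by linarith)

/-- `δ = 1/(3200 k³)`, `s` from `thin_shell`; `borell` gives `s ≥ 1/80`.  Apply `uniform_clt` with
`l = k`, `lam = s n`, `2 v = v₂ = 1/(10^4 k^8)`, `Θ = n`.  On the shell
`V = |x|²/(s n) + v₂` satisfies `|V - 1| ≤ 1/(20 k³)`, so `gv V t ≥ (3/4) gv 1 t` when
`∑ t² ≤ 4 k³`; hence `m t ≥ gv 1 t / 2`.  With `γ₀ = (2π)^{-k/2} exp (-2 k³) ≤ gv 1 t`, the error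
`ζ ≤ γ₀ / 4` (`ζ² ≤ (2 π v₂)^{-k} (k / v₂) 80 / √n`), and outside the small cube
`gv v₂ (t - P x) ≤ (2 π v₂)^{-k/2} exp (-50 k⁴) ≤ γ₀ / 8`. -/
theorem smooth_lower : ∃ C : ℝ, ∀ k n : ℕ, 1 ≤ k → 2 ≤ n → C * (k : ℝ) ^ 20 ≤ Real.log n →
    ∀ K : Set (Fin n → ℝ), IsoBody K → ∃ (P : Matrix (Fin k) (Fin n) ℝ) (v : ℝ), 0 < v ∧
      ∀ t : Fin k → ℝ, (∀ i, |t i| ≤ k + 1) →
        gv 1 t / 8 ≤ ∫ x in {x | ∀ i, |P.mulVec x i - t i| ≤ 1 / (10 * (k : ℝ) ^ 2)},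
          gv v (t - P.mulVec x) ∂(uni K) := by
  obtain ⟨C₀, hC₀, hshell⟩ := thin_shell
  refine ⟨C₀ * 3200 ^ 6 + 200, fun k n hk hn hlog K hK => ?_⟩
  have hk1 : (1 : ℝ) ≤ k := by exact_mod_cast hk
  have hk0 : (0 : ℝ) < k := by linarith
  have hk3 : (1 : ℝ) ≤ (k : ℝ) ^ 3 := one_le_pow₀ hk1
  have hn0 : (0 : ℝ) < n := by exact_mod_cast (by omega : 0 < n)
  have p0 : (0 : ℝ) < (k : ℝ) ^ 20 := by positivity
  have := hK.isProb
  set δ : ℝ := 1 / (3200 * (k : ℝ) ^ 3) with hδ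
  have hδ0 : 0 < δ := by positivity
  have hδ1 : δ ≤ 1 / 3200 := by
    rw [hδ]
    exact one_div_le_one_div_of_le (by norm_num) (by linarith)
  have hC : C₀ / δ ^ 6 ≤ Real.log n := by
    have e : C₀ / δ ^ 6 = C₀ * 3200 ^ 6 * (k : ℝ) ^ 18 := by
      rw [hδ]
      field_simp
    have p1 : (k : ℝ) ^ 18 ≤ (k : ℝ) ^ 20 := pow_le_pow_right₀ hk1 (by norm_num)
    have p2 : C₀ * 3200 ^ 6 * (k : ℝ) ^ 18 ≤ C₀ * 3200 ^ 6 * (k : ℝ) ^ 20 :=
      mul_le_mul_of_nonneg_left p1 (by positivity)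
    rw [e]
    linarith
  have hlog' : 200 * (k : ℝ) ^ 20 ≤ Real.log n := by
    have : 0 ≤ C₀ * 3200 ^ 6 * (k : ℝ) ^ 20 := by positivity
    linarith
  obtain ⟨s, -, -, hs⟩ := hshell δ hδ0 (by linarith) n hn hC K hK
  have hs80 : 1 / 80 ≤ s := by
    by_contra hlt
    push Not at hlt
    have hsub : {x : Fin n → ℝ | |(∑ i, x i ^ 2) / n - s| ≤ δ} ⊆
        {x | ∑ i, x i ^ 2 ≤ (n : ℝ) / 40} := by
      intro x hx
      have hx' : |(∑ i, x i ^ 2) / n - s| ≤ δ := hx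
      have h1 := (abs_le.1 hx').2
      have h2 : (∑ i, x i ^ 2) / n ≤ 1 / 40 := by linarith
      rw [div_le_iff₀ hn0] at h2
      show ∑ i, x i ^ 2 ≤ (n : ℝ) / 40
      linarith
    have h1 := measureReal_mono (μ := uni K) hsub
    have h2 := borell (by omega) hK
    linarith
  have hs0 : 0 < s := by linarith
  set v₂ : ℝ := 1 / (100 * (k : ℝ) ^ 4) ^ 2 with hv₂
  have hv0 : 0 < v₂ := by positivity
  have hb : ∀ᵐ x ∂(uni K), ∀ i, |x i| ≤ 2 * (n : ℝ) := by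
    filter_upwards [hK.ae_mem] with x hx i
    have h1 := hK.outer hn x hx
    have h2 : x i ^ 2 ≤ ∑ j, x j ^ 2 :=
      Finset.single_le_sum (f := fun j => x j ^ 2) (fun j _ => sq_nonneg _) (Finset.mem_univ i)
    exact abs_le_of_sq_le_sq' (by linarith) (by positivity) |> abs_le.2
  obtain ⟨P, hP⟩ := uniform_clt (l := k) (uni K) (2 * (n : ℝ)) hb (lam := s * n) (v := v₂ / 2)
    (Θ := n) (by positivity) (by positivity) hK.theta.le
  refine ⟨P, v₂, hv0, fun t ht => ?_⟩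
  have hS : ∑ i, t i ^ 2 ≤ 4 * (k : ℝ) ^ 3 := by
    have h1 : ∀ i, t i ^ 2 ≤ (2 * (k : ℝ)) ^ 2 := fun i => by
      rw [← sq_abs]
      exact pow_le_pow_left₀ (abs_nonneg _) ((ht i).trans (by linarith)) 2
    calc ∑ i, t i ^ 2 ≤ ∑ _i : Fin k, (2 * (k : ℝ)) ^ 2 := Finset.sum_le_sum fun i _ => h1 i
      _ = _ := by simp; ring
  set γ : ℝ := (Real.sqrt (2 * Real.pi * 1))⁻¹ ^ k * Real.exp (-(2 * (k : ℝ) ^ 3)) with hγ
  have hγ0 : 0 ≤ γ := by positivity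
  have hγ1 : γ ≤ gv 1 t := smooth_gamma hS
  have e2 : 2 * (v₂ / 2) = v₂ := by ring
  have h1 := (hP t).trans (smooth_zeta hk hn hlog' hs80)
  rw [e2] at h1
  have h2 := (abs_le_of_sq_le_sq' h1 (by positivity)).1
  -- the mixture of Gaussians
  have hVpos : ∀ x : Fin n → ℝ, 0 < (∑ i, x i ^ 2) / (s * n) + v₂ := fun x => by positivity
  have hcont : Continuous fun x : Fin n → ℝ => gv ((∑ i, x i ^ 2) / (s * n) + v₂) t := by
    simp only [gv_eq]
    have hpi := Real.pi_pos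
    refine Continuous.mul (Continuous.pow (Continuous.inv₀ (by fun_prop) fun x => ?_) _)
      (Real.continuous_exp.comp (Continuous.div (by fun_prop) (by fun_prop) fun x => ?_))
    · have := hVpos x
      positivity
    · have := hVpos x
      positivity
  have hmeas : MeasurableSet {x : Fin n → ℝ | |(∑ i, x i ^ 2) / n - s| ≤ δ} :=
    (isClosed_le (by fun_prop) continuous_const).measurableSet
  have h3 : gv 1 t / 2 ≤ ∫ x, gv ((∑ i, x i ^ 2) / (s * n) + v₂) t ∂(uni K) := by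
    have hg := gv_pos one_pos t
    have h4 : ∫ x, Set.indicator {x : Fin n → ℝ | |(∑ i, x i ^ 2) / n - s| ≤ δ}
        (fun _ => 3 / 4 * gv 1 t) x ∂(uni K) ≤
        ∫ x, gv ((∑ i, x i ^ 2) / (s * n) + v₂) t ∂(uni K) := by
      refine integral_mono ((integrable_const _).indicator hmeas) (hK.integrable hcont) fun x => ?_
      by_cases hx : x ∈ {x : Fin n → ℝ | |(∑ i, x i ^ 2) / n - s| ≤ δ}
      · rw [Set.indicator_of_mem hx]
        refine smooth_ratio hk ?_ hS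
        have hx' : |(∑ i, x i ^ 2) / n - s| ≤ δ := hx
        have e : (∑ i, x i ^ 2) / (s * n) + v₂ - 1 = ((∑ i, x i ^ 2) / n - s) / s + v₂ := by
          field_simp
          ring
        have h5 : |((∑ i, x i ^ 2) / n - s) / s| ≤ 80 * δ := by
          rw [abs_div, abs_of_pos hs0, div_le_iff₀ hs0]
          nlinarith
        have h6 : v₂ ≤ 80 * δ := by
          have e' : 80 * δ = 1 / (40 * (k : ℝ) ^ 3) := by rw [hδ]; field_simp; ring
          rw [e', hv₂]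
          refine one_div_le_one_div_of_le (by positivity) ?_
          have p1 : (k : ℝ) ^ 3 ≤ (k : ℝ) ^ 8 := pow_le_pow_right₀ hk1 (by norm_num)
          nlinarith
        have e' : 1 / (20 * (k : ℝ) ^ 3) = 80 * δ + 80 * δ := by rw [hδ]; field_simp; ring
        rw [e, e']
        refine (abs_add_le _ _).trans (add_le_add h5 ?_)
        rwa [abs_of_pos hv0]
      · rw [Set.indicator_of_notMem hx]
        exact (gv_pos (hVpos x) t).le
    rw [integral_indicator_const _ hmeas, smul_eq_mul] at h4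
    nlinarith
  -- remove the complement of the small cube
  have hcont2 : Continuous fun x : Fin n → ℝ => gv v₂ (t - P.mulVec x) :=
    (continuous_gv v₂).comp (by fun_prop)
  have hmeas2 : MeasurableSet
      {x : Fin n → ℝ | ∀ i, |P.mulVec x i - t i| ≤ 1 / (10 * (k : ℝ) ^ 2)} := by
    rw [Set.ofPred_forall]
    exact MeasurableSet.iInter fun i => (isClosed_le (by fun_prop) continuous_const).measurableSet
  have h4 : ∫ x, (gv v₂ (t - P.mulVec x) - γ / 8) ∂(uni K) ≤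
      ∫ x, Set.indicator {x : Fin n → ℝ | ∀ i, |P.mulVec x i - t i| ≤ 1 / (10 * (k : ℝ) ^ 2)}
        (fun x => gv v₂ (t - P.mulVec x)) x ∂(uni K) := by
    refine integral_mono ((hK.integrable hcont2).sub (integrable_const _))
      ((hK.integrable hcont2).indicator hmeas2) fun x => ?_
    by_cases hx : x ∈ {x : Fin n → ℝ | ∀ i, |P.mulVec x i - t i| ≤ 1 / (10 * (k : ℝ) ^ 2)}
    · rw [Set.indicator_of_mem hx]
      linarith
    · rw [Set.indicator_of_notMem hx]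
      simp only [Set.mem_ofPred_eq, not_forall, not_le] at hx
      obtain ⟨i, hi⟩ := hx
      have := smooth_tail hk (u := t - P.mulVec x) (i := i) (by
        rw [Pi.sub_apply, abs_sub_comm]
        exact hi.le)
      linarith
  rw [integral_indicator hmeas2, integral_sub (hK.integrable hcont2) (integrable_const _),
    integral_const, probReal_univ, one_smul] at h4
  linarith

end Crest.Agent.R225U
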