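import Crest.Agent.R225U.DesignEx
import Crest.Agent.R225U.Prep
import Crest.Agent.R225U.Smooth
import Crest.Agent.R225U.Horiz
import Crest.Agent.R225U.CovT
import Crest.Agent.R225U.Iso

/-!
Row 225 (S0347): final assembly.
-/

set_option autoImplicit false

open MeasureTheory Filter

namespace Crest.Agent.R225U

lemma final_loglog (A : ℝ) :
    ∀ᶠ n : ℕ in atTop, A * (3 * Real.log (Real.log n)) ^ 100 ≤ Real.log n := by
  have h1 : (fun x : ℝ => Real.log x ^ 100) =o[atTop] id := Real.isLittleO_pow_log_id_atTop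
  have h2 : Tendsto (fun n : ℕ => Real.log n) atTop atTop :=
    Real.tendsto_log_atTop.comp tendsto_natCast_atTop_atTop
  have hpos : (0 : ℝ) < (|A| + 1) * 3 ^ 100 := by positivity
  have h3 := h1.bound (c := ((|A| + 1) * 3 ^ 100)⁻¹) (inv_pos.2 hpos)
  filter_upwards [h2.eventually h3, h2.eventually_ge_atTop 0] with n hn hn0
  have he : 0 ≤ Real.log (Real.log n) ^ 100 := Even.pow_nonneg (by decide) _
  rw [Real.norm_of_nonneg he, id, Real.norm_of_nonneg hn0, ← div_eq_inv_mul,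
    le_div_iff₀ hpos] at hn
  calc A * (3 * Real.log (Real.log n)) ^ 100
      = A * 3 ^ 100 * Real.log (Real.log n) ^ 100 := by ring
    _ ≤ (|A| + 1) * 3 ^ 100 * Real.log (Real.log n) ^ 100 := by
        gcongr
        linarith [le_abs_self A]
    _ ≤ Real.log n := by linarith

/-- large dimensions -/
theorem cov_large : ∃ (C : ℝ) (n₁ : ℕ), ∀ n : ℕ, n₁ ≤ n → ∀ K : Set (Fin n → ℝ), IsoBody K →
    Cov K (C * n * Real.log n) := by
  obtain ⟨c₀, hc₀, m₀, hdes⟩ := design_exists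
  obtain ⟨C₁, n₀, hhor⟩ := horiz c₀ hc₀
  obtain ⟨C₂, hsm⟩ := smooth_lower
  have h2 : Tendsto (fun n : ℕ => 3 * Real.log (Real.log n)) atTop atTop :=
    (Real.tendsto_log_atTop.comp (Real.tendsto_log_atTop.comp
      tendsto_natCast_atTop_atTop)).const_mul_atTop (by norm_num)
  have hev : ∀ᶠ n : ℕ in atTop, (|C₂| + 3) * (3 * Real.log (Real.log n)) ^ 100 ≤ Real.log n ∧
      m₀ ≤ 3 * Real.log (Real.log n) ∧ 1 ≤ 3 * Real.log (Real.log n) ∧ n₀ ≤ n ∧ 5 ≤ n :=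
    (final_loglog _).and ((h2.eventually_ge_atTop _).and ((h2.eventually_ge_atTop _).and
      ((eventually_ge_atTop _).and (eventually_ge_atTop _))))
  obtain ⟨n₁, hn₁⟩ := eventually_atTop.1 hev
  refine ⟨C₁, n₁, fun n hn K hK => ?_⟩
  obtain ⟨hA, hm₀, hm1, hn₀, hn5⟩ := hn₁ n hn
  generalize hm : 3 * Real.log (Real.log n) = m at hA hm₀ hm1
  obtain ⟨k, hk1, hkm, hD⟩ := hdes m hm₀
  have hC := abs_nonneg C₂
  have hm100 : m ^ 5 ≤ m ^ 100 := pow_le_pow_right₀ hm1 (by norm_num)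
  have hm5 : 0 ≤ m ^ 5 := by positivity
  have h3 : 3 * m ^ 5 ≤ Real.log n := by nlinarith
  have hk20 : C₂ * (k : ℝ) ^ 20 ≤ Real.log n := by
    have h1 : (k : ℝ) ^ 20 ≤ m ^ 100 := by
      calc (k : ℝ) ^ 20 ≤ (m ^ 5) ^ 20 := by gcongr
        _ = m ^ 100 := by ring
    have h2 : C₂ * (k : ℝ) ^ 20 ≤ |C₂| * (k : ℝ) ^ 20 := by
      gcongr; exact le_abs_self _
    have h3 : |C₂| * (k : ℝ) ^ 20 ≤ |C₂| * m ^ 100 := by gcongr
    nlinarith
  have hnpos : (0 : ℝ) < n := by exact_mod_cast (by omega : 0 < n)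
  have h16 : 16 ^ k ≤ n := by
    have h1 : (16 : ℝ) ≤ Real.exp 3 := by
      have := Real.exp_one_gt_d9
      have h : Real.exp 3 = Real.exp 1 ^ 3 := by rw [← Real.exp_nat_mul]; norm_num
      rw [h]
      have : (2.7 : ℝ) ^ 3 ≤ Real.exp 1 ^ 3 := by gcongr; linarith
      linarith [show (16 : ℝ) ≤ 2.7 ^ 3 by norm_num]
    have h2 : (16 : ℝ) ^ k ≤ n := by
      calc (16 : ℝ) ^ k ≤ Real.exp 3 ^ k := by gcongr
        _ = Real.exp (3 * k) := by rw [← Real.exp_nat_mul]; ring_nf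
        _ ≤ Real.exp (Real.log n) := by gcongr; linarith
        _ = n := Real.exp_log hnpos
    exact_mod_cast h2
  have hkn : k ≤ n := le_trans (Nat.lt_pow_self (by norm_num : 1 < 16)).le h16
  obtain ⟨n', rfl⟩ : ∃ n', n = n' + k := ⟨n - k, by omega⟩
  obtain ⟨P, v, hv, hP⟩ := hsm k (n' + k) hk1 (by omega) hk20 K hK
  obtain ⟨Φ, hΦ⟩ := prepare hk1 hn5 hK P hv hP
  have hcast : ((n' + k : ℕ) : ℝ) = (n' : ℝ) + k := by push_cast; ring
  have hD' : IsDesign k (3 * Real.log (Real.log ((n' : ℝ) + k))) c₀ (Real.log ((n' : ℝ) + k)) := by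
    rw [← hcast, hm]
    exact hD.mono le_rfl hc₀ le_rfl (by linarith)
  have := hhor n' k hn₀ hk1 h16 hD' _ hΦ
  rw [hcast]
  refine Cov.of_equiv Φ 0 ?_
  simpa using this

/-- small dimensions -/
theorem cov_small {n : ℕ} (hn : 2 ≤ n) {K : Set (Fin n → ℝ)} (hK : IsoBody K) :
    Cov K ((8 * (n : ℝ) ^ 3) ^ n) := by
  have hn0 : (2 : ℝ) ≤ n := by exact_mod_cast hn
  have h := cov_of_round K (r := 1 / (4 * (n : ℝ) ^ 2)) (R := 2 * n) (by positivity) ?_ ?_
  · convert h using 2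
    field_simp
    ring
  · intro x hx i
    have h1 := hK.outer hn x hx
    have h2 : x i ^ 2 ≤ ∑ j, x j ^ 2 :=
      Finset.single_le_sum (f := fun j => x j ^ 2) (fun j _ => sq_nonneg _) (Finset.mem_univ i)
    exact abs_le_of_sq_le_sq' (by nlinarith) (by positivity) |> abs_le.2
  · intro x hx
    refine hK.inner hn x ?_
    have h1 : ∀ i, x i ^ 2 ≤ (1 / (4 * (n : ℝ) ^ 2)) ^ 2 := fun i => by
      rw [← sq_abs]; gcongr; exact hx i
    calc ∑ i, x i ^ 2 ≤ ∑ _i : Fin n, (1 / (4 * (n : ℝ) ^ 2)) ^ 2 :=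
          Finset.sum_le_sum fun i _ => h1 i
      _ = 1 / (16 * (n : ℝ) ^ 3) := by
          simp only [Finset.sum_const, Finset.card_univ, Fintype.card_fin, nsmul_eq_mul]
          field_simp
          ring
      _ ≤ 1 / (16 * (n : ℝ) ^ 2) := by
          gcongr
          · linarith
          · norm_num

theorem cov_all : ∃ C : ℝ, ∀ n : ℕ, 2 ≤ n → ∀ K : Set (Fin n → ℝ), IsCompact K → Convex ℝ K →
    (interior K).Nonempty → Cov K (C * n * Real.log n) := by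
  obtain ⟨C₁, n₁, h₁⟩ := cov_large
  refine ⟨|C₁| + ∑ j ∈ Finset.range n₁, (8 * (j : ℝ) ^ 3) ^ j, fun n hn K hc hv hi => ?_⟩
  obtain ⟨Φ, v, hK⟩ := exists_iso K hc hv hi
  refine Cov.of_equiv Φ v ?_
  have hn0 : (2 : ℝ) ≤ n := by exact_mod_cast hn
  have hlog : 1 / 2 ≤ Real.log n := by
    have := Real.log_two_gt_d9
    have h2 : Real.log 2 ≤ Real.log n := Real.log_le_log (by norm_num) hn0
    linarith
  have hS : 0 ≤ ∑ j ∈ Finset.range n₁, (8 * (j : ℝ) ^ 3) ^ j :=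
    Finset.sum_nonneg fun j _ => by positivity
  have hnl : 1 ≤ (n : ℝ) * Real.log n := by nlinarith
  by_cases h : n₁ ≤ n
  · refine (h₁ n h _ hK).mono ?_
    rw [mul_assoc, mul_assoc]
    gcongr
    linarith [le_abs_self C₁]
  · refine (cov_small hn hK).mono ?_
    have h1 : (8 * (n : ℝ) ^ 3) ^ n ≤ ∑ j ∈ Finset.range n₁, (8 * (j : ℝ) ^ 3) ^ j :=
      Finset.single_le_sum (f := fun j : ℕ => (8 * (j : ℝ) ^ 3) ^ j) (fun j _ => by positivity)
        (Finset.mem_range.2 (by omega))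
    rw [mul_assoc]
    have := abs_nonneg C₁
    nlinarith

end Crest.Agent.R225U
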