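import Crest.Agent.R225U.Bin

/-!
Row 225 (S0347): the glue lemma.
-/

set_option autoImplicit false

open Finset
open Crest.Agent.R153

namespace Crest.Agent.R225U

lemma glueX_nonneg {G : Type} [AddCommGroup G] (L : ℕ) (Rich : G → Prop) {F : G → ℝ}
    (hF0 : ∀ u, 0 ≤ F u) {w : ℤ → ℝ} (hw0 : ∀ a, 0 ≤ w a) (α τ : G) :
    0 ≤ glueX L Rich F w α τ :=
  Finset.sum_nonneg fun a _ => mul_nonneg (mul_nonneg (hw0 a) (hF0 _)) (ind_nonneg _)

/-- at most one candidate satisfies `Uniq` -/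
lemma glueX_le {G : Type} [AddCommGroup G] (L : ℕ) (Rich : G → Prop) {F : G → ℝ}
    (hF0 : ∀ u, 0 ≤ F u) {w : ℤ → ℝ} (hw0 : ∀ a, 0 ≤ w a) {η A : ℝ} (hwη : ∀ a, w a ≤ η)
    (hA0 : 0 ≤ A) (hA : ∀ u, η * F u ≤ A) (α τ : G) : glueX L Rich F w α τ ≤ A := by
  unfold glueX
  by_cases h : ∃ a ∈ Finset.Icc (-(L : ℤ)) L, Uniq L Rich α τ a
  · obtain ⟨a, ha, hu⟩ := h
    rw [Finset.sum_eq_single a]
    · rw [ind_pos hu, mul_one]
      exact (mul_le_mul_of_nonneg_right (hwη a) (hF0 _)).trans (hA _)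
    · intro a' _ hne
      rw [ind_neg, mul_zero]
      intro hu'
      exact hu'.2 a ha hne.symm hu.1
    · intro hh
      exact absurd ha hh
  · rw [Finset.sum_eq_zero]
    · exact hA0
    · intro a ha
      rw [ind_neg fun hu => h ⟨a, ha, hu⟩, mul_zero]

section aux

variable {G : Type} [Fintype G] [AddCommGroup G]

lemma glue_shift (f g : G → ℝ) (x y : G) :
    (av fun τ : G => f (τ + x) * g (τ + y)) = av fun σ : G => f σ * g (σ + (y - x)) := by
  rw [← av_add_right (fun σ : G => f σ * g (σ + (y - x))) x]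
  refine av_congr fun τ => ?_
  congr 2
  abel

/-- two distinct candidates are independent and uniform -/
lemma glue_pair {a a' : ℤ} (hd : Function.Bijective (fun x : G => (a' - a) • x)) (f g : G → ℝ) :
    (av fun α : G => av fun τ : G => f (τ + a • α) * g (τ + a' • α)) = av f * av g := by
  simp only [glue_shift, ← sub_smul]
  rw [av_comm, ← av_mul_const]
  refine av_congr fun σ => ?_
  rw [av_const_mul]
  congr 1
  rw [← av_add_left g σ]
  exact av_equiv (Equiv.ofBijective _ hd) (fun x => g (σ + x))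

/-- the sum over all candidates -/
noncomputable def glueAll (L : ℕ) (F : G → ℝ) (w : ℤ → ℝ) (α τ : G) : ℝ :=
  ∑ a ∈ Finset.Icc (-(L : ℤ)) L, w a * F (τ + a • α)

lemma glue_av_all (L : ℕ) (F : G → ℝ) (w : ℤ → ℝ) (α : G) :
    av (glueAll L F w α) = (∑ a ∈ Finset.Icc (-(L : ℤ)) L, w a) * av F := by
  unfold glueAll
  rw [av_sum, Finset.sum_mul]
  refine Finset.sum_congr rfl fun a _ => ?_
  rw [av_const_mul, av_add_right]

omit [Fintype G] in
lemma glue_le_all (L : ℕ) (Rich : G → Prop) {F : G → ℝ} (hF0 : ∀ u, 0 ≤ F u) {w : ℤ → ℝ}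
    (hw0 : ∀ a, 0 ≤ w a) (α τ : G) : glueX L Rich F w α τ ≤ glueAll L F w α τ :=
  Finset.sum_le_sum fun a _ =>
    mul_le_of_le_one_right (mul_nonneg (hw0 a) (hF0 _)) (ind_le_one _)

omit [Fintype G] in
lemma glue_all_sub_le (L : ℕ) (Rich : G → Prop) {F : G → ℝ} (hF0 : ∀ u, 0 ≤ F u)
    (hFR : ∀ u, ¬ Rich u → F u = 0) {w : ℤ → ℝ} (hw0 : ∀ a, 0 ≤ w a) (α τ : G) :
    glueAll L F w α τ - glueX L Rich F w α τ ≤
      ∑ a ∈ Finset.Icc (-(L : ℤ)) L, ∑ a' ∈ (Finset.Icc (-(L : ℤ)) L).erase a,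
        w a * (F (τ + a • α) * ind (Rich (τ + a' • α))) := by
  unfold glueAll glueX
  rw [← Finset.sum_sub_distrib]
  refine Finset.sum_le_sum fun a _ => ?_
  have hnn : ∀ a' ∈ (Finset.Icc (-(L : ℤ)) L).erase a,
      0 ≤ w a * (F (τ + a • α) * ind (Rich (τ + a' • α))) := fun a' _ =>
    mul_nonneg (hw0 a) (mul_nonneg (hF0 _) (ind_nonneg _))
  by_cases hu : Uniq L Rich α τ a
  · rw [ind_pos hu, mul_one, sub_self]
    exact Finset.sum_nonneg hnn
  rw [ind_neg hu, mul_zero, sub_zero]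
  by_cases hr : Rich (τ + a • α)
  · have : ∃ a' ∈ Finset.Icc (-(L : ℤ)) L, a' ≠ a ∧ Rich (τ + a' • α) := by
      by_contra hcon
      exact hu ⟨hr, fun a' ha' hne hh => hcon ⟨a', ha', hne, hh⟩⟩
    obtain ⟨a', ha', hne, hr'⟩ := this
    refine le_trans (le_of_eq ?_) (Finset.single_le_sum hnn (Finset.mem_erase.2 ⟨hne, ha'⟩))
    rw [ind_pos hr', mul_one]
  · rw [hFR _ hr, mul_zero]
    rw [hFR _ hr] at hnn
    exact Finset.sum_nonneg hnn

lemma glue_delta (L : ℕ)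
    (hG : ∀ d : ℤ, d ≠ 0 → |d| ≤ 4 * L → Function.Bijective (fun x : G => d • x))
    (Rich : G → Prop) {F : G → ℝ} (hF0 : ∀ u, 0 ≤ F u) (hFR : ∀ u, ¬ Rich u → F u = 0)
    (hF1 : av F ≤ 1) {w : ℤ → ℝ} (hw0 : ∀ a, 0 ≤ w a)
    (hw1 : ∑ a ∈ Finset.Icc (-(L : ℤ)) L, w a ≤ 1) :
    (av fun α : G => av fun τ : G => glueAll L F w α τ - glueX L Rich F w α τ) ≤
      (2 * L + 1) * av (fun u => ind (Rich u)) := by
  refine le_trans (av_mono fun α => av_mono fun τ => glue_all_sub_le L Rich hF0 hFR hw0 α τ) ?_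
  simp only [av_sum, av_const_mul]
  set r := av (fun u => ind (Rich u)) with hr
  have hr0 : 0 ≤ r := av_nonneg fun _ => ind_nonneg _
  have hcard : ((Finset.Icc (-(L : ℤ)) L).card : ℝ) = 2 * L + 1 := by
    rw [Int.card_Icc]
    have : ((L : ℤ) + 1 - -(L : ℤ)).toNat = 2 * L + 1 := by omega
    rw [this]
    push_cast
    ring
  calc _ ≤ ∑ a ∈ Finset.Icc (-(L : ℤ)) L, w a * ((2 * L + 1) * r) := by
        refine Finset.sum_le_sum fun a ha => ?_
        rw [← Finset.mul_sum]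
        refine mul_le_mul_of_nonneg_left ?_ (hw0 a)
        calc _ ≤ ∑ _a' ∈ (Finset.Icc (-(L : ℤ)) L).erase a, r := by
              refine Finset.sum_le_sum fun a' ha' => ?_
              have h1 := Finset.mem_Icc.1 ha
              have h2 := Finset.mem_Icc.1 (Finset.mem_of_mem_erase ha')
              have h3 := Finset.ne_of_mem_erase ha'
              rw [glue_pair (hG _ (sub_ne_zero.2 h3) (abs_le.2 ⟨by omega, by omega⟩)) F
                (fun u => ind (Rich u))]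
              exact mul_le_of_le_one_left hr0 hF1
          _ ≤ ∑ _a' ∈ Finset.Icc (-(L : ℤ)) L, r :=
              Finset.sum_le_sum_of_subset_of_nonneg (Finset.erase_subset _ _) fun _ _ _ => hr0
          _ = _ := by rw [Finset.sum_const, nsmul_eq_mul, hcard]
    _ ≤ _ := by
        rw [← Finset.sum_mul]
        exact mul_le_of_le_one_left (by positivity) hw1

/-- centred autocorrelation -/
noncomputable def glueK (F : G → ℝ) (v : G) : ℝ := (av fun τ => F τ * F (τ + v)) - av F ^ 2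

lemma glue_av_H (F : G → ℝ) : (av fun v : G => av fun τ => F τ * F (τ + v)) = av F ^ 2 := by
  rw [av_comm, sq, ← av_mul_const]
  refine av_congr fun τ => ?_
  rw [av_const_mul, av_add_left]

lemma glue_av_K (F : G → ℝ) : av (glueK F) = 0 := by
  unfold glueK
  rw [av_sub, glue_av_H, av_const, sub_self]

lemma glue_av_K_sq (F : G → ℝ) :
    av (fun v => glueK F v * glueK F v) ≤ av fun v => (av fun τ => F τ * F (τ + v)) ^ 2 := by
  have h : ∀ v, glueK F v * glueK F v = (av fun τ => F τ * F (τ + v)) ^ 2 -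
      (2 * av F ^ 2 * (av fun τ => F τ * F (τ + v)) - av F ^ 4) := fun v => by
    unfold glueK; ring
  simp only [h]
  rw [av_sub, av_sub, av_const_mul, glue_av_H, av_const]
  have : 0 ≤ av F ^ 4 := by positivity
  nlinarith

lemma glue_C_eq (L : ℕ) (F : G → ℝ) (w : ℤ → ℝ) (α v : G) :
    (av fun τ => glueAll L F w α τ * glueAll L F w α (τ + v)) -
        ((∑ a ∈ Finset.Icc (-(L : ℤ)) L, w a) * av F) ^ 2 =
      ∑ a ∈ Finset.Icc (-(L : ℤ)) L, ∑ a' ∈ Finset.Icc (-(L : ℤ)) L,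
        w a * w a' * glueK F (v + (a' - a) • α) := by
  unfold glueAll glueK
  simp only [Finset.sum_mul_sum, av_sum, mul_sub, Finset.sum_sub_distrib]
  congr 1
  · refine Finset.sum_congr rfl fun a _ => Finset.sum_congr rfl fun a' _ => ?_
    have : v + (a' - a) • α = (v + a' • α) - a • α := by rw [sub_smul]; abel
    rw [this, ← glue_shift, ← av_const_mul]
    refine av_congr fun τ => ?_
    rw [add_assoc]
    ring
  · rw [mul_pow, sq (∑ a ∈ _, w a), Finset.sum_mul_sum, Finset.sum_mul]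
    exact Finset.sum_congr rfl fun a _ => Finset.sum_mul _ _ _

lemma glue_energy (L : ℕ)
    (hG : ∀ d : ℤ, d ≠ 0 → |d| ≤ 4 * L → Function.Bijective (fun x : G => d • x))
    (F : G → ℝ) {w : ℤ → ℝ} {η : ℝ} (hw0 : ∀ a, 0 ≤ w a) (hwη : ∀ a, w a ≤ η)
    (hw1 : ∑ a ∈ Finset.Icc (-(L : ℤ)) L, w a ≤ 1) :
    (av fun α : G => av fun v : G =>
      (∑ a ∈ Finset.Icc (-(L : ℤ)) L, ∑ a' ∈ Finset.Icc (-(L : ℤ)) L,
        w a * w a' * glueK F (v + (a' - a) • α)) ^ 2) ≤
      η * av fun v => (av fun τ => F τ * F (τ + v)) ^ 2 := by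
  set I := Finset.Icc (-(L : ℤ)) L with hI
  set E := av (fun v => glueK F v * glueK F v) with hE
  have hE0 : 0 ≤ E := av_nonneg fun v => mul_self_nonneg _
  have hη : 0 ≤ η := (hw0 0).trans (hwη 0)
  have hexp : ∀ α v : G, (∑ a ∈ I, ∑ a' ∈ I, w a * w a' * glueK F (v + (a' - a) • α)) ^ 2 =
      ∑ a ∈ I, ∑ a' ∈ I, ∑ b ∈ I, ∑ b' ∈ I, w a * w a' * w b * w b' *
        (glueK F (v + (a' - a) • α) * glueK F (v + (b' - b) • α)) := by
    intro α v
    rw [sq, Finset.sum_mul]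
    refine Finset.sum_congr rfl fun a _ => ?_
    rw [Finset.sum_mul]
    refine Finset.sum_congr rfl fun a' _ => ?_
    rw [Finset.mul_sum]
    refine Finset.sum_congr rfl fun b _ => ?_
    rw [Finset.mul_sum]
    refine Finset.sum_congr rfl fun b' _ => ?_
    ring
  simp only [hexp, av_sum, av_const_mul]
  have hterm : ∀ a ∈ I, ∀ a' ∈ I, ∀ b ∈ I, ∀ b' ∈ I,
      (av fun α : G => av fun v : G => glueK F (v + (a' - a) • α) * glueK F (v + (b' - b) • α)) =
        if b' = a' - a + b then E else 0 := by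
    intro a ha a' ha' b hb b' hb'
    split_ifs with h
    · have : b' - b = a' - a := by omega
      rw [this]
      simp only [av_add_right (fun v => glueK F v * glueK F v)]
      rw [av_const]
    · have h1 := Finset.mem_Icc.1 ha
      have h2 := Finset.mem_Icc.1 ha'
      have h3 := Finset.mem_Icc.1 hb
      have h4 := Finset.mem_Icc.1 hb'
      rw [glue_pair (hG _ (by omega) (abs_le.2 ⟨by omega, by omega⟩)), glue_av_K, mul_zero]
  have hW0 : 0 ≤ ∑ a ∈ I, w a := Finset.sum_nonneg fun a _ => hw0 a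
  calc _ ≤ ∑ a ∈ I, ∑ a' ∈ I, ∑ b ∈ I, w a * (w a' * (w b * (η * E))) := by
        refine Finset.sum_le_sum fun a ha => Finset.sum_le_sum fun a' ha' =>
          Finset.sum_le_sum fun b hb => ?_
        rw [Finset.sum_congr rfl fun b' hb' => by rw [hterm a ha a' ha' b hb b' hb']]
        simp only [mul_ite, mul_zero, Finset.sum_ite_eq']
        have h0 : 0 ≤ w a * w a' * w b := mul_nonneg (mul_nonneg (hw0 a) (hw0 a')) (hw0 b)
        split_ifs
        · have := mul_le_mul_of_nonneg_left (mul_le_mul_of_nonneg_right (hwη (a' - a + b)) hE0) h0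
          linarith
        · have := mul_nonneg h0 (mul_nonneg hη hE0)
          linarith
    _ = (∑ a ∈ I, w a) * ((∑ a ∈ I, w a) * ((∑ a ∈ I, w a) * (η * E))) := by
        simp only [← Finset.mul_sum, ← Finset.sum_mul]
    _ ≤ η * E := by
        have h0 : 0 ≤ η * E := mul_nonneg hη hE0
        exact (mul_le_of_le_one_left (by positivity) hw1).trans
          ((mul_le_of_le_one_left (by positivity) hw1).trans (mul_le_of_le_one_left h0 hw1))
    _ ≤ _ := mul_le_mul_of_nonneg_left (glue_av_K_sq F) hη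

end aux

/-- Let `X α = glueX ..`, `Xall α τ = ∑ a, w a * F (τ + a • α) ≥ X α τ`, `x̄ = (∑ w) * av F = av (Xall α) ≤ 1`,
`Δ α = x̄ - av (X α) ≥ 0`, `H v = av_τ F τ F (τ + v)`, `C α v = av_τ Xall τ Xall (τ+v) - x̄² =
∑ a a', w a w a' (H (v + (a'-a) • α) - (av F)²)`.  Then `av_α Δ ≤ lam` (for `a ≠ a'` the pair
`(τ + a • α, τ + a' • α)` is uniform on `G²`, and `F` vanishes off `Rich`), and
`av_α av_v (C α v)² ≤ η * av H² ≤ Ξ` (terms with different differences `d ≠ d'`, `|d - d'| ≤ 4L`, are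
uncorrelated because `av H = (av F)²`).  Choose `α` with `Δ/lam + av_v C²/Ξ ≤ 2`.  Finally
`av_τ (x̄ - X τ)(x̄ - X (τ+v)) ≤ C α v + 2 x̄ Δ ≤ C α v + 4 lam`, and Chebyshev in `v`. -/
theorem glue {G : Type} [Fintype G] [AddCommGroup G] (L : ℕ)
    (hG : ∀ d : ℤ, d ≠ 0 → |d| ≤ 4 * L → Function.Bijective (fun x : G => d • x))
    (Rich : G → Prop) (F : G → ℝ) (hF0 : ∀ u, 0 ≤ F u) (hFR : ∀ u, ¬ Rich u → F u = 0)
    (hF1 : av F ≤ 1) (w : ℤ → ℝ) {η : ℝ} (hw0 : ∀ a, 0 ≤ w a) (hwη : ∀ a, w a ≤ η)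
    (hw1 : ∑ a ∈ Finset.Icc (-(L : ℤ)) L, w a ≤ 1) {lam Ξ ε₂ : ℝ} (hlam : 0 < lam) (hΞ : 0 < Ξ)
    (hε₂ : 0 < ε₂) (hR : (2 * L + 1) * av (fun u => ind (Rich u)) ≤ lam)
    (hE : η * av (fun v => (av fun τ => F τ * F (τ + v)) ^ 2) ≤ Ξ) :
    ∃ α : G, av (fun v => ind (ε₂ + 4 * lam < av fun τ =>
      ((∑ a ∈ Finset.Icc (-(L : ℤ)) L, w a) * av F - glueX L Rich F w α τ) *
      ((∑ a ∈ Finset.Icc (-(L : ℤ)) L, w a) * av F - glueX L Rich F w α (τ + v)))) ≤
        2 * Ξ / ε₂ ^ 2 := by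
  set x := (∑ a ∈ Finset.Icc (-(L : ℤ)) L, w a) * av F with hx
  have hx0 : 0 ≤ x := mul_nonneg (Finset.sum_nonneg fun a _ => hw0 a) (av_nonneg hF0)
  have hx1 : x ≤ 1 := mul_le_one₀ hw1 (av_nonneg hF0) hF1
  let Δ : G → ℝ := fun α => av fun τ : G => glueAll L F w α τ - glueX L Rich F w α τ
  let C : G → G → ℝ := fun α v =>
    (av fun τ => glueAll L F w α τ * glueAll L F w α (τ + v)) - x ^ 2
  have hΔ0 : ∀ α, 0 ≤ Δ α := fun α =>
    av_nonneg fun τ => sub_nonneg.2 (glue_le_all L Rich hF0 hw0 α τ)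
  have hΔ : av Δ ≤ lam := (glue_delta L hG Rich hF0 hFR hF1 hw0 hw1).trans hR
  have hC : (av fun α => av fun v => C α v ^ 2) ≤ Ξ := by
    simp only [C, hx, glue_C_eq]
    exact (glue_energy L hG F hw0 hwη hw1).trans hE
  obtain ⟨α, hα⟩ := exists_le_av fun α => Δ α / lam + (av fun v => C α v ^ 2) / Ξ
  rw [av_add, av_div_const, av_div_const] at hα
  have h1 : av Δ / lam ≤ 1 := (div_le_one hlam).2 hΔ
  have h2 : (av fun α => av fun v => C α v ^ 2) / Ξ ≤ 1 := (div_le_one hΞ).2 hC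
  have h3 : 0 ≤ Δ α / lam := div_nonneg (hΔ0 α) hlam.le
  have h4 : 0 ≤ (av fun v => C α v ^ 2) / Ξ := div_nonneg (av_nonneg fun _ => sq_nonneg _) hΞ.le
  have h5 : Δ α ≤ 2 * lam := (div_le_iff₀ hlam).1 (by linarith)
  have h6 : (av fun v => C α v ^ 2) ≤ 2 * Ξ := (div_le_iff₀ hΞ).1 (by linarith)
  have hX : av (glueX L Rich F w α) = x - Δ α := by
    simp only [Δ]
    rw [av_sub, glue_av_all, ← hx]
    ring
  refine ⟨α, le_trans (av_mono fun v => ind_mono (q := ε₂ ^ 2 ≤ C α v ^ 2) fun h => ?_)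
    ((av_ind_le_div (fun v => sq_nonneg (C α v)) (pow_pos hε₂ 2)).trans
      (div_le_div_of_nonneg_right h6 (sq_nonneg _)))⟩
  have h7 : (av fun τ => (x - glueX L Rich F w α τ) * (x - glueX L Rich F w α (τ + v))) ≤
      av fun τ => glueAll L F w α τ * glueAll L F w α (τ + v) +
        (x ^ 2 - (x * glueX L Rich F w α τ + x * glueX L Rich F w α (τ + v))) := by
    refine av_mono fun τ => ?_
    have := mul_le_mul (glue_le_all L Rich hF0 hw0 α τ) (glue_le_all L Rich hF0 hw0 α (τ + v))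
      (glueX_nonneg L Rich hF0 hw0 α _)
      ((glueX_nonneg L Rich hF0 hw0 α _).trans (glue_le_all L Rich hF0 hw0 α τ))
    linarith
  rw [av_add, av_sub, av_add, av_const_mul, av_const_mul, av_const,
    av_add_right (glueX L Rich F w α) v, hX] at h7
  have h8 : x * Δ α ≤ 2 * lam := (mul_le_of_le_one_left (hΔ0 α) hx1).trans h5
  have h9 : ε₂ ≤ C α v := by
    simp only [C]
    linarith
  exact pow_le_pow_left₀ hε₂.le h9 2

end Crest.Agent.R225U
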