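import Crest.Agent.R225U.FinCover

/-!
Row 225 (S0347): horizontal step, geometric part.
-/

set_option autoImplicit false

open MeasureTheory Finset
open Crest.Agent.R153

namespace Crest.Agent.R225U

/-- grid discretisation of a bounded set -/
lemma horizGeo_grid {n : ℕ} (S : Set (Fin n → ℝ)) {R ε : ℝ} (hε : 0 < ε)
    (hS : ∀ u ∈ S, ∀ i, |u i| ≤ R) :
    ∃ A : Finset (Fin n → ℤ), BlockClosed A ∧
      (∀ x ∈ A, ∃ u ∈ S, ∀ i, |ε * x i - u i| ≤ 2 * ε) ∧
      (volume S).toReal ≤ A.card * ε ^ n := by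
  classical
  have hb : ∀ (x : ℤ) (u : ℝ), x / 2 = ⌊u / ε⌋ / 2 → |ε * x - u| ≤ 2 * ε := by
    intro x u h
    have h1 : x ≤ ⌊u / ε⌋ + 1 := by omega
    have h2 : ⌊u / ε⌋ - 1 ≤ x := by omega
    have h1' : (x : ℝ) ≤ ⌊u / ε⌋ + 1 := by exact_mod_cast h1
    have h2' : (⌊u / ε⌋ : ℝ) - 1 ≤ x := by exact_mod_cast h2
    have h3 := Int.floor_le (u / ε)
    have h4 := Int.lt_floor_add_one (u / ε)
    have h5 : u = ε * (u / ε) := by field_simp
    rw [abs_le]
    constructor <;> nlinarith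
  obtain ⟨N, hN⟩ := exists_nat_ge (R / ε + 2)
  set A : Finset (Fin n → ℤ) := (Fintype.piFinset fun _ => Finset.Icc (-(N : ℤ)) N).filter
    fun x => ∃ u ∈ S, ∀ i, x i / 2 = ⌊u i / ε⌋ / 2 with hA
  have hmem : ∀ x, x ∈ A ↔ ∃ u ∈ S, ∀ i, x i / 2 = ⌊u i / ε⌋ / 2 := by
    intro x
    rw [hA, Finset.mem_filter, and_iff_right_iff_imp]
    rintro ⟨u, hu, h⟩
    rw [Fintype.mem_piFinset]
    intro i
    have h1 := abs_le.1 (hb _ _ (h i))
    have h2 := abs_le.1 (hS u hu i)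
    have h3 : R + 2 * ε ≤ N * ε := by
      have := mul_le_mul_of_nonneg_right hN hε.le
      rwa [add_mul, div_mul_cancel₀ _ hε.ne'] at this
    have h4 : (x i : ℝ) ≤ N := le_of_mul_le_mul_left (by nlinarith) hε
    have h5 : -(N : ℝ) ≤ x i := le_of_mul_le_mul_left (by nlinarith) hε
    rw [Finset.mem_Icc]
    exact ⟨by exact_mod_cast h5, by exact_mod_cast h4⟩
  refine ⟨A, fun x hx y hy => ?_, fun x hx => ?_, ?_⟩
  · obtain ⟨u, hu, h⟩ := (hmem x).1 hx
    exact (hmem y).2 ⟨u, hu, fun i => (hy i).trans (h i)⟩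
  · obtain ⟨u, hu, h⟩ := (hmem x).1 hx
    exact ⟨u, hu, fun i => hb _ _ (h i)⟩
  · set box : (Fin n → ℤ) → Set (Fin n → ℝ) := fun x =>
      Set.pi Set.univ fun i => Set.Ico (ε * x i) (ε * x i + ε) with hbox
    have hsub : S ⊆ ⋃ x ∈ A, box x := by
      intro u hu
      refine Set.mem_iUnion₂.2 ⟨fun i => ⌊u i / ε⌋, (hmem _).2 ⟨u, hu, fun i => rfl⟩, ?_⟩
      intro i _
      have h3 := Int.floor_le (u i / ε)
      have h4 := Int.lt_floor_add_one (u i / ε)
      have h5 : u i = ε * (u i / ε) := by field_simp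
      constructor <;> nlinarith
    have hvol : ∀ x, volume (box x) = ENNReal.ofReal (ε ^ n) := by
      intro x
      rw [hbox]
      simp only [Real.volume_pi_Ico, add_sub_cancel_left, Finset.prod_const, Finset.card_univ,
        Fintype.card_fin]
      rw [ENNReal.ofReal_pow hε.le]
    have h1 : volume S ≤ ENNReal.ofReal (A.card * ε ^ n) := by
      refine (measure_mono hsub).trans ((measure_biUnion_finset_le _ _).trans (le_of_eq ?_))
      simp only [hvol, Finset.sum_const, nsmul_eq_mul]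
      rw [ENNReal.ofReal_mul (Nat.cast_nonneg _), ENNReal.ofReal_natCast]
    exact ENNReal.toReal_le_of_le_ofReal (by positivity) h1

/-- absorbing a small perturbation by a dilation -/
lemma horizGeo_absorb {ι : Type} {K : Set (ι → ℝ)} (hK : Convex ℝ K) {n : ℝ} (hn : 0 < n)
    (hin : ∀ x : ι → ℝ, (∀ i, |x i| ≤ 1 / n ^ 4) → x ∈ K) {y d : ι → ℝ} (hy : y ∈ K)
    (hd : ∀ i, |d i| ≤ 1 / n ^ 5) : (1 + n⁻¹)⁻¹ • (y + d) ∈ K := by
  have h1 : n • d ∈ K := hin _ fun i => by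
    rw [Pi.smul_apply, smul_eq_mul, abs_mul, abs_of_pos hn]
    calc n * |d i| ≤ n * (1 / n ^ 5) := mul_le_mul_of_nonneg_left (hd i) hn.le
      _ = 1 / n ^ 4 := by field_simp
  have h2 := hK hy h1 (a := (1 + n⁻¹)⁻¹) (b := (n + 1)⁻¹) (by positivity) (by positivity)
    (by field_simp)
  convert h2 using 1
  rw [smul_add, smul_smul]
  congr 2
  field_simp

/-- the lattice assembly -/
lemma horizGeo_cov {n' k : ℕ} (hk : 1 ≤ k) {B : Matrix (Fin k) (Fin k) ℝ} (hB : 0 < B.det)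
    {K : Set (Fin n' ⊕ Fin k → ℝ)} {ε W : ℝ} (hε : 0 < ε) (hW : 0 < W) {T : Type}
    [AddCommGroup T] [Fintype T] (H : (Fin n' ⊕ Fin k → ℤ) →+ T) (hH : Function.Surjective H)
    (hvol : (volume K).toReal = W * (ε ^ n' * B.det * Fintype.card T))
    (hcov : ∀ y : Fin n' ⊕ Fin k → ℝ, ∃ v, H v = 0 ∧ (1 + ((n' : ℝ) + k)⁻¹)⁻¹ •
      (y - Sum.elim (fun i => ε * (v (Sum.inl i) : ℝ))
        (B.mulVec fun i => (v (Sum.inr i) : ℝ))) ∈ K) :
    Cov K (3 * W) := by
  obtain ⟨M, hM, hker⟩ := kernel_basis H hH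
  have hn : (0 : ℝ) < (n' : ℝ) + k := by
    have : (1 : ℝ) ≤ k := by exact_mod_cast hk
    positivity
  set lam : ℝ := 1 + ((n' : ℝ) + k)⁻¹ with hlam
  have hlam0 : 0 < lam := by positivity
  set D : Matrix (Fin n' ⊕ Fin k) (Fin n' ⊕ Fin k) ℝ :=
    Matrix.fromBlocks (ε • (1 : Matrix (Fin n') (Fin n') ℝ)) 0 0 B with hD
  set M' : Matrix (Fin n' ⊕ Fin k) (Fin n' ⊕ Fin k) ℝ := M.map (Int.castRingHom ℝ) with hM'
  have hdetM : |M'.det| = Fintype.card T := by
    have : M'.det = (M.det : ℝ) := by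
      rw [hM']
      exact ((Int.castRingHom ℝ).map_det M).symm
    rw [this, ← hM, Nat.cast_natAbs, Int.cast_abs]
  have hT : (0 : ℝ) < Fintype.card T := by exact_mod_cast Fintype.card_pos
  have hdet : |(lam⁻¹ • (D * M')).det| = (lam ^ (n' + k))⁻¹ * (ε ^ n' * B.det * Fintype.card T) := by
    rw [Matrix.det_smul, Matrix.det_mul, hD, Matrix.det_fromBlocks_zero₂₁, Matrix.det_smul,
      Matrix.det_one, mul_one, abs_mul, abs_mul, hdetM, abs_of_pos (by positivity),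
      abs_of_pos (by positivity)]
    simp
  have hpos : 0 < ε ^ n' * B.det * Fintype.card T := by positivity
  refine ⟨lam⁻¹ • (D * M'), ?_, fun y => ?_, ?_⟩
  · rw [← abs_pos, hdet]; positivity
  · obtain ⟨v, hv, hmem⟩ := hcov (lam • y)
    obtain ⟨z, rfl⟩ := hker v hv
    refine ⟨z, ?_⟩
    convert hmem using 1
    rw [smul_sub, smul_smul, inv_mul_cancel₀ hlam0.ne', one_smul, Matrix.smul_mulVec,
      ← Matrix.mulVec_mulVec]
    have e : M'.mulVec (fun i => (z i : ℝ)) = fun i => ((M.mulVec z i : ℤ) : ℝ) := by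
      funext i
      simp [hM', Matrix.mulVec, dotProduct]
    rw [e, hD, Matrix.fromBlocks_mulVec]
    congr 3
    · funext i
      simp [Matrix.smul_mulVec]
    · simp
      rfl
  · rw [hdet, hvol, mul_div_mul_right _ _ hpos.ne', div_inv_eq_mul, mul_comm]
    refine mul_le_mul_of_nonneg_right ?_ hW.le
    have h1 := Real.one_add_inv_pow_le_exp (n := n' + k)
    rw [Nat.cast_add] at h1
    exact h1.trans Real.exp_one_lt_three.le

/-- Let `n = n' + k`.  Each `Z π` is nonempty (`c > 0`); fix `z* π ∈ Z π`.  For `s` let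
`(π, z₀)` be given by `cover`, and `cell s = (π, fun i => ⌊res B s z₀ (z* π) i / δ⌋)`; there are at
most `card ι * (2k/δ + 2)^k` cells.  Tasks = cells that occur, each with a representative `s°`.
For a task and `z ∈ Z π` let `t° = res B s° z₀° z` and
`A = {x | ∃ u ∈ slice K t°, ∀ i, x i / 2 = ⌊u i / ε⌋ / 2}` (finite, block closed, differences
`< B₀` as `|u i| ≤ 2n`); `slice K t° ⊆ ⋃_{x ∈ A} ε (x + [0,1)^{n'})`, so
`#A ε^{n'} ≥ vol (slice) ≥ gv 1 t° vol K / 11 ≥ (W w π z / 11) ε^{n'} p^μ`.  Apply `fin_cover` with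
weights `W * w π z / 11 ≤ wm` and `Wt = W c / 11`.  `H (x, z) = dotz a x + dotz ψ z` is onto
`Fin μ → ZMod p` (`H (x, -z) = τ`); `kernel_basis` gives `M`.  For a point `(u, s)`, `x₀ = ⌊u/ε⌋`,
`τ = dotz a x₀ + dotz ψ z₀`, get `z, x'` with `dotz a x' = τ + dotz ψ z`, so `(x₀ - x', z₀ + z) ∈ ker H`
and `(u - ε (x₀ - x'), res B s z₀ z) ∈ K + [-3ε,3ε]^{n'} × [-δ,δ]^k ⊆ (1 + 1/n) K` (`inner`,
convexity).  So `g = (1 + 1/n)⁻¹ • fromBlocks (ε • 1) 0 0 B * M` works, and `(1+1/n)^n ≤ 3`. -/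
theorem horiz_geo {n' k : ℕ} (hk : 1 ≤ k) {m c : ℝ} (hc : 0 < c) {ι : Type} [Fintype ι]
    {B : Matrix (Fin k) (Fin k) ℝ} {Z : ι → Finset (Fin k → ℤ)} {w : ι → (Fin k → ℤ) → ℝ}
    (hD : DesignOn m c B Z w) {K : Set (Fin n' ⊕ Fin k → ℝ)} (hK : Prepared n' k K)
    {ε δ W wm : ℝ} (hε : 0 < ε) (hδ : 0 < δ) (hW : 0 < W)
    (hε' : 3 * ε ≤ 1 / ((n' : ℝ) + k) ^ 5) (hδ' : δ ≤ 1 / ((n' : ℝ) + k) ^ 5)
    {p μ B₀ : ℕ} [Fact p.Prime] (hB₀ : 4 * ((n' : ℝ) + k) / ε + 5 ≤ B₀) (hp : B₀ ^ 2 < p)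
    (hμ : 2 ^ n' ≤ p ^ μ) (hvol : (volume K).toReal = W * (ε ^ n' * B.det * (p : ℝ) ^ μ))
    (hwm : W * (c * Real.exp (-m)) / 11 ≤ wm)
    (hsmall : (10 * wm + 10) * Real.log (p * (wm + 1)) ≤ n' / 60)
    (hcount : (Fintype.card ι : ℝ) * (2 * k / δ + 2) ^ k *
      (3 * ((p : ℝ) ^ μ * Real.exp (-(W * c / 11))) ^ ((1 / 2 : ℝ) ^ k)) < 1) :
    Cov K (3 * W) := by
  classical
  have hn : (0 : ℝ) < (n' : ℝ) + k := by
    have : (1 : ℝ) ≤ k := by exact_mod_cast hk
    positivity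
  have hp1 : (1 : ℝ) ≤ p := by exact_mod_cast (Fact.out : p.Prime).one_lt.le
  have hZ : ∀ π, (Z π).Nonempty := fun π => by
    rw [Finset.nonempty_iff_ne_empty]
    intro h
    have := hD.mass π
    rw [h, Finset.sum_empty] at this
    linarith
  choose zs hzs using hZ
  choose π z₀ hcov using hD.cover
  set cell : (Fin k → ℝ) → ι × (Fin k → ℤ) := fun s =>
    (π s, fun i => ⌊res B s (z₀ s) (zs (π s)) i / δ⌋) with hcell
  set C : Finset (ι × (Fin k → ℤ)) := Finset.univ ×ˢ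
    Fintype.piFinset fun _ : Fin k => Finset.Icc ⌊-(k : ℝ) / δ⌋ ⌊(k : ℝ) / δ⌋ with hC
  have hcellC : ∀ s, cell s ∈ C := by
    intro s
    rw [hC, Finset.mem_product]
    refine ⟨Finset.mem_univ _, Fintype.mem_piFinset.2 fun i => ?_⟩
    have := abs_le.1 ((hcov s _ (hzs (π s))).2 i)
    exact Finset.mem_Icc.2 ⟨Int.floor_mono (div_le_div_of_nonneg_right this.1 hδ.le),
      Int.floor_mono (div_le_div_of_nonneg_right this.2 hδ.le)⟩
  have hCcard : (C.card : ℝ) ≤ (Fintype.card ι : ℝ) * (2 * k / δ + 2) ^ k := by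
    rw [hC, Finset.card_product, Finset.card_univ, Fintype.card_piFinset, Finset.prod_const,
      Finset.card_univ, Fintype.card_fin, Nat.cast_mul, Nat.cast_pow]
    refine mul_le_mul_of_nonneg_left (pow_le_pow_left₀ (Nat.cast_nonneg _) ?_ _)
      (Nat.cast_nonneg _)
    have hk0 : (0 : ℝ) ≤ k / δ := by positivity
    have h0 : ⌊-(k : ℝ) / δ⌋ ≤ ⌊(k : ℝ) / δ⌋ + 1 := by
      have : ⌊-(k : ℝ) / δ⌋ ≤ ⌊(k : ℝ) / δ⌋ := Int.floor_mono (by rw [neg_div]; linarith)
      omega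
    have h1 : ((Finset.Icc ⌊-(k : ℝ) / δ⌋ ⌊(k : ℝ) / δ⌋).card : ℝ)
        = ⌊(k : ℝ) / δ⌋ + 1 - ⌊-(k : ℝ) / δ⌋ := by
      exact_mod_cast Int.card_Icc_of_le _ _ h0
    have h3 := Int.floor_le ((k : ℝ) / δ)
    have h4 := Int.lt_floor_add_one (-(k : ℝ) / δ)
    rw [h1, mul_div_assoc]
    rw [neg_div] at h4 ⊢
    linarith
  set C' := C.filter fun c => ∃ s, cell s = c with hC'
  have hrep : ∀ τ : C', ∃ s, cell s = τ := fun τ => (Finset.mem_filter.1 τ.2).2
  choose rep hrep using hrep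
  have hgrid := fun t : Fin k → ℝ => horizGeo_grid (slice K t) hε
    (R := 2 * ((n' : ℝ) + k)) fun u hu i => hK.outer _ hu i
  choose A hA1 hA2 hA3 using hgrid
  obtain ⟨a, ψ, hfc⟩ := fin_cover (p := p) (n := n') (μ := μ) (k := k) B₀ hp hμ (ι := C')
    (fun τ => Z (π (rep τ))) (fun τ => hD.bin _)
    (fun τ z => A (res B (rep τ) (z₀ (rep τ)) z)) (fun τ z => W * w (π (rep τ)) z / 11)
    (fun τ z _ => hA1 _)
    (by
      intro τ z _ x hx y hy i
      obtain ⟨u, hu, h1⟩ := hA2 _ x hx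
      obtain ⟨u', hu', h2⟩ := hA2 _ y hy
      have k1 := abs_le.1 (h1 i)
      have k2 := abs_le.1 (h2 i)
      have k3 : |u i| ≤ 2 * ((n' : ℝ) + k) := hK.outer _ hu i
      have k4 : |u' i| ≤ 2 * ((n' : ℝ) + k) := hK.outer _ hu' i
      rw [abs_le] at k3 k4
      have k5 : 4 * ((n' : ℝ) + k) + 5 * ε ≤ B₀ * ε := by
        have := mul_le_mul_of_nonneg_right hB₀ hε.le
        rwa [add_mul, div_mul_cancel₀ _ hε.ne'] at this
      have k6 : (x i : ℝ) - y i < B₀ := lt_of_mul_lt_mul_left (a := ε) (by nlinarith) hε.le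
      have k7 : -(B₀ : ℝ) < x i - y i := lt_of_mul_lt_mul_left (a := ε) (by nlinarith) hε.le
      rw [abs_lt]
      exact ⟨by exact_mod_cast k7, by exact_mod_cast k6⟩)
    (fun τ z hz => by have := hD.w_nonneg _ z hz; positivity)
    (by
      intro τ z hz
      obtain ⟨k1, k2⟩ := hcov (rep τ) z hz
      have k3 := (hK.marg _ k2).trans (hA3 _)
      rw [hvol] at k3
      have k4 : 0 < ε ^ n' := by positivity
      refine le_of_mul_le_mul_right (le_trans ?_ k3) k4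
      have k5 : 0 ≤ W * ε ^ n' * (p : ℝ) ^ μ / 11 := by positivity
      have := mul_le_mul_of_nonneg_right k1 k5
      linarith)
    (by
      intro τ z hz
      have k1 := hD.w_nonneg _ z hz
      have k2 : W * w (π (rep τ)) z / 11 ≤ wm :=
        le_trans (by gcongr; exact hD.w_le _ z hz) hwm
      have k0 : 0 ≤ W * w (π (rep τ)) z / 11 := by positivity
      refine le_trans (mul_le_mul (by linarith) (Real.log_le_log (by positivity) (by gcongr))
        (Real.log_nonneg (by nlinarith)) (by linarith)) hsmall)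
    (W * c / 11)
    (by
      intro τ
      rw [← Finset.sum_div, ← Finset.mul_sum]
      gcongr
      exact hD.mass _)
    (by
      refine lt_of_le_of_lt (mul_le_mul_of_nonneg_right ?_ (by positivity)) hcount
      rw [Fintype.card_coe]
      exact le_trans (by exact_mod_cast Finset.card_filter_le _ _) hCcard)
  have hcellC' : ∀ s, cell s ∈ C' := fun s => Finset.mem_filter.2 ⟨hcellC s, s, rfl⟩
  let H : (Fin n' ⊕ Fin k → ℤ) →+ (Fin μ → ZMod p) :=
    AddMonoidHom.mk' (fun v => dotz a (v ∘ Sum.inl) + dotz ψ (v ∘ Sum.inr)) (by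
      intro v v'
      rw [Pi.add_comp, Pi.add_comp, dotz_add, dotz_add]
      abel)
  have hH : ∀ x z, H (Sum.elim x z) = dotz a x + dotz ψ z := fun x z => rfl
  refine horizGeo_cov hk hD.det_pos hε hW H (fun τ => ?_) ?_ fun y => ?_
  · obtain ⟨z, -, x, -, h⟩ := hfc ⟨_, hcellC' 0⟩ τ
    exact ⟨Sum.elim x (-z), by rw [hH, dotz_neg, h]; abel⟩
  · rw [hvol]
    simp
  · set s : Fin k → ℝ := fun i => y (Sum.inr i) with hs
    set x₀ : Fin n' → ℤ := fun i => ⌊y (Sum.inl i) / ε⌋ with hx₀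
    obtain ⟨z, hz, x', hx', h⟩ := hfc ⟨_, hcellC' s⟩ (dotz a x₀ + dotz ψ (z₀ s))
    set s' := rep ⟨_, hcellC' s⟩ with hs'
    have hcs : cell s' = cell s := hrep ⟨_, hcellC' s⟩
    obtain ⟨u, hu, hxu⟩ := hA2 _ x' hx'
    refine ⟨Sum.elim (x₀ - x') (z₀ s + z), by rw [hH, dotz_sub, dotz_add, h]; abel, ?_⟩
    have key := horizGeo_absorb hK.convex hn hK.inner (y := Sum.elim u (res B s' (z₀ s') z))
      (d := Sum.elim (fun i => y (Sum.inl i) - ε * ((x₀ i - x' i : ℤ) : ℝ) - u i)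
        (res B s (z₀ s) z - res B s' (z₀ s') z)) hu ?_
    · convert key using 2
      funext i
      rcases i with i | i
      · simp
      · simp [res, hs]
    · rintro (i | i)
      · have h3 := Int.floor_le (y (Sum.inl i) / ε)
        have h4 := Int.lt_floor_add_one (y (Sum.inl i) / ε)
        have h5 : y (Sum.inl i) = ε * (y (Sum.inl i) / ε) := by field_simp
        have h6 := abs_le.1 (hxu i)
        refine le_trans ?_ hε'
        simp only [Sum.elim_inl, hx₀]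
        push_cast
        rw [abs_le]
        constructor <;> nlinarith
      · refine le_trans ?_ hδ'
        have e1 : π s' = π s := congrArg Prod.fst hcs
        have e2 : ⌊res B s' (z₀ s') (zs (π s')) i / δ⌋ = ⌊res B s (z₀ s) (zs (π s)) i / δ⌋ :=
          congrFun (congrArg Prod.snd hcs) i
        rw [e1] at e2
        have e3 := Int.abs_sub_lt_one_of_floor_eq_floor e2.symm
        rw [← sub_div, abs_div, abs_of_pos hδ, div_lt_one hδ] at e3
        have e4 : ∀ (s z₀ : _) (z : Fin k → ℤ), res B s z₀ z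
            = s - B.mulVec (fun i => (z₀ i : ℝ)) - B.mulVec (fun i => (z i : ℝ)) := by
          intro s z₀ z
          rw [res, sub_sub, ← Matrix.mulVec_add]
          congr 2
          funext i
          simp
        simp only [Sum.elim_inr, e4, Pi.sub_apply] at e3 ⊢
        refine le_trans (le_of_eq ?_) e3.le
        congr 1
        ring

end Crest.Agent.R225U
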