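import Crest.Agent.R225U.Defs

/-!
Row 225 (S0347): sign-pattern hull lemma and adapted coordinates.
-/

set_option autoImplicit false

open MeasureTheory
open Crest.Agent.R153

namespace Crest.Agent.R225U

/-- Induction on a finset `S` of coordinates: for every `σ` there is `c ∈ C` with `c i = t i` on `S`
and the sign pattern `σ` off `S`. -/
theorem mem_of_signs {k : ℕ} {C : Set (Fin k → ℝ)} (hC : Convex ℝ C) (t : Fin k → ℝ)
    (h : ∀ σ : Fin k → Bool, ∃ c ∈ C, ∀ i, if σ i then t i ≤ c i else c i ≤ t i) : t ∈ C := by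
  classical
  have key : ∀ S : Finset (Fin k), ∀ σ : Fin k → Bool, ∃ c ∈ C, (∀ i ∈ S, c i = t i) ∧
      ∀ i, if σ i then t i ≤ c i else c i ≤ t i := by
    intro S
    induction S using Finset.induction_on with
    | empty => intro σ; simpa using h σ
    | insert j S _ ih =>
      intro σ
      obtain ⟨c₁, hc₁, e₁, s₁⟩ := ih (Function.update σ j true)
      obtain ⟨c₂, hc₂, e₂, s₂⟩ := ih (Function.update σ j false)
      have a₁ : t j ≤ c₁ j := by simpa using s₁ j
      have a₂ : c₂ j ≤ t j := by simpa using s₂ j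
      obtain ⟨a, b, ha, hb, hab, hj⟩ := (Convex.mem_Icc (a₂.trans a₁)).1 ⟨a₂, a₁⟩
      refine ⟨a • c₂ + b • c₁, hC hc₂ hc₁ ha hb hab, fun i hi => ?_, fun i => ?_⟩
      · rcases Finset.mem_insert.1 hi with rfl | hi
        · simpa using hj
        · simp only [Pi.add_apply, Pi.smul_apply, smul_eq_mul, e₁ i hi, e₂ i hi]
          rw [← add_mul, hab, one_mul]
      · simp only [Pi.add_apply, Pi.smul_apply, smul_eq_mul]
        by_cases hij : i = j
        · subst hij
          rw [hj]
          split_ifs <;> exact le_rfl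
        · have b₁ := s₁ i
          have b₂ := s₂ i
          rw [Function.update_of_ne hij] at b₁ b₂
          have e : t i = a * t i + b * t i := by rw [← add_mul, hab, one_mul]
          split_ifs at b₁ b₂ ⊢
          · nlinarith [mul_le_mul_of_nonneg_left b₁ hb, mul_le_mul_of_nonneg_left b₂ ha]
          · nlinarith [mul_le_mul_of_nonneg_left b₁ hb, mul_le_mul_of_nonneg_left b₂ ha]
  obtain ⟨c, hc, e, -⟩ := key Finset.univ (fun _ => true)
  rwa [show t = c from funext fun i => (e i (Finset.mem_univ i)).symm]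

/-- Complete a surjective `P` by an orthonormal basis of its kernel (work in
`EuclideanSpace ℝ (Fin (n' + k))`; the kernel has finrank `n'`; `inl` coordinates are the inner
products with the basis vectors; Bessel / Parseval). -/
theorem exists_coords {n' k : ℕ} (P : Matrix (Fin k) (Fin (n' + k)) ℝ)
    (hP : Function.Surjective P.mulVec) :
    ∃ Φ : (Fin (n' + k) → ℝ) ≃ₗ[ℝ] (Fin n' ⊕ Fin k → ℝ),
      (∀ x i, Φ x (Sum.inr i) = P.mulVec x i) ∧
      (∀ x, ∑ i, Φ x (Sum.inl i) ^ 2 ≤ ∑ i, x i ^ 2) ∧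
      (∀ x, P.mulVec x = 0 → ∑ i, Φ x (Sum.inl i) ^ 2 = ∑ i, x i ^ 2) := by
  let L : EuclideanSpace ℝ (Fin (n' + k)) →ₗ[ℝ] (Fin k → ℝ) :=
    P.mulVecLin ∘ₗ (WithLp.linearEquiv 2 ℝ (Fin (n' + k) → ℝ)).toLinearMap
  have hL : LinearMap.range L = ⊤ := by
    rw [LinearMap.range_eq_top]
    intro y
    obtain ⟨x, rfl⟩ := hP y
    exact ⟨WithLp.toLp 2 x, rfl⟩
  have hK : Module.finrank ℝ (LinearMap.ker L) = n' := by
    have := LinearMap.finrank_range_add_finrank_ker L
    rw [hL] at this
    simp only [finrank_top, Module.finrank_fintype_fun_eq_card, Fintype.card_fin,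
      finrank_euclideanSpace] at this
    omega
  let b : OrthonormalBasis (Fin n') ℝ (LinearMap.ker L) :=
    (stdOrthonormalBasis ℝ (LinearMap.ker L)).reindex (finCongr hK)
  let Φ₀ : (Fin (n' + k) → ℝ) →ₗ[ℝ] (Fin n' ⊕ Fin k → ℝ) :=
    { toFun := fun x => Sum.elim
        (fun i => inner ℝ (b i : EuclideanSpace ℝ (Fin (n' + k))) (WithLp.toLp 2 x)) (P.mulVec x)
      map_add' := fun x y => by
        funext i
        rcases i with i | i
        · simp [inner_add_right]
        · simp [Matrix.mulVec_add]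
      map_smul' := fun c x => by
        funext i
        rcases i with i | i
        · simp [inner_smul_right]
        · simp [Matrix.mulVec_smul] }
  have hn : ∀ x : Fin (n' + k) → ℝ, ‖(WithLp.toLp 2 x : EuclideanSpace ℝ (Fin (n' + k)))‖ ^ 2 =
      ∑ i, x i ^ 2 := fun x => by simp [EuclideanSpace.norm_sq_eq]
  have hpar : ∀ x, P.mulVec x = 0 → ∑ i, Φ₀ x (Sum.inl i) ^ 2 = ∑ i, x i ^ 2 := by
    intro x hx
    have hmem : (WithLp.toLp 2 x : EuclideanSpace ℝ (Fin (n' + k))) ∈ LinearMap.ker L := hx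
    rw [← hn]
    exact b.sum_sq_inner_right ⟨_, hmem⟩
  have hinj : Function.Injective Φ₀ := by
    rw [injective_iff_map_eq_zero]
    intro x hx
    have h1 : P.mulVec x = 0 := funext fun i => congrFun hx (Sum.inr i)
    have h2 := hpar x h1
    rw [hx] at h2
    simp only [Pi.zero_apply, ne_eq, OfNat.ofNat_ne_zero, not_false_eq_true, zero_pow,
      Finset.sum_const_zero] at h2
    funext i
    exact pow_eq_zero_iff two_ne_zero |>.1
      ((Finset.sum_eq_zero_iff_of_nonneg fun i _ => sq_nonneg (x i)).1 h2.symm i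
        (Finset.mem_univ i))
  refine ⟨Φ₀.linearEquivOfInjective hinj (by simp), fun x i => rfl, fun x => ?_, hpar⟩
  have ho : Orthonormal ℝ (fun i => (b i : EuclideanSpace ℝ (Fin (n' + k)))) :=
    (LinearMap.ker L).subtypeₗᵢ.orthonormal_comp_iff.2 b.orthonormal
  have := ho.sum_inner_products_le (WithLp.toLp 2 x) (s := Finset.univ)
  rw [hn] at this
  simp only [Real.norm_eq_abs, sq_abs] at this
  exact this

end Crest.Agent.R225U
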