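import Crest.Agent.R225U.Path

/-!
Row 225 (S0347): law of large numbers over all patterns and net points.
-/

set_option autoImplicit false

open Finset
open Crest.Agent.R153

namespace Crest.Agent.R225U

/-- Union bound.  Take `good v := av (Y τ * Y (τ + v)) ≤ ε₁`.  Average over `(ψ, x₀)` of
`∑ π, (∑ z z' ∈ Z π, z ≠ z', ind (¬ good (dotz ψ z' - dotz ψ z)) + ∑ j, ind (path event at τ = x₀ + o j))`
is at most the left side of `hfail` (`Bin.av_dotz_sub`, `Bin.card_le`, `path` with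
`M = ∑ z ∈ Z π, ω π z`, `av_add_right`), so it is `< 1`, hence `0`, for some `(ψ, x₀)`. -/
theorem lln {G : Type} [Fintype G] [AddCommGroup G] {ι κ' : Type} [Fintype ι] [Fintype κ'] {k : ℕ}
    (Z : ι → Finset (Fin k → ℤ)) (hZ : ∀ π, Bin (Z π)) (ω : ι → (Fin k → ℤ) → ℝ) (o : κ' → G)
    (Y : G → ℝ) {A₂ ε₁ ωm τ₀ Q₀ κ dm ε ρ c d : ℝ} (R t : ℕ) (hR : 2 ≤ R)
    (hY : ∀ τ, Y τ ≤ 1) (hA : av (fun τ => Y τ ^ 2) ≤ A₂) (hε₁ : 0 ≤ ε₁)
    (hρ : av (fun v => ind (ε₁ < av fun τ => Y τ * Y (τ + v))) ≤ ρ)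
    (hωm : 0 ≤ ωm) (hQ : ωm < Q₀) (hτ : 0 < τ₀) (hκ : τ₀ ≤ κ * Q₀) (hdm : 0 < dm)
    (hε : A₂ * ωm / τ₀ + ε₁ ≤ ε * dm ^ 2)
    (h0 : ∀ π, ∀ z ∈ Z π, 0 ≤ ω π z) (h1 : ∀ π, ∀ z ∈ Z π, ω π z ≤ ωm)
    (hc : ∀ π, c ≤ ∑ z ∈ Z π, ω π z) (hd : 0 < d) (h8 : 8 ^ t * Q₀ ≤ c * d ^ R)
    (hdt : dm ≤ d * (1 - 1 / (R : ℝ)) ^ t)
    (hfail : (Fintype.card ι : ℝ) * (4 ^ k * ρ + Fintype.card κ' * (3 ^ k * ε ^ t)) < 1) :
    ∃ (ψ : Fin k → G) (x₀ : G), ∀ π j,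
      ∑ z ∈ Z π, ω π z * Y (x₀ + o j + dotz ψ z) < d * (1 + κ) ^ k * ∑ z ∈ Z π, ω π z := by
  classical
  let good : G → Prop := fun v => av (fun τ => Y τ * Y (τ + v)) ≤ ε₁
  let bad₁ : ι → (Fin k → G) → ℝ := fun π ψ =>
    ∑ z ∈ Z π, ∑ z' ∈ Z π, ind (z ≠ z' ∧ ¬ good (dotz ψ z' - dotz ψ z))
  let ev : ι → (Fin k → G) → G → Prop := fun π ψ τ =>
    (∀ z ∈ Z π, ∀ z' ∈ Z π, z ≠ z' → good (dotz ψ z' - dotz ψ z)) ∧
      d * (1 + κ) ^ k * (∑ z ∈ Z π, ω π z) ≤ ∑ z ∈ Z π, ω π z * Y (τ + dotz ψ z)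
  let F : (Fin k → G) × G → ℝ := fun x =>
    ∑ π, (bad₁ π x.1 + ∑ j, ind (ev π x.1 (x.2 + o j)))
  have hρ0 : 0 ≤ ρ := le_trans (av_nonneg fun _ => ind_nonneg _) hρ
  have hb1 : ∀ π, av (bad₁ π) ≤ 4 ^ k * ρ := by
    intro π
    have hcard : ((Z π).card : ℝ) ≤ 2 ^ k := by exact_mod_cast (hZ π).card_le
    have h1 : ∀ z ∈ Z π, ∀ z' ∈ Z π,
        av (fun ψ : Fin k → G => ind (z ≠ z' ∧ ¬ good (dotz ψ z' - dotz ψ z))) ≤ ρ := by
      intro z hz z' hz'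
      by_cases hne : z = z'
      · refine le_trans (le_of_eq ?_) hρ0
        simp [hne, ind_neg]
      · refine le_trans (le_of_eq ?_) hρ
        rw [← (hZ π).av_dotz_sub hz hz' hne (fun v => ind (ε₁ < av fun τ => Y τ * Y (τ + v)))]
        refine av_congr fun ψ => ind_congr ?_
        simp [good, hne]
    calc av (bad₁ π) = ∑ z ∈ Z π, ∑ z' ∈ Z π,
          av (fun ψ : Fin k → G => ind (z ≠ z' ∧ ¬ good (dotz ψ z' - dotz ψ z))) := by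
          simp only [bad₁]
          rw [av_sum]
          exact Finset.sum_congr rfl fun z _ => av_sum _ _
      _ ≤ ∑ z ∈ Z π, ∑ z' ∈ Z π, ρ :=
          Finset.sum_le_sum fun z hz => Finset.sum_le_sum fun z' hz' => h1 z hz z' hz'
      _ = ((Z π).card : ℝ) * ((Z π).card * ρ) := by simp
      _ ≤ 2 ^ k * (2 ^ k * ρ) := by gcongr
      _ = 4 ^ k * ρ := by rw [← mul_assoc, ← mul_pow]; norm_num
  have hb2 : ∀ π j, av (fun ψ : Fin k → G => av fun x : G => ind (ev π ψ (x + o j))) ≤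
      3 ^ k * ε ^ t := by
    intro π j
    have hQ0 : 0 < Q₀ := lt_of_le_of_lt hωm hQ
    have h8' : 8 ^ t * Q₀ ≤ (∑ z ∈ Z π, ω π z) * d ^ R :=
      h8.trans (mul_le_mul_of_nonneg_right (hc π) (by positivity))
    have := path Y good R hR hY hA (fun v hv => hv) hε₁ hωm hQ hτ hκ hdm hε k (Z π) (hZ π)
      (ω π) (h0 π) (h1 π) _ d t le_rfl hd h8' hdt
    refine le_trans (le_of_eq ?_) this
    exact av_congr fun ψ => av_add_right (fun τ => ind (ev π ψ τ)) (o j)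
  have hF : av F < 1 := by
    refine lt_of_le_of_lt ?_ hfail
    calc av F = ∑ π, (av (bad₁ π) +
          ∑ j, av (fun ψ : Fin k → G => av fun x : G => ind (ev π ψ (x + o j)))) := by
          simp only [F]
          rw [av_sum]
          refine Finset.sum_congr rfl fun π _ => ?_
          have e1 : (av fun x : (Fin k → G) × G => bad₁ π x.1) = av (bad₁ π) := by
            rw [av_prod]; simp
          have e2 : (av fun x : (Fin k → G) × G => ∑ j, ind (ev π x.1 (x.2 + o j))) =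
              ∑ j, av (fun ψ : Fin k → G => av fun x : G => ind (ev π ψ (x + o j))) := by
            rw [av_sum]
            exact Finset.sum_congr rfl fun j _ => av_prod _
          rw [av_add, e1, e2]
      _ ≤ ∑ _π : ι, (4 ^ k * ρ + ∑ _j : κ', 3 ^ k * ε ^ t) :=
          Finset.sum_le_sum fun π _ => add_le_add (hb1 π) (Finset.sum_le_sum fun j _ => hb2 π j)
      _ = _ := by simp [mul_add]
  obtain ⟨⟨ψ, x₀⟩, hx⟩ := exists_le_av F
  have hx1 : F (ψ, x₀) < 1 := lt_of_le_of_lt hx hF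
  have hb0 : ∀ π, 0 ≤ bad₁ π ψ := fun π =>
    Finset.sum_nonneg fun _ _ => Finset.sum_nonneg fun _ _ => ind_nonneg _
  have he0 : ∀ π, 0 ≤ ∑ j, ind (ev π ψ (x₀ + o j)) := fun π =>
    Finset.sum_nonneg fun _ _ => ind_nonneg _
  refine ⟨ψ, x₀, fun π j => ?_⟩
  have hπ : bad₁ π ψ + ∑ j, ind (ev π ψ (x₀ + o j)) < 1 :=
    lt_of_le_of_lt (Finset.single_le_sum
      (f := fun π => bad₁ π ψ + ∑ j, ind (ev π ψ (x₀ + o j)))
      (fun π _ => add_nonneg (hb0 π) (he0 π)) (Finset.mem_univ π)) hx1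
  have hgood : ∀ z ∈ Z π, ∀ z' ∈ Z π, z ≠ z' → good (dotz ψ z' - dotz ψ z) := by
    intro z hz z' hz' hne
    by_contra hng
    have h1 : (1 : ℝ) ≤ ∑ z' ∈ Z π, ind (z ≠ z' ∧ ¬ good (dotz ψ z' - dotz ψ z)) := by
      rw [← ind_pos (p := z ≠ z' ∧ ¬ good (dotz ψ z' - dotz ψ z)) ⟨hne, hng⟩]
      exact Finset.single_le_sum
        (f := fun z' => ind (z ≠ z' ∧ ¬ good (dotz ψ z' - dotz ψ z)))
        (fun _ _ => ind_nonneg _) hz'
    have h2 : ∑ z' ∈ Z π, ind (z ≠ z' ∧ ¬ good (dotz ψ z' - dotz ψ z)) ≤ bad₁ π ψ :=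
      Finset.single_le_sum
        (f := fun z => ∑ z' ∈ Z π, ind (z ≠ z' ∧ ¬ good (dotz ψ z' - dotz ψ z)))
        (fun _ _ => Finset.sum_nonneg fun _ _ => ind_nonneg _) hz
    linarith [he0 π]
  by_contra hcon
  have h1 : (1 : ℝ) ≤ ∑ j, ind (ev π ψ (x₀ + o j)) := by
    rw [← ind_pos (p := ev π ψ (x₀ + o j)) ⟨hgood, not_lt.1 hcon⟩]
    exact Finset.single_le_sum (f := fun j => ind (ev π ψ (x₀ + o j)))
      (fun _ _ => ind_nonneg _) (Finset.mem_univ j)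
  linarith [hb0 π]

end Crest.Agent.R225U
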