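import Crest.Agent.R225U.Bin

/-!
Row 225 (S0347): path lemma.
-/

set_option autoImplicit false

open Finset
open Crest.Agent.R153

namespace Crest.Agent.R225U

section PathAux

variable {T : Type} [Fintype T] [AddCommGroup T]

/-- all differences are good -/
def pathG (good : T → Prop) {j : ℕ} (Z : Finset (Fin j → ℤ)) (ψ : Fin j → T) : Prop :=
  ∀ z ∈ Z, ∀ z' ∈ Z, z ≠ z' → good (dotz ψ z' - dotz ψ z)

/-- collected mass -/
noncomputable def pathD (Y : T → ℝ) {j : ℕ} (Z : Finset (Fin j → ℤ)) (ω : (Fin j → ℤ) → ℝ)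
    (ψ : Fin j → T) (τ : T) : ℝ :=
  ∑ z ∈ Z, ω z * Y (τ + dotz ψ z)

/-- the probability of the path lemma -/
noncomputable def pathP (Y : T → ℝ) (good : T → Prop) {j : ℕ} (Z : Finset (Fin j → ℤ))
    (ω : (Fin j → ℤ) → ℝ) (x : ℝ) : ℝ :=
  av (fun ψ : Fin j → T => av fun τ : T => ind (pathG good Z ψ ∧ x ≤ pathD Y Z ω ψ τ))

/-- the two-children probability -/
noncomputable def pathP2 (Y : T → ℝ) (good : T → Prop) {j : ℕ} (Z₀ Z₁ : Finset (Fin j → ℤ))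
    (ω₀ ω₁ : (Fin j → ℤ) → ℝ) (x : ℝ) : ℝ :=
  av (fun ψ : Fin j → T => av fun σ₀ : T => av fun σ₁ : T =>
    ind (pathG good Z₀ ψ ∧ pathG good Z₁ ψ ∧ x ≤ pathD Y Z₀ ω₀ ψ σ₀ + pathD Y Z₁ ω₁ ψ σ₁))

variable {Y : T → ℝ} {good : T → Prop}

omit [Fintype T] in
lemma pathD_le (hY : ∀ τ, Y τ ≤ 1) {j : ℕ} {Z : Finset (Fin j → ℤ)} {ω : (Fin j → ℤ) → ℝ}
    (h0 : ∀ z ∈ Z, 0 ≤ ω z) (ψ : Fin j → T) (τ : T) : pathD Y Z ω ψ τ ≤ ∑ z ∈ Z, ω z :=
  Finset.sum_le_sum fun z hz => mul_le_of_le_one_right (h0 z hz) (hY _)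

lemma pathP_le_one {j : ℕ} (Z : Finset (Fin j → ℤ)) (ω : (Fin j → ℤ) → ℝ) (x : ℝ) :
    pathP Y good Z ω x ≤ 1 :=
  av_le_of_le fun _ => av_le_of_le fun _ => ind_le_one _

lemma pathP_nonneg {j : ℕ} (Z : Finset (Fin j → ℤ)) (ω : (Fin j → ℤ) → ℝ) (x : ℝ) :
    0 ≤ pathP Y good Z ω x :=
  av_nonneg fun _ => av_nonneg fun _ => ind_nonneg _

lemma pathP_empty (hY : ∀ τ, Y τ ≤ 1) {j : ℕ} {Z : Finset (Fin j → ℤ)} {ω : (Fin j → ℤ) → ℝ}
    (h0 : ∀ z ∈ Z, 0 ≤ ω z) {x : ℝ} (hx : ∑ z ∈ Z, ω z < x) : pathP Y good Z ω x ≤ 0 :=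
  av_le_of_le fun ψ => av_le_of_le fun τ =>
    (ind_neg fun h => absurd (h.2.trans (pathD_le hY h0 ψ τ)) (not_le.2 hx)).le

lemma pathP_mono {j : ℕ} (Z : Finset (Fin j → ℤ)) (ω : (Fin j → ℤ) → ℝ) {x y : ℝ} (h : x ≤ y) :
    pathP Y good Z ω y ≤ pathP Y good Z ω x :=
  av_mono fun _ => av_mono fun _ => ind_mono fun h' => ⟨h'.1, h.trans h'.2⟩

lemma pathP2_comm {j : ℕ} (Z₀ Z₁ : Finset (Fin j → ℤ)) (ω₀ ω₁ : (Fin j → ℤ) → ℝ) (x : ℝ) :
    pathP2 Y good Z₀ Z₁ ω₀ ω₁ x = pathP2 Y good Z₁ Z₀ ω₁ ω₀ x := by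
  unfold pathP2
  refine av_congr fun ψ => ?_
  rw [av_comm]
  refine av_congr fun σ₁ => av_congr fun σ₀ => ind_congr ?_
  rw [add_comm]
  tauto

omit [Fintype T] in
lemma pathG_child {j : ℕ} {Z : Finset (Fin (j + 1) → ℤ)} {a : T} {ψ : Fin j → T}
    (h : pathG good Z (Fin.cons a ψ : Fin (j + 1) → T)) (c : ℤ) : pathG good (child Z c) ψ := by
  intro z hz z' hz' hne
  have := h _ (mem_child.1 hz) _ (mem_child.1 hz') (fun h' => hne (Fin.cons_right_injective _ h'))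
  rwa [dotz_cons, dotz_cons, add_sub_add_left_eq_sub] at this

lemma pathP_split {j : ℕ} {Z : Finset (Fin (j + 1) → ℤ)} {c : ℤ}
    (hc : ∀ z ∈ Z, z 0 = c ∨ z 0 = c + 1) (ω : (Fin (j + 1) → ℤ) → ℝ) (x : ℝ) :
    pathP Y good Z ω x ≤ pathP2 Y good (child Z c) (child Z (c + 1))
      (fun z => ω (Fin.cons c z)) (fun z => ω (Fin.cons (c + 1) z)) x := by
  unfold pathP pathP2
  rw [av_fin_cons, av_comm]
  refine av_mono fun ψ => ?_
  refine le_of_le_of_eq ?_ (av_two_children c _)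
  refine av_mono fun a => av_mono fun τ => ind_mono fun h => ?_
  refine ⟨pathG_child h.1 c, pathG_child h.1 (c + 1), h.2.trans (le_of_eq ?_)⟩
  unfold pathD
  rw [sum_split_gen hc]
  simp only [dotz_cons, add_assoc]

lemma path_cheb {A₂ ε₁ ωm : ℝ} (hA : av (fun τ => Y τ ^ 2) ≤ A₂)
    (hgood : ∀ v, good v → av (fun τ => Y τ * Y (τ + v)) ≤ ε₁) (hε₁ : 0 ≤ ε₁)
    {j : ℕ} {Z : Finset (Fin j → ℤ)} {ω : (Fin j → ℤ) → ℝ}
    (h0 : ∀ z ∈ Z, 0 ≤ ω z) (h1 : ∀ z ∈ Z, ω z ≤ ωm) {ψ : Fin j → T} (hG : pathG good Z ψ)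
    {x : ℝ} (hx : 0 < x) :
    av (fun σ => ind (x ≤ pathD Y Z ω ψ σ)) ≤
      (A₂ * ωm * (∑ z ∈ Z, ω z) + ε₁ * (∑ z ∈ Z, ω z) ^ 2) / x ^ 2 := by
  classical
  have hA0 : 0 ≤ A₂ := (av_nonneg fun τ => sq_nonneg _).trans hA
  have s1 : av (fun σ => ind (x ≤ pathD Y Z ω ψ σ)) ≤
      av (fun σ => ind (x ^ 2 ≤ pathD Y Z ω ψ σ ^ 2)) :=
    av_mono fun σ => ind_mono fun h => pow_le_pow_left₀ hx.le h 2
  refine s1.trans ((av_ind_le_div (fun σ => sq_nonneg _) (by positivity)).trans ?_)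
  refine div_le_div_of_nonneg_right ?_ (by positivity)
  have e : ∀ σ, pathD Y Z ω ψ σ ^ 2 = ∑ z ∈ Z, ∑ z' ∈ Z,
      ω z * ω z' * (Y (σ + dotz ψ z) * Y (σ + dotz ψ z')) := fun σ => by
    unfold pathD
    rw [sq, Finset.sum_mul_sum]
    exact Finset.sum_congr rfl fun z _ => Finset.sum_congr rfl fun z' _ => by ring
  simp only [e, av_sum, av_const_mul]
  have b : ∀ z ∈ Z, ∀ z' ∈ Z, ω z * ω z' * av (fun σ => Y (σ + dotz ψ z) * Y (σ + dotz ψ z')) ≤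
      (if z = z' then A₂ * ωm * ω z else 0) + ε₁ * (ω z * ω z') := by
    intro z hz z' hz'
    have hzz : 0 ≤ ω z * ω z' := mul_nonneg (h0 z hz) (h0 z' hz')
    split_ifs with hzz'
    · subst hzz'
      have h2 : av (fun σ => Y (σ + dotz ψ z) * Y (σ + dotz ψ z)) ≤ A₂ := by
        refine le_of_eq_of_le ?_ hA
        rw [← av_add_right (fun τ => Y τ ^ 2) (dotz ψ z)]
        exact av_congr fun σ => (sq _).symm
      have h3 := mul_le_mul_of_nonneg_left h2 hzz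
      have h4 : ω z * ω z * A₂ ≤ A₂ * ωm * ω z := by
        have := mul_le_mul_of_nonneg_left (h1 z hz) (mul_nonneg hA0 (h0 z hz))
        nlinarith
      have h5 := mul_nonneg hε₁ hzz
      linarith
    · have h2 : av (fun σ => Y (σ + dotz ψ z) * Y (σ + dotz ψ z')) ≤ ε₁ := by
        refine le_of_eq_of_le ?_ (hgood _ (hG z hz z' hz' hzz'))
        rw [← av_add_right (fun τ => Y τ * Y (τ + (dotz ψ z' - dotz ψ z))) (dotz ψ z)]
        refine av_congr fun σ => ?_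
        congr 2
        abel
      have h3 := mul_le_mul_of_nonneg_left h2 hzz
      linarith
  refine (Finset.sum_le_sum fun z hz => Finset.sum_le_sum fun z' hz' => b z hz z' hz').trans
    (le_of_eq ?_)
  simp only [Finset.sum_add_distrib, Finset.sum_ite_eq, ← Finset.mul_sum]
  rw [sq, ← Finset.sum_mul, Finset.mul_sum Z ω (A₂ * ωm)]
  congr 1
  exact Finset.sum_congr rfl fun z hz => if_pos hz

lemma pathP2_small (hY : ∀ τ, Y τ ≤ 1) {j : ℕ} (Z₀ : Finset (Fin j → ℤ))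
    {Z₁ : Finset (Fin j → ℤ)} (ω₀ : (Fin j → ℤ) → ℝ) {ω₁ : (Fin j → ℤ) → ℝ}
    (h0 : ∀ z ∈ Z₁, 0 ≤ ω₁ z) {x y : ℝ} (hxy : y + ∑ z ∈ Z₁, ω₁ z ≤ x) :
    pathP2 Y good Z₀ Z₁ ω₀ ω₁ x ≤ pathP Y good Z₀ ω₀ y := by
  refine av_mono fun ψ => av_mono fun σ₀ => av_le_of_le fun σ₁ => ind_mono fun h => ⟨h.1, ?_⟩
  have := pathD_le hY h0 ψ σ₁
  linarith [h.2.2]

lemma pathP2_three {j : ℕ} (Z₀ Z₁ : Finset (Fin j → ℤ)) (ω₀ ω₁ : (Fin j → ℤ) → ℝ)
    {x a₀ a₁ b₀ b₁ ε : ℝ} (hε : 0 ≤ ε) (h₀ : b₀ + a₁ ≤ x) (h₁ : a₀ + b₁ ≤ x)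
    (hch : ∀ ψ, pathG good Z₁ ψ → av (fun σ => ind (a₁ ≤ pathD Y Z₁ ω₁ ψ σ)) ≤ ε) :
    pathP2 Y good Z₀ Z₁ ω₀ ω₁ x ≤
      pathP Y good Z₀ ω₀ a₀ * ε + pathP Y good Z₀ ω₀ b₀ + pathP Y good Z₁ ω₁ b₁ := by
  unfold pathP pathP2
  rw [← av_mul_const, ← av_add, ← av_add]
  refine av_mono fun ψ => ?_
  have hch' : av (fun σ => ind (pathG good Z₁ ψ ∧ a₁ ≤ pathD Y Z₁ ω₁ ψ σ)) ≤ ε := by
    by_cases hG : pathG good Z₁ ψ
    · exact (av_mono fun σ => ind_mono fun h => h.2).trans (hch ψ hG)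
    · exact av_le_of_le fun σ => by rw [ind_neg fun h => hG h.1]; exact hε
  have s1 : (av fun σ₀ : T => av fun σ₁ : T =>
      ind (pathG good Z₀ ψ ∧ pathG good Z₁ ψ ∧ x ≤ pathD Y Z₀ ω₀ ψ σ₀ + pathD Y Z₁ ω₁ ψ σ₁)) ≤
      av fun σ₀ : T => av fun σ₁ : T =>
        ind (pathG good Z₀ ψ ∧ a₀ ≤ pathD Y Z₀ ω₀ ψ σ₀) *
          ind (pathG good Z₁ ψ ∧ a₁ ≤ pathD Y Z₁ ω₁ ψ σ₁) +
        ind (pathG good Z₀ ψ ∧ b₀ ≤ pathD Y Z₀ ω₀ ψ σ₀) +
        ind (pathG good Z₁ ψ ∧ b₁ ≤ pathD Y Z₁ ω₁ ψ σ₁) := by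
    refine av_mono fun σ₀ => av_mono fun σ₁ => ?_
    rw [← ind_and]
    refine le_trans (ind_mono ?_) ((ind_or_le _ _).trans (add_le_add (ind_or_le _ _) le_rfl))
    rintro ⟨g₀, g₁, hx⟩
    by_cases c₁ : a₁ ≤ pathD Y Z₁ ω₁ ψ σ₁
    · by_cases c₀ : a₀ ≤ pathD Y Z₀ ω₀ ψ σ₀
      · exact Or.inl (Or.inl ⟨⟨g₀, c₀⟩, g₁, c₁⟩)
      · exact Or.inr ⟨g₁, by linarith [not_le.1 c₀]⟩
    · exact Or.inl (Or.inr ⟨g₀, by linarith [not_le.1 c₁]⟩)
  refine s1.trans ?_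
  simp only [av_add, av_const, av_const_mul, av_mul_const]
  have := mul_le_mul_of_nonneg_left hch'
    (av_nonneg fun σ₀ => ind_nonneg (pathG good Z₀ ψ ∧ a₀ ≤ pathD Y Z₀ ω₀ ψ σ₀))
  linarith

lemma path_quarter {R : ℕ} (hR : 2 ≤ R) : 1 / 4 ≤ (1 - 1 / (R : ℝ)) ^ R := by
  have hR' : (2 : ℝ) ≤ R := by exact_mod_cast hR
  have h1 : (1 : ℝ) / R ≤ 1 := by rw [div_le_one (by linarith)]; linarith
  have h := one_add_mul_self_le_rpow_one_add (s := -(1 / (R : ℝ))) (by linarith)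
    (p := (R : ℝ) / 2) (by linarith)
  have e : 1 + (R : ℝ) / 2 * -(1 / (R : ℝ)) = 1 / 2 := by
    field_simp
    ring
  rw [e, ← sub_eq_add_neg] at h
  have h2 := pow_le_pow_left₀ (by norm_num) h 2
  rw [← Real.rpow_natCast, ← Real.rpow_natCast, ← Real.rpow_mul (by linarith)] at h2
  have e2 : (R : ℝ) / 2 * ((2 : ℕ) : ℝ) = R := by push_cast; ring
  rw [e2, Real.rpow_natCast, Real.rpow_natCast] at h2
  linarith

lemma path_bern {R : ℕ} (hR : 2 ≤ R) {M₀ M₁ d : ℝ} (h₀ : 0 < M₀) (h₁ : 0 ≤ M₁) (hd : 0 ≤ d) :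
    (M₀ + M₁) * d ^ R ≤ M₀ * (d * (1 + M₁ / M₀ / R)) ^ R := by
  have hR' : (2 : ℝ) ≤ R := by exact_mod_cast hR
  have hx : 0 ≤ M₁ / M₀ / R := by positivity
  have h := one_add_mul_le_pow (a := M₁ / M₀ / R) (by linarith) R
  have e : M₀ + M₁ = M₀ * (1 + R * (M₁ / M₀ / R)) := by field_simp
  rw [e, mul_pow, mul_assoc, mul_comm (d ^ R)]
  exact mul_le_mul_of_nonneg_left (mul_le_mul_of_nonneg_right h (by positivity)) h₀.le

end PathAux

/-- Path lemma.  Write `D Z ψ τ = ∑ z ∈ Z, ω z * Y (τ + dotz ψ z) ≤ mass Z ≤ M`.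
Induction on `j` generalising `Z ω M d t`.  If `t = 0` the bound is trivial; if `d > 1` the event
is empty; so let `d ≤ 1`, hence `d * M ≥ d ^ R * M ≥ Q₀`.  `j = 0`: `D ≤ ωm < Q₀ ≤ d M`, empty event.
Step: split into two children (`Bin.exists_first`, `sum_split_gen`, `av_fin_cons`, `dotz_cons`,
`av_two_children`: the two shifts are independent uniform; the situation is then symmetric in the
two children).  Let `Z₁` be a child of mass `M₁ ≤ M / 2`, `M₀ = M - M₁ ≥ mass Z₀`,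
`e = (1 + κ) ^ j`.  If `M₁ < τ₀` then `D₀ ≥ d (1+κ) e M - τ₀ ≥ d e M`: induction for `(Z₀, M, d, t)`.
Otherwise one of three events holds:
(A) `D₀ ≥ d(1-1/R) e M₀` and `D₁ ≥ d (1-1/R) e M₁ ≥ dm * M₁`: for fixed tail `ψ'` that is good for
`Z₁`, Chebyshev gives probability `≤ (A₂ ωm M₁ + ε₁ M₁²)/(dm M₁)² ≤ ε` for the second event;
induction for `(Z₀, M₀, d(1-1/R), t-1)` using `M₀ ≥ M/2`, `(1-1/R)^R ≥ 1/4`;
(B) `D₀ ≥ d (1 + (M₁/M₀)/R) e M₀`: induction for `(Z₀, M₀, d (1 + (M₁/M₀)/R), t)`, Bernoulli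
`(1 + x/R)^R ≥ 1 + x`;  (C) the same with the roles exchanged. -/
theorem path {T : Type} [Fintype T] [AddCommGroup T] (Y : T → ℝ) (good : T → Prop)
    {A₂ ε₁ ωm τ₀ Q₀ κ dm ε : ℝ} (R : ℕ) (hR : 2 ≤ R)
    (hY : ∀ τ, Y τ ≤ 1) (hA : av (fun τ => Y τ ^ 2) ≤ A₂)
    (hgood : ∀ v, good v → av (fun τ => Y τ * Y (τ + v)) ≤ ε₁) (hε₁ : 0 ≤ ε₁)
    (hωm : 0 ≤ ωm) (hQ : ωm < Q₀) (hτ : 0 < τ₀) (hκ : τ₀ ≤ κ * Q₀) (hdm : 0 < dm)
    (hε : A₂ * ωm / τ₀ + ε₁ ≤ ε * dm ^ 2)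
    (j : ℕ) (Z : Finset (Fin j → ℤ)) (hZ : Bin Z) (ω : (Fin j → ℤ) → ℝ)
    (h0 : ∀ z ∈ Z, 0 ≤ ω z) (h1 : ∀ z ∈ Z, ω z ≤ ωm) (M d : ℝ) (t : ℕ)
    (hM : ∑ z ∈ Z, ω z ≤ M) (hd : 0 < d) (h8 : 8 ^ t * Q₀ ≤ M * d ^ R)
    (hdt : dm ≤ d * (1 - 1 / (R : ℝ)) ^ t) :
    av (fun ψ : Fin j → T => av fun τ : T =>
      ind ((∀ z ∈ Z, ∀ z' ∈ Z, z ≠ z' → good (dotz ψ z' - dotz ψ z)) ∧
        d * (1 + κ) ^ j * M ≤ ∑ z ∈ Z, ω z * Y (τ + dotz ψ z))) ≤ 3 ^ j * ε ^ t := by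
  change pathP Y good Z ω (d * (1 + κ) ^ j * M) ≤ 3 ^ j * ε ^ t
  have hQ0 : 0 < Q₀ := hωm.trans_lt hQ
  have hκ0 : 0 < κ := by
    by_contra hκ0
    nlinarith [mul_nonpos_of_nonpos_of_nonneg (not_lt.1 hκ0) hQ0.le]
  have hA0 : 0 ≤ A₂ := (av_nonneg fun τ => sq_nonneg _).trans hA
  have hε0 : 0 ≤ ε := by
    have : 0 ≤ ε * dm ^ 2 := le_trans (by positivity) hε
    exact nonneg_of_mul_nonneg_left this (by positivity)
  have hR' : (2 : ℝ) ≤ R := by exact_mod_cast hR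
  have hq0 : 0 < 1 - 1 / (R : ℝ) := by
    rw [sub_pos, div_lt_one (by linarith)]; linarith
  have hq1 : 1 - 1 / (R : ℝ) ≤ 1 := by
    have : (0 : ℝ) ≤ 1 / R := by positivity
    linarith
  induction j generalizing M d t with
  | zero =>
    rcases t with _ | t
    · simpa using pathP_le_one Z ω _
    refine (pathP_empty hY h0 ?_).trans (by positivity)
    have hM0 : 0 < M := by
      by_contra hM0
      have : M * d ^ R ≤ 0 := mul_nonpos_of_nonpos_of_nonneg (not_lt.1 hM0) (by positivity)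
      have : 0 < 8 ^ (t + 1) * Q₀ := by positivity
      linarith
    rw [pow_zero, mul_one]
    rcases lt_or_ge 1 d with hd1 | hd1
    · nlinarith
    have h2 : ∑ z ∈ Z, ω z ≤ ωm := by
      refine (Finset.sum_le_card_nsmul Z ω ωm h1).trans ?_
      have : Z.card ≤ 1 := by simpa using hZ.card_le
      rw [nsmul_eq_mul]
      exact mul_le_of_le_one_left hωm (by exact_mod_cast this)
    have h3 : d ^ R ≤ d := pow_le_of_le_one hd.le hd1 (by omega)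
    have h4 : Q₀ ≤ 8 ^ (t + 1) * Q₀ := le_mul_of_one_le_left hQ0.le (one_le_pow₀ (by norm_num))
    nlinarith
  | succ j ih =>
    rcases t with _ | t
    · exact (pathP_le_one Z ω _).trans (by rw [pow_zero, mul_one]; exact one_le_pow₀ (by norm_num))
    have hM0 : 0 < M := by
      by_contra hM0
      have : M * d ^ R ≤ 0 := mul_nonpos_of_nonpos_of_nonneg (not_lt.1 hM0) (by positivity)
      have : 0 < 8 ^ (t + 1) * Q₀ := by positivity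
      linarith
    obtain ⟨e, he⟩ : ∃ e, e = (1 + κ) ^ j := ⟨_, rfl⟩
    have he1 : 1 ≤ e := by rw [he]; exact one_le_pow₀ (by linarith)
    rw [pow_succ (1 + κ), ← he]
    simp only [← he] at ih
    rcases lt_or_ge 1 d with hd1 | hd1
    · refine (pathP_empty hY h0 ?_).trans (by positivity)
      have : 1 < d * (e * (1 + κ)) := one_lt_mul_of_lt_of_le hd1 (by nlinarith)
      nlinarith
    have h3 : d ^ R ≤ d := pow_le_of_le_one hd.le hd1 (by omega)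
    have h4 : Q₀ ≤ 8 ^ (t + 1) * Q₀ := le_mul_of_one_le_left hQ0.le (one_le_pow₀ (by norm_num))
    have hdM : Q₀ ≤ d * M := by nlinarith
    have key : ∀ (Z₀ Z₁ : Finset (Fin j → ℤ)) (ω₀ ω₁ : (Fin j → ℤ) → ℝ), Bin Z₀ → Bin Z₁ →
        (∀ z ∈ Z₀, 0 ≤ ω₀ z) → (∀ z ∈ Z₀, ω₀ z ≤ ωm) → (∀ z ∈ Z₁, 0 ≤ ω₁ z) →
        (∀ z ∈ Z₁, ω₁ z ≤ ωm) → ∑ z ∈ Z₀, ω₀ z + ∑ z ∈ Z₁, ω₁ z ≤ M →
        ∑ z ∈ Z₁, ω₁ z ≤ M / 2 →
        pathP2 Y good Z₀ Z₁ ω₀ ω₁ (d * (e * (1 + κ)) * M) ≤ 3 ^ (j + 1) * ε ^ (t + 1) := by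
      intro Z₀ Z₁ ω₀ ω₁ hZ₀ hZ₁ p₀ q₀ p₁ q₁ hsum hhalf
      obtain ⟨M₁, hM₁⟩ : ∃ M₁, M₁ = ∑ z ∈ Z₁, ω₁ z := ⟨_, rfl⟩
      rw [← hM₁] at hsum hhalf
      have hM₁0 : 0 ≤ M₁ := by rw [hM₁]; exact Finset.sum_nonneg p₁
      have hdeM : d * M ≤ d * e * M := by
        have := mul_le_mul_of_nonneg_left he1 (mul_pos hd hM0).le
        linarith
      have hκM : τ₀ ≤ κ * (d * e * M) :=
        hκ.trans (mul_le_mul_of_nonneg_left (hdM.trans hdeM) hκ0.le)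
      rcases lt_or_ge M₁ τ₀ with hs | hs
      · refine (pathP2_small hY Z₀ ω₀ p₁ (y := d * e * M) ?_).trans ?_
        · rw [← hM₁]; nlinarith
        · refine (ih Z₀ hZ₀ ω₀ p₀ q₀ M d (t + 1) (by linarith) hd h8 hdt).trans ?_
          exact mul_le_mul_of_nonneg_right (pow_le_pow_right₀ (by norm_num) (by omega))
            (by positivity)
      have hM₁p : 0 < M₁ := hτ.trans_le hs
      obtain ⟨M₀, hM₀⟩ : ∃ M₀, M₀ = M - M₁ := ⟨_, rfl⟩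
      have hM₀h : M / 2 ≤ M₀ := by linarith
      have hM₀p : 0 < M₀ := by linarith
      have hMs : M = M₀ + M₁ := by linarith
      have hx : d * e * M ≤ d * (e * (1 + κ)) * M := by nlinarith
      have hthree := pathP2_three (Y := Y) (good := good) Z₀ Z₁ ω₀ ω₁
        (x := d * (e * (1 + κ)) * M) (a₀ := d * (1 - 1 / R) * e * M₀)
        (a₁ := d * (1 - 1 / R) * e * M₁) (b₀ := d * (1 + M₁ / M₀ / R) * e * M₀)
        (b₁ := d * (1 + M₀ / M₁ / R) * e * M₁) hε0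
        (le_trans (le_of_eq (by rw [hMs]; field_simp; ring)) hx)
        (le_trans (le_of_eq (by rw [hMs]; field_simp; ring)) hx)
        (fun ψ hG => by
          have hdq : dm ≤ d * (1 - 1 / R) * e := by
            have a1 : (1 - 1 / (R : ℝ)) ^ (t + 1) ≤ 1 - 1 / R :=
              pow_le_of_le_one hq0.le hq1 (by omega)
            have a2 := mul_le_mul_of_nonneg_left a1 hd.le
            have a3 := mul_le_mul_of_nonneg_left he1 (mul_pos hd hq0).le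
            linarith
          have a4 : av (fun σ => ind (d * (1 - 1 / R) * e * M₁ ≤ pathD Y Z₁ ω₁ ψ σ)) ≤
              av (fun σ => ind (dm * M₁ ≤ pathD Y Z₁ ω₁ ψ σ)) :=
            av_mono fun σ => ind_mono fun h =>
              (mul_le_mul_of_nonneg_right hdq hM₁0).trans h
          refine a4.trans ((path_cheb hA hgood hε₁ p₁ q₁ hG (by positivity)).trans ?_)
          rw [← hM₁, div_le_iff₀ (by positivity)]
          have a5 : A₂ * ωm / M₁ ≤ A₂ * ωm / τ₀ :=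
            div_le_div_of_nonneg_left (by positivity) hτ hs
          have a6 : A₂ * ωm * M₁ + ε₁ * M₁ ^ 2 = (A₂ * ωm / M₁ + ε₁) * M₁ ^ 2 := by
            field_simp
          rw [a6, mul_pow, ← mul_assoc]
          exact mul_le_mul_of_nonneg_right (by linarith) (by positivity))
      have hqt : 0 ≤ (1 - 1 / (R : ℝ)) ^ (t + 1) := by positivity
      have iA := ih Z₀ hZ₀ ω₀ p₀ q₀ M₀ (d * (1 - 1 / R)) t (by linarith) (by positivity)
        (by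
          have b1 := path_quarter hR
          have b2 : M / 2 * (d ^ R * (1 / 4)) ≤ M₀ * (d ^ R * (1 - 1 / (R : ℝ)) ^ R) :=
            mul_le_mul hM₀h (mul_le_mul_of_nonneg_left b1 (by positivity)) (by positivity)
              hM₀p.le
          rw [mul_pow]
          rw [pow_succ] at h8
          linarith)
        (by rw [mul_assoc, ← pow_succ']; exact hdt)
      have iB := ih Z₀ hZ₀ ω₀ p₀ q₀ M₀ (d * (1 + M₁ / M₀ / R)) (t + 1) (by linarith)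
        (by positivity) (h8.trans (by rw [hMs]; exact path_bern hR hM₀p hM₁0 hd.le))
        (hdt.trans (mul_le_mul_of_nonneg_right
          (le_mul_of_one_le_right hd.le (le_add_of_nonneg_right (by positivity))) hqt))
      have iC := ih Z₁ hZ₁ ω₁ p₁ q₁ M₁ (d * (1 + M₀ / M₁ / R)) (t + 1) hM₁.ge
        (by positivity) (h8.trans (by rw [hMs, add_comm]; exact path_bern hR hM₁p hM₀p.le hd.le))
        (hdt.trans (mul_le_mul_of_nonneg_right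
          (le_mul_of_one_le_right hd.le (le_add_of_nonneg_right (by positivity))) hqt))
      have iA' := mul_le_mul_of_nonneg_right iA hε0
      have e3 : (3 : ℝ) ^ (j + 1) * ε ^ (t + 1) =
          3 ^ j * ε ^ t * ε + 3 ^ j * ε ^ (t + 1) + 3 ^ j * ε ^ (t + 1) := by ring
      rw [e3]
      linarith
    obtain ⟨c, hc⟩ := hZ.exists_first
    have hsp := sum_split_gen hc ω
    refine (pathP_split hc ω _).trans ?_
    rcases le_total (∑ z ∈ child Z (c + 1), ω (Fin.cons (c + 1) z)) (M / 2) with hh | hh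
    · exact key _ _ _ _ (hZ.child c) (hZ.child (c + 1)) (fun z hz => h0 _ (mem_child.1 hz))
        (fun z hz => h1 _ (mem_child.1 hz)) (fun z hz => h0 _ (mem_child.1 hz))
        (fun z hz => h1 _ (mem_child.1 hz)) (by linarith) hh
    · rw [pathP2_comm]
      exact key _ _ _ _ (hZ.child (c + 1)) (hZ.child c) (fun z hz => h0 _ (mem_child.1 hz))
        (fun z hz => h1 _ (mem_child.1 hz)) (fun z hz => h0 _ (mem_child.1 hz))
        (fun z hz => h1 _ (mem_child.1 hz)) (by linarith) (by linarith)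

end Crest.Agent.R225U
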