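import Crest.Agent.R225U.Defs

/-!
Row 225 (S0347): Riemann sums of the normal density.
-/

set_option autoImplicit false

open Finset
open Crest.Agent.R153

namespace Crest.Agent.R225U

section aux

open MeasureTheory Set

lemma riem_upper {f : ℝ → ℝ} (hc : Continuous f) (ha : ∀ x y, 0 ≤ x → x ≤ y → f y ≤ f x)
    {s : ℝ} (hs : 0 < s) (i N : ℕ) :
    ∑ j ∈ Finset.range N, s * f (s * ((j + (i + 1) : ℕ) : ℝ)) ≤
      ∫ t in (s * i)..(s * ((N + i : ℕ) : ℝ)), f t := by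
  induction N with
  | zero => simp
  | succ N ih =>
    rw [Finset.sum_range_succ, ← intervalIntegral.integral_add_adjacent_intervals
      (hc.intervalIntegrable _ (s * ((N + i : ℕ) : ℝ))) (hc.intervalIntegrable _ _)]
    refine add_le_add ih ?_
    have h1 : s * ((N + i : ℕ) : ℝ) ≤ s * ((N + 1 + i : ℕ) : ℝ) := by
      push_cast; nlinarith
    have h2 := intervalIntegral.integral_mono_on (μ := volume) h1
      (f := fun _ => f (s * ((N + 1 + i : ℕ) : ℝ))) (g := f) intervalIntegrable_const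
      (hc.intervalIntegrable _ _)
      (fun x hx => ha _ _ (le_trans (by positivity) hx.1) hx.2)
    rw [intervalIntegral.integral_const, smul_eq_mul] at h2
    have h3 : s * ((N + 1 + i : ℕ) : ℝ) - s * ((N + i : ℕ) : ℝ) = s := by push_cast; ring
    rw [h3] at h2
    rwa [show N + (i + 1) = N + 1 + i by ring]

lemma riem_lower {f : ℝ → ℝ} (hc : Continuous f) (ha : ∀ x y, 0 ≤ x → x ≤ y → f y ≤ f x)
    {s : ℝ} (hs : 0 < s) (i N : ℕ) :
    ∫ t in (s * i)..(s * ((N + i : ℕ) : ℝ)), f t ≤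
      ∑ j ∈ Finset.range N, s * f (s * ((j + i : ℕ) : ℝ)) := by
  induction N with
  | zero => simp
  | succ N ih =>
    rw [Finset.sum_range_succ, ← intervalIntegral.integral_add_adjacent_intervals
      (hc.intervalIntegrable _ (s * ((N + i : ℕ) : ℝ))) (hc.intervalIntegrable _ _)]
    refine add_le_add ih ?_
    have h1 : s * ((N + i : ℕ) : ℝ) ≤ s * ((N + 1 + i : ℕ) : ℝ) := by
      push_cast; nlinarith
    have h2 := intervalIntegral.integral_mono_on (μ := volume) h1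
      (g := fun _ => f (s * ((N + i : ℕ) : ℝ))) (f := f)
      (hc.intervalIntegrable _ _) intervalIntegrable_const
      (fun x hx => ha _ _ (by positivity) hx.1)
    rw [intervalIntegral.integral_const, smul_eq_mul] at h2
    have h3 : s * ((N + 1 + i : ℕ) : ℝ) - s * ((N + i : ℕ) : ℝ) = s := by push_cast; ring
    rwa [h3] at h2

lemma riem_int_le {f : ℝ → ℝ} (h0 : ∀ x, 0 ≤ f x) (hi : Integrable f) {a b : ℝ} (ha : 0 ≤ a)
    (hab : a ≤ b) : ∫ t in a..b, f t ≤ ∫ t in Ioi 0, f t := by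
  rw [intervalIntegral.integral_of_le hab]
  exact setIntegral_mono_set hi.integrableOn (Filter.Eventually.of_forall h0)
    (Filter.Eventually.of_forall fun x hx => lt_of_le_of_lt ha hx.1)

lemma riem_phi_eq (t : ℝ) :
    phiv 1 t = (Real.sqrt (2 * Real.pi))⁻¹ * Real.exp (-(1 / 2) * t ^ 2) := by
  unfold phiv
  rw [mul_one, mul_one]
  congr 2
  ring

lemma riem_phi_pos (t : ℝ) : 0 < phiv 1 t := by
  rw [riem_phi_eq]
  have := Real.pi_pos
  positivity

lemma riem_phi_cont : Continuous (phiv 1) := by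
  rw [funext riem_phi_eq]
  fun_prop

lemma riem_phi_anti (x y : ℝ) (hx : 0 ≤ x) (hxy : x ≤ y) : phiv 1 y ≤ phiv 1 x := by
  rw [riem_phi_eq, riem_phi_eq]
  refine mul_le_mul_of_nonneg_left (Real.exp_le_exp.2 ?_) (by positivity)
  nlinarith

lemma riem_phi_integrable : Integrable (phiv 1) := by
  rw [funext riem_phi_eq]
  exact (integrable_exp_neg_mul_sq (by norm_num)).const_mul _

lemma riem_phi_int : ∫ t in Ioi 0, phiv 1 t = 1 / 2 := by
  simp only [riem_phi_eq]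
  rw [integral_const_mul, integral_gaussian_Ioi, show Real.pi / (1 / 2) = 2 * Real.pi by ring]
  have : 0 < Real.sqrt (2 * Real.pi) := Real.sqrt_pos.2 (by have := Real.pi_pos; positivity)
  field_simp

lemma riem_phi_le_half (t : ℝ) : phiv 1 t ≤ 1 / 2 := by
  rw [riem_phi_eq]
  have h1 : Real.exp (-(1 / 2) * t ^ 2) ≤ 1 := Real.exp_le_one_iff.2 (by nlinarith [sq_nonneg t])
  have h2 : 2 ≤ Real.sqrt (2 * Real.pi) :=
    Real.le_sqrt_of_sq_le (by nlinarith [Real.pi_gt_three])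
  have h3 : (Real.sqrt (2 * Real.pi))⁻¹ ≤ 1 / 2 := by
    rw [one_div]
    exact inv_anti₀ (by norm_num) h2
  calc _ ≤ 1 / 2 * 1 := mul_le_mul h3 h1 (Real.exp_pos _).le (by norm_num)
    _ = _ := mul_one _

lemma riem_phi_tail {x : ℝ} (hx : 0 ≤ x) :
    ∫ t in Ioi x, phiv 1 t ≤ Real.exp (-x ^ 2 / 2) / 2 := by
  have h1 : ∫ t in Ioi x, phiv 1 t = ∫ t in Ioi 0, phiv 1 (t + x) := by
    have := (measurePreserving_add_right volume x).setIntegral_preimage_emb
      (measurableEmbedding_addRight x) (phiv 1) (Ioi x)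
    rw [← this]
    simp
  rw [h1]
  have h2 : ∫ t in Ioi 0, phiv 1 (t + x) ≤ ∫ t in Ioi 0, Real.exp (-x ^ 2 / 2) * phiv 1 t := by
    refine setIntegral_mono_on (riem_phi_integrable.comp_add_right x).integrableOn
      (riem_phi_integrable.const_mul _).integrableOn measurableSet_Ioi fun t ht => ?_
    rw [riem_phi_eq, riem_phi_eq, mul_left_comm, ← Real.exp_add]
    refine mul_le_mul_of_nonneg_left (Real.exp_le_exp.2 ?_) (by positivity)
    have : 0 ≤ t * x := mul_nonneg (le_of_lt ht) hx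
    nlinarith
  rw [integral_const_mul, riem_phi_int] at h2
  linarith

lemma riem_phi_sq (t : ℝ) : phiv 1 t ^ 2 = (2 * Real.pi)⁻¹ * Real.exp (-1 * t ^ 2) := by
  rw [riem_phi_eq, mul_pow, inv_pow, Real.sq_sqrt (by have := Real.pi_pos; positivity),
    ← Real.exp_nat_mul]
  congr 2
  push_cast
  ring

lemma riem_sum_Icc (g : ℤ → ℝ) (L : ℕ) :
    ∑ a ∈ Finset.Icc (-(L : ℤ)) L, g a =
      g 0 + ∑ j ∈ Finset.range L, (g ((j : ℤ) + 1) + g (-((j : ℤ) + 1))) := by
  induction L with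
  | zero => simp
  | succ L ih =>
    have h : Finset.Icc (-((L + 1 : ℕ) : ℤ)) ((L + 1 : ℕ) : ℤ)
        = insert ((L : ℤ) + 1) (insert (-((L : ℤ) + 1)) (Finset.Icc (-(L : ℤ)) L)) := by
      ext a
      simp only [Finset.mem_Icc, Finset.mem_insert]
      omega
    rw [h, Finset.sum_insert (by simp only [Finset.mem_Icc, Finset.mem_insert]; omega),
      Finset.sum_insert (by simp only [Finset.mem_Icc]; omega), ih, Finset.sum_range_succ]
    ring

lemma riem_gw_sum (η : ℝ) (L : ℕ) :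
    ∑ a ∈ Finset.Icc (-(L : ℤ)) L, gw η a =
      η * phiv 1 η + 2 * ∑ j ∈ Finset.range L, η * phiv 1 (η * ((j + 2 : ℕ) : ℝ)) := by
  rw [riem_sum_Icc, Finset.mul_sum]
  congr 1
  · simp [gw]
  · refine Finset.sum_congr rfl fun j _ => ?_
    have h : |((j : ℝ) + 1)| + 1 = ((j + 2 : ℕ) : ℝ) := by
      rw [abs_of_nonneg (by positivity)]
      push_cast
      ring
    simp only [gw, Int.cast_neg, abs_neg, Int.cast_add, Int.cast_natCast, Int.cast_one, h]
    ring

end aux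

/-- `AntitoneOn.sum_le_integral`-type comparison with `∫_0^∞ phiv 1 = 1/2` -/
theorem riem_le {s : ℝ} (hs : 0 < s) (j₀ N : ℕ) (hj : 1 ≤ j₀) :
    ∑ j ∈ Finset.range N, s * phiv 1 (s * ((j + j₀ : ℕ) : ℝ)) ≤ 1 / 2 := by
  obtain ⟨i, rfl⟩ : ∃ i, j₀ = i + 1 := ⟨j₀ - 1, by omega⟩
  refine (riem_upper riem_phi_cont riem_phi_anti hs i N).trans ?_
  rw [← riem_phi_int]
  refine riem_int_le (fun x => (riem_phi_pos x).le) riem_phi_integrable (by positivity) ?_
  push_cast
  nlinarith [mul_nonneg hs.le (Nat.cast_nonneg (α := ℝ) N)]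

/-- the sum dominates `∫_{s j₀}^{s (N + j₀)} phiv 1`; `phiv 1 ≤ 1/2` and
`∫_x^∞ phiv 1 ≤ exp (-x²/2) / 2` for `x ≥ 0` -/
theorem riem_ge {s : ℝ} (hs : 0 < s) (j₀ N : ℕ) :
    1 / 2 - s * j₀ / 2 - Real.exp (-(s * N) ^ 2 / 2) / 2 ≤
      ∑ j ∈ Finset.range N, s * phiv 1 (s * ((j + j₀ : ℕ) : ℝ)) := by
  refine le_trans ?_ (riem_lower riem_phi_cont riem_phi_anti hs j₀ N)
  have hN : 0 ≤ s * N := by positivity
  have hj : 0 ≤ s * j₀ := by positivity
  have hb : 0 ≤ s * ((N + j₀ : ℕ) : ℝ) := by positivity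
  have h1 := intervalIntegral.integral_interval_add_Ioi (μ := MeasureTheory.volume)
    (f := phiv 1) (a := 0) (b := s * ((N + j₀ : ℕ) : ℝ))
    riem_phi_integrable.integrableOn riem_phi_integrable.integrableOn
  rw [riem_phi_int, ← intervalIntegral.integral_add_adjacent_intervals
    (riem_phi_cont.intervalIntegrable _ (s * j₀)) (riem_phi_cont.intervalIntegrable _ _)] at h1
  have h2 := intervalIntegral.integral_mono_on (μ := MeasureTheory.volume) hj
    (g := fun _ => (1 / 2 : ℝ)) (f := phiv 1)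
    (riem_phi_cont.intervalIntegrable _ _) intervalIntegrable_const
    (fun x _ => riem_phi_le_half x)
  rw [intervalIntegral.integral_const, smul_eq_mul] at h2
  have h3 := riem_phi_tail hb
  have h4 : Real.exp (-(s * ((N + j₀ : ℕ) : ℝ)) ^ 2 / 2) ≤ Real.exp (-(s * N) ^ 2 / 2) := by
    refine Real.exp_le_exp.2 ?_
    push_cast
    nlinarith [mul_nonneg hN hj]
  linarith

/-- comparison with `∫_0^∞ (phiv 1)² = phiv 1 0 / (2 √2)` -/
theorem riem_sq_le {s : ℝ} (hs : 0 < s) (j₀ N : ℕ) (hj : 1 ≤ j₀) :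
    ∑ j ∈ Finset.range N, s * phiv 1 (s * ((j + j₀ : ℕ) : ℝ)) ^ 2 ≤ 71 / 200 * phiv 1 0 := by
  obtain ⟨i, rfl⟩ : ∃ i, j₀ = i + 1 := ⟨j₀ - 1, by omega⟩
  refine (riem_upper (f := fun t => phiv 1 t ^ 2) (riem_phi_cont.pow 2)
    (fun x y hx hxy => pow_le_pow_left₀ (riem_phi_pos y).le (riem_phi_anti x y hx hxy) 2)
    hs i N).trans ?_
  have hi : MeasureTheory.Integrable fun t => phiv 1 t ^ 2 := by
    rw [funext riem_phi_sq]
    exact (integrable_exp_neg_mul_sq (by norm_num)).const_mul _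
  refine (riem_int_le (fun x => sq_nonneg _) hi (by positivity) ?_).trans ?_
  · push_cast
    nlinarith [mul_nonneg hs.le (Nat.cast_nonneg (α := ℝ) N)]
  · simp only [riem_phi_sq]
    rw [MeasureTheory.integral_const_mul, integral_gaussian_Ioi, riem_phi_eq, div_one]
    have hpi := Real.pi_pos
    have h1 : 0 < Real.sqrt Real.pi := Real.sqrt_pos.2 hpi
    have h2 : Real.sqrt 2 ≤ 142 / 100 := Real.sqrt_le_iff.2 ⟨by norm_num, by norm_num⟩
    have h3 : 0 < Real.sqrt 2 := by positivity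
    have h4 : Real.pi = Real.sqrt Real.pi ^ 2 := (Real.sq_sqrt hpi.le).symm
    rw [Real.sqrt_mul (by norm_num)]
    generalize Real.sqrt Real.pi = r at h1 h4
    rw [h4]
    simp only [ne_eq, OfNat.ofNat_ne_zero, not_false_eq_true, zero_pow, mul_zero, Real.exp_zero,
      mul_one]
    field_simp
    linarith

lemma gw_nonneg {η : ℝ} (hη : 0 < η) (a : ℤ) : 0 ≤ gw η a := by
  exact mul_nonneg hη.le (riem_phi_pos _).le

lemma gw_le {η : ℝ} (hη : 0 < η) (a : ℤ) : gw η a ≤ η := by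
  have := riem_phi_le_half (η * (|(a : ℝ)| + 1))
  unfold gw
  nlinarith

/-- `∑_{|a| ≤ L} gw η a = η φ(η) + 2 ∑_{j=2}^{L+1} η φ(η j) ≤ 2 ∑_{j ≥ 1} η φ(η j) ≤ 1` -/
theorem gw_sum_le {η : ℝ} (hη : 0 < η) (L : ℕ) :
    ∑ a ∈ Finset.Icc (-(L : ℤ)) L, gw η a ≤ 1 := by
  have h1 := riem_le hη 1 (L + 1) le_rfl
  rw [Finset.sum_range_succ'] at h1
  simp only [zero_add, Nat.cast_one, mul_one] at h1
  have h2 : 0 ≤ η * phiv 1 η := mul_nonneg hη.le (riem_phi_pos _).le
  rw [riem_gw_sum]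
  linarith

theorem gw_sum_ge {η : ℝ} (hη : 0 < η) (L : ℕ) :
    1 - 2 * η - Real.exp (-(η * L) ^ 2 / 2) ≤ ∑ a ∈ Finset.Icc (-(L : ℤ)) L, gw η a := by
  have h1 := riem_ge hη 2 L
  have h2 : 0 ≤ η * phiv 1 η := mul_nonneg hη.le (riem_phi_pos _).le
  rw [riem_gw_sum]
  simp only [Nat.cast_ofNat] at h1
  linarith

end Crest.Agent.R225U
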