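import Crest.Agent.R225U.Defs

/-!
Row 225 (S0347): the uniform measure on an isotropic body; roundness.
-/

set_option autoImplicit false

open MeasureTheory
open Crest.Agent.R153

namespace Crest.Agent.R225U

theorem IsoBody.isProb {n : ℕ} {K : Set (Fin n → ℝ)} (hK : IsoBody K) :
    IsProbabilityMeasure (uni K) := by
  refine ProbabilityTheory.cond_isProbabilityMeasure_of_finite ?_ hK.compact.measure_lt_top.ne
  intro h
  have := hK.vol_pos
  simp [h] at this

theorem IsoBody.integral_uni {n : ℕ} {K : Set (Fin n → ℝ)} (hK : IsoBody K)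
    (f : (Fin n → ℝ) → ℝ) : ∫ x, f x ∂(uni K) = (volume K).toReal⁻¹ * ∫ x in K, f x := by
  unfold uni ProbabilityTheory.cond
  rw [integral_smul_measure, ENNReal.toReal_inv, smul_eq_mul]

theorem IsoBody.real_uni {n : ℕ} {K : Set (Fin n → ℝ)} (hK : IsoBody K) (U : Set (Fin n → ℝ)) :
    (uni K).real U = (volume K).toReal⁻¹ * (volume (K ∩ U)).toReal := by
  unfold uni
  rw [Measure.real, ProbabilityTheory.cond_apply hK.compact.measurableSet, ENNReal.toReal_mul,
    ENNReal.toReal_inv]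

theorem IsoBody.ae_mem {n : ℕ} {K : Set (Fin n → ℝ)} (hK : IsoBody K) : ∀ᵐ x ∂(uni K), x ∈ K := by
  exact ProbabilityTheory.ae_cond_mem hK.compact.measurableSet

theorem IsoBody.integrable {n : ℕ} {K : Set (Fin n → ℝ)} (hK : IsoBody K)
    {f : (Fin n → ℝ) → ℝ} (hf : Continuous f) : Integrable f (uni K) := by
  unfold uni ProbabilityTheory.cond
  refine Integrable.smul_measure (hf.continuousOn.integrableOn_compact hK.compact) ?_
  rw [Ne, ENNReal.inv_eq_top]
  intro h
  have := hK.vol_pos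
  simp [h] at this

theorem IsoBody.lin_mean {n : ℕ} {K : Set (Fin n → ℝ)} (hK : IsoBody K) (θ : Fin n → ℝ) :
    ∫ x, (∑ i, θ i * x i) ∂(uni K) = 0 := by
  rw [integral_finsetSum _ fun i _ => hK.integrable (by fun_prop)]
  refine Finset.sum_eq_zero fun i _ => ?_
  rw [integral_const_mul, hK.integral_uni, hK.mean]
  simp

theorem IsoBody.lin_sq {n : ℕ} {K : Set (Fin n → ℝ)} (hK : IsoBody K) (θ : Fin n → ℝ) :
    ∫ x, (∑ i, θ i * x i) ^ 2 ∂(uni K) = ∑ i, θ i ^ 2 := by
  have h1 : ∀ x : Fin n → ℝ, (∑ i, θ i * x i) ^ 2 = ∑ i, ∑ j, θ i * θ j * (x i * x j) := by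
    intro x
    rw [sq, Finset.sum_mul_sum]
    refine Finset.sum_congr rfl fun i _ => Finset.sum_congr rfl fun j _ => by ring
  simp only [h1]
  rw [integral_finsetSum _ fun i _ => hK.integrable (by fun_prop)]
  refine Finset.sum_congr rfl fun i _ => ?_
  rw [integral_finsetSum _ fun j _ => hK.integrable (by fun_prop)]
  have h2 : ∀ j, ∫ x, θ i * θ j * (x i * x j) ∂(uni K) = if i = j then θ i ^ 2 else 0 := by
    intro j
    rw [integral_const_mul, hK.integral_uni, hK.cov]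
    split_ifs with h
    · subst h
      rw [inv_mul_cancel₀ hK.vol_pos.ne']
      ring
    · simp
  simp [h2]

theorem IsoBody.sq_norm {n : ℕ} {K : Set (Fin n → ℝ)} (hK : IsoBody K) :
    ∫ x, (∑ i, x i ^ 2) ∂(uni K) = n := by
  rw [integral_finsetSum _ fun i _ => hK.integrable (by fun_prop)]
  have h2 : ∀ i, ∫ x, x i ^ 2 ∂(uni K) = 1 := by
    intro i
    simp only [sq]
    rw [hK.integral_uni, hK.cov, if_pos rfl, inv_mul_cancel₀ hK.vol_pos.ne']
  simp [h2]

theorem IsoBody.theta {n : ℕ} {K : Set (Fin n → ℝ)} (hK : IsoBody K) :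
    ∫ x, ∫ y, (∑ i, x i * y i) ^ 2 ∂(uni K) ∂(uni K) = n := by
  simp only [hK.lin_sq]
  exact hK.sq_norm

/-- For `x ∈ K` and `λ = 1/n` the copy `(1-λ) K + λ x ⊆ K` has relative volume `(1-λ)^n ≥ 1/4`, so
with `Y y = ∑ x i * y i`, `a = ∑ x i ^ 2`:
`a = E Y² ≥ (1-λ)^n E ((1-λ) Y + λ a)² ≥ λ² a² / 4`. -/
theorem IsoBody.outer {n : ℕ} (hn : 2 ≤ n) {K : Set (Fin n → ℝ)} (hK : IsoBody K) :
    ∀ x ∈ K, ∑ i, x i ^ 2 ≤ 4 * (n : ℝ) ^ 2 := by
  intro x hx
  have := hK.isProb
  have hn' : (2 : ℝ) ≤ n := by exact_mod_cast hn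
  have hn0 : (0 : ℝ) < n := by linarith
  obtain ⟨a, ha⟩ : ∃ a, a = ∑ i, x i ^ 2 := ⟨_, rfl⟩
  obtain ⟨l, hl⟩ : ∃ l : ℝ, l = 1 / n := ⟨_, rfl⟩
  have hl0 : 0 < l := by rw [hl]; positivity
  have hln : l * n = 1 := by rw [hl]; field_simp
  have hl1 : l ≤ 1 / 2 := by nlinarith
  have ha0 : 0 ≤ a := by rw [ha]; positivity
  have hpow : 1 / 4 ≤ (1 - l) ^ n := by
    have h1 := one_add_mul_self_le_rpow_one_add (s := -l) (by linarith) (p := (n : ℝ) / 2)
      (by linarith)
    have h2 : (1 + -l) ^ ((n : ℝ) / 2) * (1 + -l) ^ ((n : ℝ) / 2) = (1 - l) ^ n := by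
      rw [← Real.rpow_add (by linarith), add_halves, Real.rpow_natCast, sub_eq_add_neg]
    have h3 : 1 + (n : ℝ) / 2 * -l = 1 / 2 := by linarith
    rw [h3] at h1
    nlinarith
  have hmeas := hK.compact.measurableSet
  let g : (Fin n → ℝ) → ℝ := K.indicator fun y => (∑ i, x i * y i) ^ 2
  have hcont : Continuous fun y : Fin n → ℝ => (∑ i, x i * y i) ^ 2 := by fun_prop
  have hgi : Integrable g :=
    (integrable_indicator_iff hmeas).mpr (hcont.continuousOn.integrableOn_compact hK.compact)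
  have hg : ∫ y, g y = (volume K).toReal * a := by
    rw [integral_indicator hmeas, ha, ← hK.lin_sq x, hK.integral_uni, ← mul_assoc,
      mul_inv_cancel₀ hK.vol_pos.ne', one_mul]
  have hchg : ∫ y, g ((1 - l) • y + l • x) = ((1 - l) ^ n)⁻¹ * ∫ y, g y := by
    rw [Measure.integral_comp_smul volume (fun y => g (y + l • x)) (1 - l),
      integral_add_right_eq_self g (l • x), Module.finrank_fin_fun, smul_eq_mul,
      abs_of_pos (by positivity)]
  have hgi' : Integrable fun y => g ((1 - l) • y + l • x) :=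
    (hgi.comp_add_right (l • x)).comp_smul (by linarith : (1 - l) ≠ 0)
  have hcont2 : Continuous fun y : Fin n → ℝ => ((1 - l) * (∑ i, x i * y i) + l * a) ^ 2 := by
    fun_prop
  have hle : ∫ y in K, ((1 - l) * (∑ i, x i * y i) + l * a) ^ 2
      ≤ ∫ y, g ((1 - l) • y + l • x) := by
    rw [← integral_indicator hmeas]
    refine integral_mono ((integrable_indicator_iff hmeas).mpr
      (hcont2.continuousOn.integrableOn_compact hK.compact)) hgi' fun y => ?_
    by_cases hy : y ∈ K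
    · have hm : (1 - l) • y + l • x ∈ K := hK.convex hy hx (by linarith) hl0.le (by ring)
      simp only [g, Set.indicator_of_mem hy, Set.indicator_of_mem hm]
      apply le_of_eq
      congr 1
      simp only [ha, Finset.mul_sum, ← Finset.sum_add_distrib, Pi.add_apply, Pi.smul_apply,
        smul_eq_mul]
      exact Finset.sum_congr rfl fun i _ => by ring
    · simp only [Set.indicator_of_notMem hy]
      exact Set.indicator_nonneg (fun _ _ => sq_nonneg _) _
  have hval : ∫ y, ((1 - l) * (∑ i, x i * y i) + l * a) ^ 2 ∂(uni K)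
      = (1 - l) ^ 2 * a + (l * a) ^ 2 := by
    have h1 : ∀ y : Fin n → ℝ, ((1 - l) * (∑ i, x i * y i) + l * a) ^ 2
        = ((1 - l) ^ 2 * (∑ i, x i * y i) ^ 2 + 2 * (1 - l) * (l * a) * (∑ i, x i * y i))
          + (l * a) ^ 2 := fun y => by ring
    simp only [h1]
    rw [integral_add (hK.integrable (by fun_prop)) (hK.integrable (by fun_prop)),
      integral_add (hK.integrable (by fun_prop)) (hK.integrable (by fun_prop)),
      integral_const_mul, integral_const_mul, hK.lin_sq, hK.lin_mean, ← ha]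
    simp
  rw [hK.integral_uni] at hval
  have hV := hK.vol_pos
  have h1 : (1 - l) ^ 2 * a + (l * a) ^ 2 ≤ ((1 - l) ^ n)⁻¹ * a := by
    rw [← hval]
    calc _ ≤ (volume K).toReal⁻¹ * (((1 - l) ^ n)⁻¹ * ((volume K).toReal * a)) := by
          rw [← hg, ← hchg]
          exact mul_le_mul_of_nonneg_left hle (by positivity)
      _ = _ := by field_simp
  have h2 : ((1 - l) ^ n)⁻¹ ≤ 4 := by
    rw [inv_le_comm₀ (by linarith) (by norm_num)]
    linarith
  have h3 : (l * a) ^ 2 ≤ 4 * a := by nlinarith [sq_nonneg (1 - l)]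
  rw [← ha]
  rcases ha0.eq_or_lt with h | h
  · rw [← h]; positivity
  · have h4 : l ^ 2 * a ≤ 4 := by
      have : (l ^ 2 * a) * a ≤ 4 * a := by nlinarith
      exact le_of_mul_le_mul_right this h
    calc a = (l * n) ^ 2 * a := by rw [hln]; ring
      _ = (l ^ 2 * a) * (n : ℝ) ^ 2 := by ring
      _ ≤ _ := by gcongr

/-- If `x ∉ K`, separate (`geometric_hahn_banach_closed_point`): a functional `Y = ∑ θ i * · i` with
`∑ θ i ^ 2 = 1` and `Y ≤ h < Y x` on `K`; `1 = E Y² ≤ 2n E |Y| = 4 n E Y₊ ≤ 4 n h` (note `h ≥ 0` as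
`E Y = 0`), so `|x| ≥ Y x > 1/(4n)`. -/
theorem IsoBody.inner {n : ℕ} (hn : 2 ≤ n) {K : Set (Fin n → ℝ)} (hK : IsoBody K) :
    ∀ x : Fin n → ℝ, ∑ i, x i ^ 2 ≤ 1 / (16 * (n : ℝ) ^ 2) → x ∈ K := by
  intro x hx
  by_contra hxK
  have := hK.isProb
  have hn' : (2 : ℝ) ≤ n := by exact_mod_cast hn
  have hn0 : (0 : ℝ) < n := by linarith
  obtain ⟨f, u, hfu, hux⟩ := geometric_hahn_banach_closed_point hK.convex hK.compact.isClosed hxK
  obtain ⟨θ, hθ⟩ : ∃ θ : Fin n → ℝ, ∀ y, f y = ∑ i, θ i * y i := by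
    refine ⟨fun i => f (fun j => if i = j then 1 else 0), fun y => ?_⟩
    have := LinearMap.pi_apply_eq_sum_univ (f : (Fin n → ℝ) →ₗ[ℝ] ℝ) y
    simpa [mul_comm] using this
  obtain ⟨t, ht⟩ : ∃ t, t = √(∑ i, θ i ^ 2) := ⟨_, rfl⟩
  have ht0 : 0 ≤ t := by rw [ht]; positivity
  have ht2 : t ^ 2 = ∑ i, θ i ^ 2 := by rw [ht, Real.sq_sqrt (by positivity)]
  have hcs : ∀ (y : Fin n → ℝ) (r : ℝ), 0 ≤ r → ∑ i, y i ^ 2 ≤ r ^ 2 → |f y| ≤ t * r := by
    intro y r hr hy
    refine abs_le_of_sq_le_sq' ?_ (by positivity) |> abs_le.mpr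
    rw [hθ, mul_pow, ht2]
    exact (Finset.sum_mul_sq_le_sq_mul_sq _ _ _).trans
      (mul_le_mul_of_nonneg_left hy (by positivity))
  have hK2 : ∀ y ∈ K, |f y| ≤ t * (2 * n) := fun y hy =>
    hcs y _ (by positivity) ((hK.outer hn y hy).trans (le_of_eq (by ring)))
  have hx2 : |f x| ≤ t * (1 / (4 * n)) :=
    hcs x _ (by positivity) (hx.trans (le_of_eq (by field_simp; norm_num)))
  have hint : 0 ≤ ∫ y, (u - ∑ i, θ i * y i) * (t * (2 * n) + ∑ i, θ i * y i) ∂(uni K) := by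
    refine integral_nonneg_of_ae (hK.ae_mem.mono fun y hy => ?_)
    have h1 := hfu y hy
    have h2 := (abs_le.mp (hK2 y hy)).1
    rw [hθ] at h1 h2
    exact mul_nonneg (by linarith) (by linarith)
  have hval : ∫ y, (u - ∑ i, θ i * y i) * (t * (2 * n) + ∑ i, θ i * y i) ∂(uni K)
      = u * (t * (2 * n)) - t ^ 2 := by
    have h1 : ∀ y : Fin n → ℝ, (u - ∑ i, θ i * y i) * (t * (2 * n) + ∑ i, θ i * y i)
        = (u * (t * (2 * n)) + (u - t * (2 * n)) * (∑ i, θ i * y i)) - (∑ i, θ i * y i) ^ 2 :=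
      fun y => by ring
    simp only [h1]
    rw [integral_sub (hK.integrable (by fun_prop)) (hK.integrable (by fun_prop)),
      integral_add (hK.integrable (by fun_prop)) (hK.integrable (by fun_prop)),
      integral_const_mul (u - t * (2 * n)), hK.lin_sq, hK.lin_mean, ← ht2]
    simp
  rw [hval] at hint
  have h3 := (abs_le.mp hx2).2
  rcases ht0.eq_or_lt with h | h
  · obtain ⟨y, hy⟩ : K.Nonempty := by
      rw [Set.nonempty_iff_ne_empty]
      rintro rfl
      simpa using hK.vol_pos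
    have h1 := hfu y hy
    have h2 := (abs_le.mp (hK2 y hy)).1
    rw [← h] at h2 h3
    linarith
  · have h4 : t ≤ u * (2 * n) := by
      have : t * t ≤ (u * (2 * n)) * t := by nlinarith
      exact le_of_mul_le_mul_right this h
    have h5 : u * (2 * n) < t * (1 / (4 * n)) * (2 * n) :=
      mul_lt_mul_of_pos_right (hux.trans_le h3) (by positivity)
    have h6 : t * (1 / (4 * n)) * (2 * n) = t / 2 := by field_simp; norm_num
    linarith

end Crest.Agent.R225U
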