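import Crest.Agent.R225U.CLT
import Crest.Agent.R225U.LogC

/-!
Row 225 (S0347): weak thin shell estimate.
-/

set_option autoImplicit false

open MeasureTheory
open Crest.Agent.R153

namespace Crest.Agent.R225U

/-- the constant `(2 π e)^{-1/2}` -/
noncomputable def shellK : ℝ := (Real.sqrt (2 * Real.pi))⁻¹ * Real.exp (-1 / 2)

lemma shellK_pos : 0 < shellK := by
  unfold shellK
  have := Real.pi_pos
  positivity

lemma shell_phiv_eq {V a : ℝ} (hV : 0 < V) (ha : 0 < a) :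
    phiv V a = shellK / a * (a / Real.sqrt V * Real.exp ((1 - (a / Real.sqrt V) ^ 2) / 2)) := by
  unfold phiv shellK
  have hpi := Real.pi_pos
  have hs : 0 < Real.sqrt V := Real.sqrt_pos.mpr hV
  have h1 : -(a ^ 2) / (2 * V) = -1 / 2 + (1 - (a / Real.sqrt V) ^ 2) / 2 := by
    rw [div_pow, Real.sq_sqrt hV.le]
    field_simp
    ring
  rw [h1, Real.exp_add, Real.sqrt_mul (by positivity)]
  have : 0 < Real.sqrt (2 * Real.pi) := Real.sqrt_pos.mpr (by positivity)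
  field_simp

lemma shell_upper {V a : ℝ} (hV : 0 < V) (ha : 0 < a) : phiv V a ≤ shellK / a := by
  rw [shell_phiv_eq hV ha]
  refine mul_le_of_le_one_right (div_pos shellK_pos ha).le ?_
  set r := a / Real.sqrt V with hr
  have h1 : r ≤ Real.exp ((r ^ 2 - 1) / 2) := by
    have := Real.add_one_le_exp ((r ^ 2 - 1) / 2)
    nlinarith [sq_nonneg (r - 1)]
  have h2 : Real.exp ((r ^ 2 - 1) / 2) * Real.exp ((1 - r ^ 2) / 2) = 1 := by
    rw [← Real.exp_add]
    have : (r ^ 2 - 1) / 2 + (1 - r ^ 2) / 2 = 0 := by ring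
    rw [this, Real.exp_zero]
  calc r * Real.exp ((1 - r ^ 2) / 2)
      ≤ Real.exp ((r ^ 2 - 1) / 2) * Real.exp ((1 - r ^ 2) / 2) :=
        mul_le_mul_of_nonneg_right h1 (Real.exp_pos _).le
    _ = 1 := h2

lemma shell_lower {l : ℕ} (hl : 1 ≤ l) {V a : ℝ} (ha : 1 ≤ a) (h1 : a ^ 2 ≤ V)
    (h2 : V ≤ a ^ 2 + 1 / l) : (shellK / a) ^ l / 2 ≤ phiv V a ^ l := by
  have hl0 : (0 : ℝ) < l := by exact_mod_cast hl
  have ha0 : 0 < a := by linarith
  have ha2 : 1 ≤ a ^ 2 := one_le_pow₀ ha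
  have hV : 0 < V := by linarith
  rw [shell_phiv_eq hV ha0, mul_pow, div_eq_mul_inv ((shellK / a) ^ l)]
  refine mul_le_mul_of_nonneg_left ?_ (pow_pos (div_pos shellK_pos ha0) _).le
  set r := a / Real.sqrt V with hr
  have hr0 : 0 < r := div_pos ha0 (Real.sqrt_pos.mpr hV)
  have hr2 : r ^ 2 = a ^ 2 / V := by rw [hr, div_pow, Real.sq_sqrt hV.le]
  have hr1 : r ^ 2 ≤ 1 := by rw [hr2, div_le_one hV]; exact h1
  have h3 : r ≤ r * Real.exp ((1 - r ^ 2) / 2) :=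
    le_mul_of_one_le_right hr0.le (Real.one_le_exp (by linarith))
  refine le_trans ?_ (pow_le_pow_left₀ hr0.le h3 l)
  have h4 : Real.exp (-(1 / l)) ≤ r ^ 2 := by
    rw [hr2, Real.exp_neg, inv_le_comm₀ (Real.exp_pos _) (by positivity), inv_div,
      div_le_iff₀ (by positivity)]
    have h5 := Real.add_one_le_exp (1 / l : ℝ)
    have h6 : (0 : ℝ) < 1 / l := by positivity
    nlinarith
  have h5 : Real.exp (-1) ≤ (r ^ l) ^ 2 := by
    rw [← pow_mul, mul_comm, pow_mul]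
    refine le_trans (le_of_eq ?_) (pow_le_pow_left₀ (Real.exp_pos _).le h4 l)
    rw [← Real.exp_nat_mul]
    congr 1
    field_simp
  have h6 : (1 / 4 : ℝ) ≤ Real.exp (-1) := by
    rw [Real.exp_neg, le_inv_comm₀ (by norm_num) (Real.exp_pos _)]
    have := Real.exp_one_lt_d9
    linarith
  refine (sq_le_sq₀ (by norm_num) (pow_pos hr0 l).le).mp ?_
  linarith

lemma shell_zeta {l n : ℕ} (hl : 1 ≤ l) (hn : 2 ≤ n) (h : 20 * (l : ℝ) + 24 ≤ Real.log n) :
    ((4 * Real.pi * (1 / 2))⁻¹) ^ l * (l / (2 * (1 / 2))) * (Real.sqrt n / n)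
      ≤ (1 / (256 * l) * (shellK / 3) ^ l) ^ 2 := by
  have hl0 : (0 : ℝ) < l := by exact_mod_cast hl
  have hn0 : (0 : ℝ) < n := by exact_mod_cast (by omega : 0 < n)
  have hpi := Real.pi_pos
  have h1 : (shellK / 3) ^ 2 = (4 * Real.pi * (1 / 2))⁻¹ * (Real.exp (-1) / 9) := by
    unfold shellK
    rw [div_pow, mul_pow, inv_pow, Real.sq_sqrt (by positivity), ← Real.exp_nat_mul]
    have : ((2 : ℕ) : ℝ) * (-1 / 2) = -1 := by norm_num
    rw [this]
    field_simp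
    norm_num
  have h0 : (1 / (256 * (l : ℝ)) * (shellK / 3) ^ l) ^ 2 = ((4 * Real.pi * (1 / 2))⁻¹) ^ l *
      ((1 / (256 * (l : ℝ))) ^ 2 * (Real.exp (-1) / 9) ^ l) := by
    rw [mul_pow, ← pow_mul, mul_comm l 2, pow_mul, h1, mul_pow]
    ring
  rw [h0, mul_assoc]
  refine mul_le_mul_of_nonneg_left ?_ (by positivity)
  have h2 : Real.sqrt n / n = (Real.sqrt n)⁻¹ := by
    have : 0 < Real.sqrt n := Real.sqrt_pos.mpr hn0
    field_simp
    rw [Real.sq_sqrt hn0.le]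
  have h3 : Real.exp (10 * l + 12) ≤ Real.sqrt n := by
    refine Real.le_sqrt_of_sq_le ?_
    rw [← Real.exp_nat_mul, ← Real.exp_log hn0]
    refine Real.exp_le_exp.mpr ?_
    push_cast
    linarith
  have h4 : (65536 : ℝ) ≤ Real.exp 12 := by
    have h5 : Real.exp 12 = Real.exp 1 ^ 12 := by rw [← Real.exp_nat_mul]; norm_num
    have h6 : (2.7 : ℝ) ≤ Real.exp 1 := by linarith [Real.exp_one_gt_d9]
    rw [h5]
    exact le_trans (by norm_num) (pow_le_pow_left₀ (by norm_num) h6 12)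
  have h5 : (l : ℝ) ^ 3 ≤ Real.exp (3 * l) := by
    have h6 : Real.exp (3 * l) = Real.exp l ^ 3 := by rw [← Real.exp_nat_mul]; norm_num
    rw [h6]
    exact pow_le_pow_left₀ hl0.le (by linarith [Real.add_one_le_exp (l : ℝ)]) 3
  have h6 : Real.exp (-(7 * l)) ≤ (Real.exp (-1) / 9) ^ l := by
    have h7 : Real.exp (-(7 * l)) = Real.exp (-7) ^ l := by
      rw [← Real.exp_nat_mul]; congr 1; ring
    rw [h7]
    refine pow_le_pow_left₀ (Real.exp_pos _).le ?_ l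
    have h8 : Real.exp (-7) = Real.exp (-1) * (Real.exp 6)⁻¹ := by
      rw [← Real.exp_neg, ← Real.exp_add]; norm_num
    rw [h8, div_eq_mul_inv]
    refine mul_le_mul_of_nonneg_left (inv_anti₀ (by norm_num) ?_) (Real.exp_pos _).le
    have h9 : Real.exp 6 = Real.exp 3 ^ 2 := by rw [← Real.exp_nat_mul]; norm_num
    have h10 := Real.add_one_le_exp (3 : ℝ)
    rw [h9]
    nlinarith
  have h7 : Real.exp (10 * l + 12) = Real.exp 12 * Real.exp (3 * l) * Real.exp (7 * l) := by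
    rw [← Real.exp_add, ← Real.exp_add]; congr 1; ring
  have h8 : 65536 * (l : ℝ) ^ 3 * Real.exp (7 * l) ≤ Real.sqrt n := by
    refine le_trans ?_ h3
    rw [h7]
    gcongr
  rw [h2]
  calc (l : ℝ) / (2 * (1 / 2)) * (Real.sqrt n)⁻¹
      ≤ (l : ℝ) / (2 * (1 / 2)) * (65536 * (l : ℝ) ^ 3 * Real.exp (7 * l))⁻¹ :=
        mul_le_mul_of_nonneg_left (inv_anti₀ (by positivity) h8) (by positivity)
    _ = (1 / (256 * l)) ^ 2 * Real.exp (-(7 * l)) := by
        rw [Real.exp_neg]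
        field_simp
        norm_num
    _ ≤ _ := mul_le_mul_of_nonneg_left h6 (by positivity)

lemma shell_gap {l' : ℕ} (hl : 1 ≤ l') {a b : ℝ} (ha : 1 ≤ a) (ha' : a ≤ 3) (hb : 1 ≤ b)
    (hb' : b ≤ 3)
    (h : (1 / (256 * ((3 * l' : ℕ) : ℝ)) * (shellK / a) ^ (3 * l')) *
        (1 / (256 * ((3 * l' : ℕ) : ℝ)) * (shellK / b) ^ (3 * l'))
      ≤ (2 * (shellK / ((a + b) / 2)) ^ (3 * l')) ^ 2) :
    l' * ((a ^ 2 - b ^ 2) ^ 2 / 1296) ^ 3 ≤ 9 * 2 ^ 18 := by
  have hl0 : (0 : ℝ) < l' := by exact_mod_cast hl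
  have hK := shellK_pos
  set x := (a ^ 2 - b ^ 2) ^ 2 / 1296 with hx
  have hx0 : 0 ≤ x := by positivity
  set c := (a + b) / 2 with hc
  have hc0 : 0 < c := by rw [hc]; linarith
  have hab : 0 < a * b := by positivity
  have h1 : (1 + x) * (shellK / c) ^ 2 ≤ shellK / a * (shellK / b) := by
    have h2 : (1 + x) * (a * b) ≤ c ^ 2 := by
      have h3 : x ≤ (a - b) ^ 2 / 36 := by
        have h4 : (a ^ 2 - b ^ 2) ^ 2 = (a - b) ^ 2 * (a + b) ^ 2 := by ring
        have h5 : (a + b) ^ 2 ≤ 36 := by nlinarith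
        rw [hx, h4]
        nlinarith [sq_nonneg (a - b)]
      have h4 : a * b ≤ 9 := by nlinarith
      have h5 : x * (a * b) ≤ (a - b) ^ 2 / 36 * 9 :=
        mul_le_mul h3 h4 hab.le (by positivity)
      rw [hc]
      nlinarith
    rw [div_pow, div_mul_div_comm, ← sq, ← mul_div_assoc, div_le_div_iff₀ (by positivity) hab]
    nlinarith [mul_le_mul_of_nonneg_left h2 (sq_nonneg shellK)]
  have h2 := pow_le_pow_left₀ (by positivity) h1 (3 * l')
  rw [mul_pow, mul_pow, ← pow_mul, mul_comm 2 (3 * l'), pow_mul (shellK / c)] at h2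
  set Y := (shellK / c) ^ (3 * l') with hY
  have hY0 : 0 < Y := by positivity
  have h3 : (l' * x) ^ 3 ≤ (1 + x) ^ (3 * l') := by
    rw [mul_comm 3 l', pow_mul]
    refine pow_le_pow_left₀ (by positivity) ?_ 3
    have := one_add_mul_le_pow (a := x) (by linarith) l'
    linarith
  have h4 : (1 / (256 * ((3 * l' : ℕ) : ℝ))) ^ 2 * ((l' * x) ^ 3 * Y ^ 2) ≤ 4 * Y ^ 2 := by
    calc (1 / (256 * ((3 * l' : ℕ) : ℝ))) ^ 2 * ((l' * x) ^ 3 * Y ^ 2)
        ≤ (1 / (256 * ((3 * l' : ℕ) : ℝ))) ^ 2 *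
            ((shellK / a) ^ (3 * l') * (shellK / b) ^ (3 * l')) := by
          refine mul_le_mul_of_nonneg_left (le_trans ?_ h2) (by positivity)
          exact mul_le_mul_of_nonneg_right h3 (by positivity)
      _ ≤ (2 * Y) ^ 2 := le_trans (le_of_eq (by ring)) h
      _ = 4 * Y ^ 2 := by ring
  rw [← mul_assoc] at h4
  have h5 := le_of_mul_le_mul_right h4 (pow_pos hY0 2)
  have h6 : (1 / (256 * ((3 * l' : ℕ) : ℝ))) ^ 2 * (l' * x) ^ 3
      = l' * x ^ 3 / (9 * 2 ^ 16) := by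
    push_cast
    field_simp
    ring
  rw [h6, div_le_iff₀ (by positivity)] at h5
  linarith

lemma shell_gv_const {l : ℕ} (V a : ℝ) : gv V (fun _ : Fin l => a) = phiv V a ^ l := by
  simp [gv]

/-- Take `l = 3 l'` of order `C₁ / δ^6` (`C₁ = 64 * (1296 * 192)^3` is enough, `l ≥ 2/δ`), apply
`uniform_clt` with `v = 1/2`, `lam = n`, `Θ = n`: `|g t - m t| ≤ ζ`, `ζ² ≤ (2π)^{-l} l / √n`, where
`m t = E gv (V x) t`, `V x = |x|²/n + 1`, `E V = 2`.  Windows `W_j = [1 + j/l, 1 + (j+1)/l)`,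
`j < 8 l`; `P(V ≥ 9) ≤ 1/8`; a window is heavy if its probability is `≥ p* = 1/(64 l)`; light windows
have total probability `≤ 1/8`.  For `t_u = √(l u) e₀`: always `m t_u ≤ (2 π e u)^{-l/2}` (maximise
over `V`; `log x ≤ x - 1`), and if `u` is the left end of a heavy window,
`m t_u ≥ (p*/2) (2 π e u)^{-l/2}`.  When `log n ≥ 20 l + 24`, `ζ ≤ (p*/4) (18 π e)^{-l/2}`, and
`smooth_logconcave` at `t_{u₁}, t_{u₂}` and the midpoint `t_ū`, `√ū = (√u₁ + √u₂)/2`, gives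
`(ū / √(u₁ u₂))^l ≤ 2^18 l²`, while `ū / √(u₁ u₂) ≥ 1 + (u₁-u₂)²/1296` and
`(1+x)^(3 l') ≥ (l' x)³`.  So heavy left ends are within `δ/2` of each other; `s = u₁ - 1`. -/
theorem thin_shell : ∃ C : ℝ, 0 < C ∧ ∀ δ : ℝ, 0 < δ → δ ≤ 1 → ∀ n : ℕ, 2 ≤ n →
    C / δ ^ 6 ≤ Real.log n → ∀ K : Set (Fin n → ℝ), IsoBody K →
      ∃ s : ℝ, 0 ≤ s ∧ s ≤ 8 ∧
        3 / 4 ≤ (uni K).real {x | |(∑ i, x i ^ 2) / n - s| ≤ δ} := by
  classical
  obtain ⟨C₁, hC₁⟩ : ∃ C₁ : ℝ, C₁ = 9 * 2 ^ 18 * 5184 ^ 3 + 1 := ⟨_, rfl⟩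
  have hC₁2 : 2 ≤ C₁ := by rw [hC₁]; norm_num
  refine ⟨60 * (C₁ + 1) + 24, by positivity, fun δ hδ hδ1 n hn hlog K hK => ?_⟩
  have hn0 : (0 : ℝ) < n := by exact_mod_cast (by omega : 0 < n)
  have hδ6 : 0 < δ ^ 6 := by positivity
  have hδ6' : δ ^ 6 ≤ 1 := pow_le_one₀ hδ.le hδ1
  have hδ6'' : δ ^ 6 ≤ δ := pow_le_of_le_one hδ.le hδ1 (by norm_num)
  obtain ⟨l', hl'⟩ : ∃ l' : ℕ, l' = ⌈C₁ / δ ^ 6⌉₊ := ⟨_, rfl⟩
  have hl1 : C₁ / δ ^ 6 ≤ l' := by rw [hl']; exact Nat.le_ceil _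
  have hl2 : (l' : ℝ) ≤ C₁ / δ ^ 6 + 1 := by
    rw [hl']; exact (Nat.ceil_lt_add_one (by positivity)).le
  have hl3 : C₁ ≤ l' * δ ^ 6 := by rwa [div_le_iff₀ hδ6] at hl1
  have hl'0 : (0 : ℝ) < l' := lt_of_lt_of_le (by positivity) hl1
  have hl'1 : 1 ≤ l' := by exact_mod_cast hl'0
  obtain ⟨l, hl⟩ : ∃ l : ℕ, l = 3 * l' := ⟨_, rfl⟩
  have hlR : (l : ℝ) = 3 * l' := by rw [hl]; push_cast; ring
  have hl0 : (0 : ℝ) < l := by rw [hlR]; positivity
  have hlone : 1 ≤ l := by omega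
  have hlδ : 1 / (l : ℝ) ≤ δ / 2 := by
    rw [div_le_div_iff₀ hl0 (by norm_num), hlR]
    nlinarith [mul_le_mul_of_nonneg_left hδ6'' hl'0.le]
  have hlog' : 20 * (l : ℝ) + 24 ≤ Real.log n := by
    refine le_trans ?_ hlog
    have h1 : 1 ≤ 1 / δ ^ 6 := by rw [le_div_iff₀ hδ6]; linarith
    have h2 : (60 * (C₁ + 1) + 24) / δ ^ 6 = 60 * (C₁ / δ ^ 6) + 84 * (1 / δ ^ 6) := by ring
    rw [h2, hlR]
    linarith
  have := hK.isProb
  set μ := uni K with hμ
  set Q : (Fin n → ℝ) → ℝ := fun x => (∑ i, x i ^ 2) / n with hQ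
  have hQ0 : ∀ x, 0 ≤ Q x := fun x =>
    div_nonneg (Finset.sum_nonneg fun _ _ => sq_nonneg _) hn0.le
  have hQc : Continuous Q := by rw [hQ]; fun_prop
  have hQm : Measurable Q := hQc.measurable
  obtain ⟨Rb, hRb⟩ := hK.compact.isBounded.exists_norm_le
  obtain ⟨P, hP⟩ := uniform_clt (l := l) μ Rb
    (hK.ae_mem.mono fun x hx i => (norm_le_pi_norm x i).trans (hRb x hx))
    hn0 (v := 1 / 2) (Θ := n) (by norm_num) hK.theta.le
  have h21 : (2 : ℝ) * (1 / 2) = 1 := by norm_num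
  let g : ℝ → ℝ := fun a => ∫ x, gv 1 ((fun _ : Fin l => a) - P.mulVec x) ∂μ
  let m : ℝ → ℝ := fun a => ∫ x, phiv (Q x + 1) a ^ l ∂μ
  have hK0 := shellK_pos
  have hgm : ∀ a, 1 ≤ a → a ≤ 3 → |g a - m a| ≤ 1 / (256 * l) * (shellK / a) ^ l := by
    intro a ha ha'
    have h1 := (hP fun _ => a).trans (shell_zeta hlone hn hlog')
    simp only [h21, shell_gv_const] at h1
    refine (abs_le_of_sq_le_sq h1 (by positivity)).trans ?_
    gcongr
  have hint : ∀ a, 0 < a → Integrable (fun x => phiv (Q x + 1) a ^ l) μ := by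
    intro a ha
    refine Integrable.of_bound ?_ ((shellK / a) ^ l) (ae_of_all _ fun x => ?_)
    · refine Measurable.aestronglyMeasurable ?_
      unfold phiv
      fun_prop
    · have h1 : 0 < Q x + 1 := by linarith [hQ0 x]
      rw [Real.norm_of_nonneg (pow_pos (phiv_pos h1 a) l).le]
      exact pow_le_pow_left₀ (phiv_pos h1 a).le (shell_upper h1 ha) l
  have hm_up : ∀ a, 0 < a → m a ≤ (shellK / a) ^ l := by
    intro a ha
    have h1 : m a ≤ ∫ _x, (shellK / a) ^ l ∂μ := by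
      refine integral_mono (hint a ha) (integrable_const _) fun x => ?_
      have h1 : 0 < Q x + 1 := by linarith [hQ0 x]
      exact pow_le_pow_left₀ (phiv_pos h1 a).le (shell_upper h1 ha) l
    simpa using h1
  let W : ℕ → Set (Fin n → ℝ) := fun j => Q ⁻¹' Set.Ico ((j : ℝ) / l) ((j + 1) / l)
  have hWm : ∀ j, MeasurableSet (W j) := fun j => hQm measurableSet_Ico
  let A : ℕ → ℝ := fun j => Real.sqrt (1 + j / l)
  have hA2 : ∀ j, A j ^ 2 = 1 + j / l := fun j => Real.sq_sqrt (by positivity)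
  have hA1 : ∀ j, 1 ≤ A j := fun j => Real.one_le_sqrt.mpr (le_add_of_nonneg_right (by positivity))
  have hj8 : ∀ j : ℕ, j < 8 * l → (j : ℝ) / l ≤ 8 := by
    intro j hj
    rw [div_le_iff₀ hl0]
    exact_mod_cast hj.le
  have hA3 : ∀ j, j < 8 * l → A j ≤ 3 := by
    intro j hj
    refine Real.sqrt_le_iff.mpr ⟨by norm_num, ?_⟩
    linarith [hj8 j hj]
  have hg_low : ∀ j, j < 8 * l → 1 / (64 * l) ≤ μ.real (W j) →
      1 / (256 * l) * (shellK / A j) ^ l ≤ g (A j) := by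
    intro j hj hW
    have ha0 : 0 < A j := by linarith [hA1 j]
    have h1 : ∫ x, (W j).indicator (fun _ => (shellK / A j) ^ l / 2) x ∂μ ≤ m (A j) := by
      refine integral_mono ((integrable_const _).indicator (hWm j)) (hint _ ha0) fun x => ?_
      by_cases hx : x ∈ W j
      · rw [Set.indicator_of_mem hx]
        obtain ⟨hx1, hx2⟩ := hx
        refine shell_lower hlone (hA1 j) ?_ ?_
        · rw [hA2]; linarith
        · rw [hA2]
          rw [add_div] at hx2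
          linarith
      · rw [Set.indicator_of_notMem hx]
        exact (pow_pos (phiv_pos (by linarith [hQ0 x]) _) l).le
    rw [integral_indicator_const _ (hWm j), smul_eq_mul] at h1
    have h2 : 1 / (64 * l) * ((shellK / A j) ^ l / 2) ≤ m (A j) :=
      (mul_le_mul_of_nonneg_right hW (by positivity)).trans h1
    have h3 := (abs_le.mp (hgm _ (hA1 j) (hA3 j hj))).1
    have h4 : 1 / (64 * l) * ((shellK / A j) ^ l / 2)
        = 2 * (1 / (256 * l) * (shellK / A j) ^ l) := by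
      field_simp
      norm_num
    linarith
  have hclose : ∀ j j', j < 8 * l → j' < 8 * l → 1 / (64 * l) ≤ μ.real (W j) →
      1 / (64 * l) ≤ μ.real (W j') → |(j : ℝ) / l - j' / l| ≤ δ / 2 := by
    intro j j' hj hj' hW hW'
    have ha0 : 0 < A j := by linarith [hA1 j]
    have hb0 : 0 < A j' := by linarith [hA1 j']
    have h1 := smooth_logconcave hK one_pos P (fun _ => A j) (fun _ => A j')
    have h2 : ((1 / 2 : ℝ) • (fun _ : Fin l => A j) + (1 / 2 : ℝ) • fun _ : Fin l => A j')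
        = fun _ => (A j + A j') / 2 := by
      funext i
      simp only [Pi.add_apply, Pi.smul_apply, smul_eq_mul]
      ring
    rw [h2] at h1
    change g (A j) * g (A j') ≤ g ((A j + A j') / 2) ^ 2 at h1
    have hc1 : 1 ≤ (A j + A j') / 2 := by linarith [hA1 j, hA1 j']
    have hc3 : (A j + A j') / 2 ≤ 3 := by linarith [hA3 j hj, hA3 j' hj']
    have h3 : |g ((A j + A j') / 2)| ≤ 2 * (shellK / ((A j + A j') / 2)) ^ l := by
      have h4 := abs_le.mp (hgm _ hc1 hc3)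
      have h5 := hm_up ((A j + A j') / 2) (by linarith)
      have h6 : 0 ≤ m ((A j + A j') / 2) :=
        integral_nonneg fun x => (pow_pos (phiv_pos (by linarith [hQ0 x]) _) l).le
      have h7 : 1 / (256 * l) * (shellK / ((A j + A j') / 2)) ^ l
          ≤ (shellK / ((A j + A j') / 2)) ^ l := by
        refine mul_le_of_le_one_left (by positivity) ?_
        rw [div_le_one (by positivity)]
        have : (1 : ℝ) ≤ l := by exact_mod_cast hlone
        linarith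
      have h8 : 0 ≤ (shellK / ((A j + A j') / 2)) ^ l := by positivity
      rw [abs_le]
      constructor <;> linarith
    have h4 : (1 / (256 * l) * (shellK / A j) ^ l) * (1 / (256 * l) * (shellK / A j') ^ l)
        ≤ (2 * (shellK / ((A j + A j') / 2)) ^ l) ^ 2 := by
      have h5 := hg_low j hj hW
      have h6 := hg_low j' hj' hW'
      refine (mul_le_mul h5 h6 (by positivity) (le_trans (by positivity) h5)).trans (h1.trans ?_)
      rw [← sq_abs]
      exact pow_le_pow_left₀ (abs_nonneg _) h3 2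
    have h5 := shell_gap hl'1 (hA1 j) (hA3 j hj) (hA1 j') (hA3 j' hj') (by rw [← hl]; exact h4)
    rw [hA2, hA2, add_sub_add_left_eq_sub] at h5
    by_contra hcon
    push Not at hcon
    have h6 : (δ / 2) ^ 2 ≤ ((j : ℝ) / l - j' / l) ^ 2 := by
      rw [← sq_abs ((j : ℝ) / l - j' / l)]
      exact pow_le_pow_left₀ (by positivity) hcon.le 2
    have h7 : ((δ / 2) ^ 2 / 1296) ^ 3 ≤ (((j : ℝ) / l - j' / l) ^ 2 / 1296) ^ 3 := by gcongr
    have h8 := (mul_le_mul_of_nonneg_left h7 hl'0.le).trans h5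
    have h9 : (l' : ℝ) * ((δ / 2) ^ 2 / 1296) ^ 3 = l' * δ ^ 6 / 5184 ^ 3 := by ring
    rw [h9, div_le_iff₀ (by positivity)] at h8
    linarith
  obtain ⟨s, hs0, hs8, hs⟩ : ∃ s : ℝ, 0 ≤ s ∧ s ≤ 8 ∧ ∀ j : ℕ, j < 8 * l →
      1 / (64 * l) ≤ μ.real (W j) → |(j : ℝ) / l - s| ≤ δ / 2 := by
    by_cases hex : ∃ j' : ℕ, j' < 8 * l ∧ 1 / (64 * l) ≤ μ.real (W j')
    · obtain ⟨j', hj', hW'⟩ := hex
      exact ⟨j' / l, by positivity, hj8 j' hj', fun j hj hW => hclose j j' hj hj' hW hW'⟩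
    · exact ⟨0, le_rfl, by norm_num, fun j hj hW => absurd ⟨j, hj, hW⟩ hex⟩
  refine ⟨s, hs0, hs8, ?_⟩
  set S : Set (Fin n → ℝ) := {x | |Q x - s| ≤ δ} with hS
  set Lt := (Finset.range (8 * l)).filter fun j => μ.real (W j) < 1 / (64 * l) with hLt
  have hcov : Set.univ ⊆ S ∪ ({x | 8 ≤ Q x} ∪ ⋃ j ∈ Lt, W j) := by
    intro x _
    by_cases h8 : 8 ≤ Q x
    · exact Or.inr (Or.inl h8)
    push Not at h8
    have hx0 : 0 ≤ Q x * l := mul_nonneg (hQ0 x) hl0.le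
    have h1 : (⌊Q x * l⌋₊ : ℝ) ≤ Q x * l := Nat.floor_le hx0
    have h2 : Q x * l < ⌊Q x * l⌋₊ + 1 := Nat.lt_floor_add_one _
    have hj : ⌊Q x * l⌋₊ < 8 * l := by
      rw [Nat.floor_lt hx0]
      push_cast
      nlinarith
    have h3 : (⌊Q x * l⌋₊ : ℝ) / l ≤ Q x := by rwa [div_le_iff₀ hl0]
    have h4 : Q x < (⌊Q x * l⌋₊ + 1 : ℝ) / l := by rwa [lt_div_iff₀ hl0]
    by_cases hW : 1 / (64 * l) ≤ μ.real (W ⌊Q x * l⌋₊)
    · left
      have h5 := abs_le.mp (hs _ hj hW)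
      rw [add_div] at h4
      change |Q x - s| ≤ δ
      rw [abs_le]
      constructor <;> linarith
    · right; right
      exact Set.mem_biUnion (Finset.mem_coe.mpr (Finset.mem_filter.mpr
        ⟨Finset.mem_range.mpr hj, not_le.mp hW⟩)) ⟨h3, h4⟩
  have h1 : μ.real {x | 8 ≤ Q x} ≤ 1 / 8 := by
    have h2 := mul_meas_ge_le_integral_of_nonneg (μ := μ) (ae_of_all _ hQ0) (hK.integrable hQc) 8
    have h3 : ∫ x, Q x ∂μ = 1 := by
      rw [hQ, integral_div, hK.sq_norm, div_self hn0.ne']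
    linarith
  have h2 : μ.real (⋃ j ∈ Lt, W j) ≤ 1 / 8 := by
    refine (measureReal_biUnion_finset_le _ _).trans ?_
    calc ∑ j ∈ Lt, μ.real (W j) ≤ ∑ _j ∈ Lt, 1 / (64 * (l : ℝ)) :=
          Finset.sum_le_sum fun j hj => (Finset.mem_filter.mp hj).2.le
      _ ≤ ∑ _j ∈ Finset.range (8 * l), 1 / (64 * (l : ℝ)) :=
          Finset.sum_le_sum_of_subset_of_nonneg (Finset.filter_subset _ _)
            fun _ _ _ => by positivity
      _ = 1 / 8 := by
          rw [Finset.sum_const, Finset.card_range, nsmul_eq_mul]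
          push_cast
          field_simp
          norm_num
  have h3 := measureReal_mono (μ := μ) hcov
  have h4 := measureReal_union_le (μ := μ) S ({x | 8 ≤ Q x} ∪ ⋃ j ∈ Lt, W j)
  have h5 := measureReal_union_le (μ := μ) {x | 8 ≤ Q x} (⋃ j ∈ Lt, W j)
  rw [probReal_univ] at h3
  linarith

end Crest.Agent.R225U
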