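import Crest.Agent.R225U.StepGeo
import Crest.Agent.R225U.Lln
import Crest.Agent.R225U.Glue
import Crest.Agent.R225U.Block
import Crest.Agent.R225U.Block1

/-!
Row 225 (S0347): design step, choice of parameters.
-/

set_option autoImplicit false

open Finset
open Crest.Agent.R153

namespace Crest.Agent.R225U

lemma step_key {x : ℝ} (hx : 10 ^ 6 ≤ x) (C : ℝ) (a b : ℕ) (hC : C ≤ 10 ^ 6) (hab : a + 1 ≤ b) :
    C * x ^ a ≤ x ^ b := by
  have hx1 : 1 ≤ x := by linarith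
  calc C * x ^ a ≤ x * x ^ a := mul_le_mul_of_nonneg_right (hC.trans hx) (by positivity)
    _ = x ^ (a + 1) := by ring
    _ ≤ x ^ b := pow_le_pow_right₀ hx1 hab

lemma step_keyd {x : ℝ} (hx : 10 ^ 6 ≤ x) (C : ℝ) (a b : ℕ) (hC : C ≤ 10 ^ 6) (hab : a + 1 ≤ b) :
    C * (1 / x ^ b) ≤ 1 / x ^ a := by
  have hx0 : 0 < x := by linarith
  rw [mul_one_div, div_le_div_iff₀ (by positivity) (by positivity), one_mul]
  exact step_key hx C a b hC hab

lemma step_exp_neg_le {a : ℝ} (ha : 0 < a) : Real.exp (-a) ≤ 1 / a := by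
  rw [Real.exp_neg, one_div]
  exact inv_anti₀ ha (by linarith [Real.add_one_le_exp a])

lemma step_ev : ∃ y₀ : ℕ, ∀ y : ℕ, y₀ ≤ y → (10 : ℝ) ^ 6 ≤ y ∧ (640 * Real.log y) ^ 2 ≤ y := by
  have h1 : ∀ᶠ x : ℝ in Filter.atTop, (640 * Real.log x) ^ 2 ≤ x := by
    have := (isLittleO_log_rpow_atTop (r := 1 / 2) (by norm_num)).bound
      (show (0 : ℝ) < 1 / 640 by norm_num)
    filter_upwards [this, Filter.eventually_ge_atTop 1] with x hx hx1
    have hx0 : 0 ≤ x := by linarith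
    rw [Real.norm_eq_abs, Real.norm_eq_abs, abs_of_nonneg (Real.log_nonneg hx1),
      abs_of_nonneg (Real.rpow_nonneg hx0 _), ← Real.sqrt_eq_rpow] at hx
    have h2 : 640 * Real.log x ≤ √x := by linarith
    calc (640 * Real.log x) ^ 2 ≤ √x ^ 2 :=
          pow_le_pow_left₀ (by have := Real.log_nonneg hx1; positivity) h2 2
      _ = x := Real.sq_sqrt hx0
  have h2 := tendsto_natCast_atTop_atTop.eventually
    ((Filter.eventually_ge_atTop ((10 : ℝ) ^ 6)).and h1)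
  exact Filter.eventually_atTop.1 h2

lemma step_loss {x β H π₀ : ℝ} (hx : 10 ^ 6 ≤ x) (hβ : β ≤ 2 * (1 / x ^ 40))
    (hH : 64 * H ^ 2 ≤ x) (hπ : 1 / (20 * x ^ 11) ≤ π₀) :
    x ^ 32 * β + x ^ 32 * H ^ 2 / (x ^ 17) ^ 2 + x ^ 32 / (x ^ 17) ^ 2 + 4 / (x ^ 32 * π₀ ^ 2)
      ≤ 1 / (16 * x) := by
  have hx0 : 0 < x := by linarith
  have a1 : x ^ 32 * β ≤ 2 * (1 / x ^ 8) := by
    calc x ^ 32 * β ≤ x ^ 32 * (2 * (1 / x ^ 40)) := mul_le_mul_of_nonneg_left hβ (by positivity)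
      _ = 2 * (1 / x ^ 8) := by field_simp
  have a2 : x ^ 32 * H ^ 2 / (x ^ 17) ^ 2 ≤ 1 / 64 * (1 / x ^ 1) := by
    have e : x ^ 32 * H ^ 2 / (x ^ 17) ^ 2 = H ^ 2 / x ^ 2 := by field_simp
    rw [e, div_le_iff₀ (by positivity)]
    have e2 : 1 / 64 * (1 / x ^ 1) * x ^ 2 = x / 64 := by field_simp
    rw [e2]; linarith
  have a3 : x ^ 32 / (x ^ 17) ^ 2 = 1 / x ^ 2 := by field_simp
  have a4 : 4 / (x ^ 32 * π₀ ^ 2) ≤ 1600 * (1 / x ^ 10) := by
    have b1 : (1 / (20 * x ^ 11)) ^ 2 ≤ π₀ ^ 2 := pow_le_pow_left₀ (by positivity) hπ 2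
    calc 4 / (x ^ 32 * π₀ ^ 2) ≤ 4 / (x ^ 32 * (1 / (20 * x ^ 11)) ^ 2) := by gcongr
      _ = 1600 * (1 / x ^ 10) := by field_simp; norm_num
  have b1 := step_keyd hx 128 1 8 (by norm_num) (by norm_num)
  have b2 := step_keyd hx 64 1 2 (by norm_num) (by norm_num)
  have b3 := step_keyd hx 102400 1 10 (by norm_num) (by norm_num)
  have e : 1 / (16 * x) = 1 / 16 * (1 / x ^ 1) := by field_simp
  rw [a3, e]
  linarith

lemma step_pow_ge {R : ℕ} (hR : 2 ≤ R) : 1 / 9 ≤ (1 - 1 / (R : ℝ)) ^ R := by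
  have hR' : (2 : ℝ) ≤ R := by exact_mod_cast hR
  have hR0 : (0 : ℝ) < R := by linarith
  have hu0 : 0 < 1 / (R : ℝ) := by positivity
  have hu : 1 / (R : ℝ) ≤ 1 / 2 := one_div_le_one_div_of_le (by norm_num) hR'
  have h1 : Real.exp (-(2 * (1 / R))) ≤ 1 - 1 / (R : ℝ) := by
    set u := 1 / (R : ℝ)
    have h2 := Real.add_one_le_exp (2 * u)
    rw [Real.exp_neg, inv_le_comm₀ (Real.exp_pos _) (by linarith)]
    refine le_trans ?_ h2
    rw [inv_le_iff_one_le_mul₀ (by linarith)]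
    nlinarith
  have h3 := pow_le_pow_left₀ (Real.exp_pos _).le h1 R
  rw [← Real.exp_nat_mul] at h3
  have e : (R : ℝ) * -(2 * (1 / R)) = -2 := by field_simp
  rw [e] at h3
  refine le_trans ?_ h3
  have h4 : Real.exp 2 ≤ 9 := by
    have h5 : Real.exp 2 = Real.exp 1 * Real.exp 1 := by rw [← Real.exp_add]; norm_num
    have h6 := Real.exp_one_lt_three
    have h7 := Real.exp_pos 1
    nlinarith
  rw [Real.exp_neg, one_div]
  exact inv_anti₀ (Real.exp_pos _) h4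

lemma step_four_le : (4 : ℝ) ≤ Real.exp 2 := by
  have h5 : Real.exp 2 = Real.exp 1 * Real.exp 1 := by rw [← Real.exp_add]; norm_num
  have h6 := Real.add_one_le_exp 1
  nlinarith

lemma step_tau {x ℓ : ℝ} (hx : 10 ^ 6 ≤ x) (hℓ : Real.exp ℓ = x) (hℓ0 : 0 ≤ ℓ) (hℓx : 80 * ℓ ≤ x)
    {R : ℕ} (hR : (R : ℝ) = x ^ 17) :
    Real.exp (-(x ^ 18 / 2)) ≤ 1 / x ^ 29 * (1 / x ^ 2 / 8) ^ R := by
  have hx0 : 0 < x := by linarith
  have hx1 : 1 ≤ x := by linarith
  have hp : ∀ k : ℕ, 1 / x ^ k = Real.exp (-(k * ℓ)) := fun k => by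
    rw [Real.exp_neg, Real.exp_nat_mul, hℓ, one_div]
  have a1 : 1 / x ^ 3 ≤ 1 / x ^ 2 / 8 := by
    have := step_keyd hx 8 2 3 (by norm_num) (by norm_num)
    linarith
  have a2 : (1 / x ^ 3) ^ R ≤ (1 / x ^ 2 / 8) ^ R := pow_le_pow_left₀ (by positivity) a1 R
  refine le_trans ?_ (mul_le_mul_of_nonneg_left a2 (by positivity))
  rw [hp, hp, ← Real.exp_nat_mul, ← Real.exp_add, hR]
  apply Real.exp_le_exp.2
  have b1 : 1 ≤ x ^ 17 := one_le_pow₀ hx1
  have b2 : x ^ 18 = x * x ^ 17 := by ring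
  push_cast
  nlinarith [mul_le_mul_of_nonneg_left b1 hℓ0, mul_le_mul_of_nonneg_right hℓx (by positivity : 0 ≤ x ^ 17)]

lemma step_eps {x c' τ₀ : ℝ} (hx : 10 ^ 6 ≤ x) (hc' : 0 < c')
    (hτ : c' * Real.exp (-(x ^ 18 / 2)) ≤ τ₀) :
    Real.exp (3 * x ^ 17) ^ 2 * (c' * Real.exp (-x ^ 18)) / τ₀
      + (Real.exp (-x ^ 17) + 4 * (3 * x * Real.exp (-x ^ 17)))
      ≤ Real.exp (-(x ^ 17 / 2)) * (1 / x ^ 2 / 9) ^ 2 := by
  have hx0 : 0 < x := by linarith
  have a1 : Real.exp (3 * x ^ 17) ^ 2 * (c' * Real.exp (-x ^ 18)) / τ₀ ≤ Real.exp (-x ^ 17) := by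
    calc _ ≤ Real.exp (3 * x ^ 17) ^ 2 * (c' * Real.exp (-x ^ 18))
          / (c' * Real.exp (-(x ^ 18 / 2))) := by gcongr
      _ = Real.exp (3 * x ^ 17) ^ 2 * Real.exp (-x ^ 18) / Real.exp (-(x ^ 18 / 2)) := by
          field_simp
      _ ≤ Real.exp (-x ^ 17) := by
          rw [← Real.exp_nat_mul, ← Real.exp_add, ← Real.exp_sub]
          apply Real.exp_le_exp.2
          have := step_key hx 14 17 18 (by norm_num) (by norm_num)
          push_cast
          linarith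
  have a2 : Real.exp (-x ^ 17) = Real.exp (-(x ^ 17 / 2)) * Real.exp (-(x ^ 17 / 2)) := by
    rw [← Real.exp_add]; congr 1; ring
  have a3 : Real.exp (-(x ^ 17 / 2)) ≤ 2 * (1 / x ^ 17) := by
    refine (step_exp_neg_le (by positivity)).trans (le_of_eq ?_)
    field_simp
  have a4 : 14 * x * (2 * (1 / x ^ 17)) ≤ (1 / x ^ 2 / 9) ^ 2 := by
    have e1 : 14 * x * (2 * (1 / x ^ 17)) = 28 * (1 / x ^ 16) := by field_simp; norm_num
    have e2 : (1 / x ^ 2 / 9) ^ 2 = 1 / 81 * (1 / x ^ 4) := by field_simp; norm_num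
    have := step_keyd hx (28 * 81) 4 16 (by norm_num) (by norm_num)
    rw [e1, e2]; linarith
  have a5 : 14 * x * Real.exp (-(x ^ 17 / 2)) ≤ (1 / x ^ 2 / 9) ^ 2 :=
    (mul_le_mul_of_nonneg_left a3 (by positivity)).trans a4
  have a6 := mul_le_mul_of_nonneg_left a5 (Real.exp_pos (-(x ^ 17 / 2))).le
  have a7 : 0 < Real.exp (-x ^ 17) := Real.exp_pos _
  have a8 : Real.exp (-x ^ 17) ≤ x * Real.exp (-x ^ 17) :=
    le_mul_of_one_le_left a7.le (by linarith)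
  have a9 : Real.exp (-(x ^ 17 / 2)) * (14 * x * Real.exp (-(x ^ 17 / 2)))
      = 14 * (x * Real.exp (-x ^ 17)) := by rw [a2]; ring
  linarith

lemma step_fail {x N N' : ℝ} (hx : 10 ^ 6 ≤ x) {k t : ℕ} (hk : (k : ℝ) ≤ x ^ 29)
    (ht : (t : ℝ) = x ^ 17) (hN : N ≤ Real.exp (x ^ 30)) (hN0' : 0 ≤ N')
    (hN' : N' ≤ Real.exp (x ^ 33)) :
    N * (4 ^ k * (2 * Real.exp (4 * x ^ 17 - x ^ 32 / 1000) / Real.exp (-x ^ 17) ^ 2)
      + N' * (3 ^ k * Real.exp (-(x ^ 17 / 2)) ^ t)) < 1 := by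
  have hx0 : 0 < x := by linarith
  have a1 : (4 : ℝ) ^ k ≤ Real.exp (2 * x ^ 29) := by
    refine (pow_le_pow_left₀ (by norm_num) step_four_le k).trans ?_
    rw [← Real.exp_nat_mul]
    exact Real.exp_le_exp.2 (by linarith)
  have a2 : (3 : ℝ) ^ k ≤ Real.exp (2 * x ^ 29) :=
    (pow_le_pow_left₀ (by norm_num) (by norm_num) k).trans a1
  have e1 : 2 * Real.exp (4 * x ^ 17 - x ^ 32 / 1000) / Real.exp (-x ^ 17) ^ 2
      = 2 * Real.exp (6 * x ^ 17 - x ^ 32 / 1000) := by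
    rw [← Real.exp_nat_mul, mul_div_assoc, ← Real.exp_sub]; congr 2; push_cast; ring
  have e2 : Real.exp (-(x ^ 17 / 2)) ^ t = Real.exp (-(x ^ 34 / 2)) := by
    rw [← Real.exp_nat_mul, ht]; congr 1; ring
  rw [e1, e2]
  have b1 := step_key hx 4000 30 32 (by norm_num) (by norm_num)
  have b2 := step_key hx 8000 29 32 (by norm_num) (by norm_num)
  have b3 := step_key hx 24000 17 32 (by norm_num) (by norm_num)
  have b4 := step_key hx 4000 1 32 (by norm_num) (by norm_num)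
  have c1 := step_key hx 8 30 34 (by norm_num) (by norm_num)
  have c2 := step_key hx 8 33 34 (by norm_num) (by norm_num)
  have c3 := step_key hx 16 29 34 (by norm_num) (by norm_num)
  have c4 := step_key hx 8 1 34 (by norm_num) (by norm_num)
  rw [pow_one] at b4 c4
  have d : Real.exp (-x) ≤ 1 / 10 :=
    (step_exp_neg_le hx0).trans (one_div_le_one_div_of_le (by norm_num) (by linarith))
  calc N * (4 ^ k * (2 * Real.exp (6 * x ^ 17 - x ^ 32 / 1000))
        + N' * (3 ^ k * Real.exp (-(x ^ 34 / 2))))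
      ≤ Real.exp (x ^ 30) * (Real.exp (2 * x ^ 29) * (2 * Real.exp (6 * x ^ 17 - x ^ 32 / 1000))
        + Real.exp (x ^ 33) * (Real.exp (2 * x ^ 29) * Real.exp (-(x ^ 34 / 2)))) := by gcongr
    _ = 2 * Real.exp (x ^ 30 + 2 * x ^ 29 + (6 * x ^ 17 - x ^ 32 / 1000))
        + Real.exp (x ^ 30 + x ^ 33 + 2 * x ^ 29 + -(x ^ 34 / 2)) := by
        simp only [Real.exp_add]; ring
    _ ≤ 2 * Real.exp (-x) + Real.exp (-x) := by
        gcongr
        · linarith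
        · linarith
    _ < 1 := by linarith

lemma step_theta {x π₀ c' : ℝ} (hx : 10 ^ 6 ≤ x) (hc' : 0 < c') (hπ : 1 / (20 * x ^ 11) ≤ π₀) :
    c' * Real.exp (-x ^ 18) * (Real.exp (3 * x ^ 17) * (2 : ℝ) ^ (-(x ^ 32 * π₀ / 2)))
      ≤ c' * (1 - 1 / (4 * x)) * Real.exp (-x ^ 20) := by
  have hx0 : 0 < x := by linarith
  have a1 : x ^ 21 / 40 ≤ x ^ 32 * π₀ / 2 := by
    have := mul_le_mul_of_nonneg_left hπ (by positivity : 0 ≤ x ^ 32)
    have e : x ^ 32 * (1 / (20 * x ^ 11)) = x ^ 21 / 20 := by field_simp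
    linarith
  have a2 : (2 : ℝ) ^ (-(x ^ 32 * π₀ / 2)) ≤ Real.exp (-(x ^ 21 / 80)) := by
    rw [Real.rpow_def_of_pos (by norm_num)]
    apply Real.exp_le_exp.2
    have := Real.log_two_gt_d9
    have b : 0 ≤ x ^ 21 := by positivity
    nlinarith
  have a3 : Real.exp (-x ^ 18) ≤ 1 := Real.exp_le_one_iff.2 (neg_nonpos.2 (by positivity))
  have a4 : Real.exp (3 * x ^ 17) * Real.exp (-(x ^ 21 / 80)) ≤ Real.exp (-2) * Real.exp (-x ^ 20) := by
    rw [← Real.exp_add, ← Real.exp_add]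
    apply Real.exp_le_exp.2
    have b1 := step_key hx 720 17 21 (by norm_num) (by norm_num)
    have b2 := step_key hx 240 20 21 (by norm_num) (by norm_num)
    have b3 := step_key hx 480 0 21 (by norm_num) (by norm_num)
    rw [pow_zero] at b3
    linarith
  have a5 : Real.exp (-2) ≤ 1 - 1 / (4 * x) := by
    have b1 := step_exp_neg_le (a := 2) (by norm_num)
    have b2 : 1 / (4 * x) ≤ 1 / 2 := one_div_le_one_div_of_le (by norm_num) (by linarith)
    linarith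
  calc _ ≤ c' * 1 * (Real.exp (3 * x ^ 17) * Real.exp (-(x ^ 21 / 80))) := by gcongr
    _ ≤ c' * 1 * (Real.exp (-2) * Real.exp (-x ^ 20)) := by gcongr
    _ ≤ c' * 1 * ((1 - 1 / (4 * x)) * Real.exp (-x ^ 20)) := by gcongr
    _ = _ := by ring

lemma step_bij {q b : ℕ} [Fact q.Prime] {d : ℤ} (hd : d ≠ 0) (hdq : |d| < q) :
    Function.Bijective (fun x : Fin b → ZMod q => d • x) := by
  have h1 : (d : ZMod q) ≠ 0 := by
    rw [Ne, ZMod.intCast_zmod_eq_zero_iff_dvd]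
    intro h
    exact absurd (Int.le_of_dvd (abs_pos.2 hd) ((dvd_abs _ _).2 h)) (not_le.2 hdq)
  rw [← Finite.injective_iff_bijective]
  intro x y hxy
  funext i
  have := congrFun hxy i
  simp only [Pi.smul_apply, zsmul_eq_mul] at this
  exact mul_left_cancel₀ h1 this

/-- Parameters: `b = y^32`, `h = √(80 log y)` (so `exp (-h²/8) = y^{-10}`, `exp (-h²/2) = y^{-40}`,
`8 ≤ h ≤ y`), `S = R = t = y^17`, `qt = y^42`, `q` a prime `≥ y^42` and
`> 4 (y exp (b h²) + 1)`, `Δ = q / qt + 1` (so `Δ / q ≤ 2 / qt`).  `block1`, `block` give `η, Rich, Keep`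
with loss `≤ 1/(16 y)`; `L = ⌈y / η⌉₊` (`4 L < q` by `eta_ge`); `glue` with `w = gw η`,
`lam = 3 y exp (-S)`, `Ξ = exp (4 S - b/1000)`, `ε₂ = exp (-S)`; `Y = x̄ - glueX`, `Y ≤ 1`,
`Y² ≤ (1 + exp (3S))²`, `x̄ ≥ 1 - 1/(8y)` (`gw_sum_ge`, `eta_le`).  `lln` with `ωm = c' exp (-y^18)`,
`d = 1/y²`, `dm = d/4`, `Q₀ = c' (d/8)^R`, `κ = 1/y^29`, `τ₀ = κ Q₀ ≥ c' exp (-y^18/2)`,
`ε = exp (-S/2)`, `ρ = 2 exp (6 S - b/1000)`; `(1+κ)^{k'} ≤ 3`, `(1-1/R)^R ≥ 1/4`.  So the mass is at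
least `(x̄ - 3/y²) c' ≥ (1 - 1/(4y)) c'`; `step_geo` with `θ = exp (3S) 2^{-b π₀/2}`,
`b π₀ / 2 ≥ y^21 / 40`. -/
theorem step : ∃ y₀ : ℕ, ∀ y : ℕ, y₀ ≤ y → ∀ (k' : ℕ) (c' : ℝ), 0 < c' → k' ≤ y ^ 29 →
    IsDesign k' ((y : ℝ) ^ 18) c' ((y : ℝ) ^ 30) →
      ∃ k : ℕ, 1 ≤ k ∧ k ≤ 2 * y ^ 32 ∧
        IsDesign k ((y : ℝ) ^ 20) (c' * (1 - 1 / (4 * (y : ℝ)))) (2 * (y : ℝ) ^ 33) := by
  obtain ⟨y₀, hy₀⟩ := step_ev
  refine ⟨y₀, fun y hy k' c' hc' hk' hD => ?_⟩
  obtain ⟨hx, hℓ⟩ := hy₀ y hy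
  obtain ⟨ι, _, B', Z', w', hι, hD⟩ := hD
  set x : ℝ := (y : ℝ) with hxdef
  have hx0 : 0 < x := by linarith
  have hx1 : 1 ≤ x := by linarith
  have hy1 : 1 ≤ y := by exact_mod_cast (show (1 : ℝ) ≤ y from hx1)
  set ℓ := Real.log x with hℓdef
  have hexp : Real.exp ℓ = x := Real.exp_log hx0
  have hℓ1 : 1 ≤ ℓ := by
    rw [hℓdef, Real.le_log_iff_exp_le hx0]
    linarith [Real.exp_one_lt_three]
  have hℓx : 80 * ℓ ≤ x := by nlinarith
  have hp : ∀ k : ℕ, Real.exp (-(k * ℓ)) = 1 / x ^ k := fun k => by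
    rw [Real.exp_neg, Real.exp_nat_mul, hexp, one_div]
  set h := √(80 * ℓ) with hh
  have hh2 : h ^ 2 = 80 * ℓ := Real.sq_sqrt (by positivity)
  have hh8 : 8 ≤ h := Real.le_sqrt_of_sq_le (by linarith)
  have hhx : h ≤ x := by nlinarith
  set b := y ^ 32 with hb
  have hbx : (b : ℝ) = x ^ 32 := by rw [hb]; push_cast; rfl
  set R := y ^ 17 with hR
  have hRx : (R : ℝ) = x ^ 17 := by rw [hR]; push_cast; rfl
  set qt := y ^ 42 with hqt
  have hqtx : (qt : ℝ) = x ^ 42 := by rw [hqt]; push_cast; rfl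
  have hqt0 : 0 < qt := by positivity
  have hk'x : (k' : ℝ) ≤ x ^ 29 := by rw [hxdef]; exact_mod_cast hk'
  obtain ⟨q, hq1, hqp⟩ :=
    Nat.exists_infinite_primes (qt + ⌈4 * (x * Real.exp (b * h ^ 2) + 1)⌉₊)
  have : Fact q.Prime := ⟨hqp⟩
  have hq0 : (0 : ℝ) < q := by exact_mod_cast hqp.pos
  have hqa : x ^ 42 ≤ q := by
    rw [← hqtx]; exact_mod_cast (by omega : qt ≤ q)
  have hqb : 4 * (x * Real.exp (b * h ^ 2) + 1) ≤ q :=
    (Nat.le_ceil _).trans (by exact_mod_cast (by omega))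
  set Δ := q / qt + 1 with hΔ
  have hΔ1 : 1 ≤ Δ := Nat.le_add_left _ _
  have hΔqt : q ≤ Δ * qt := by
    rw [hΔ, mul_comm]; exact (Nat.lt_mul_div_succ q hqt0).le
  have hΔx : (Δ : ℝ) * x ^ 42 ≤ 2 * q := by
    have a1 : ((q / qt : ℕ) : ℝ) * qt ≤ q := by exact_mod_cast Nat.div_mul_le_self q qt
    rw [hΔ, ← hqtx] at *
    push_cast
    linarith
  have hΔ0 : (0 : ℝ) ≤ Δ := by positivity
  have hq8 : 8 * h ^ 2 * Δ ≤ q := by
    have a1 := step_key hx 16 1 42 (by norm_num) (by norm_num)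
    rw [pow_one] at a1
    have a2 : 16 * h ^ 2 ≤ x ^ 42 := by linarith
    nlinarith [mul_le_mul_of_nonneg_left a2 hΔ0]
  have hΔq : Δ ≤ q := by
    have : (Δ : ℝ) ≤ q := by nlinarith
    exact_mod_cast this
  have hB1 := block1 q Δ hh8 hΔ1 hq8
  have e8 : Real.exp (-h ^ 2 / 8) = 1 / x ^ 10 := by
    rw [← hp, hh2]; congr 1; push_cast; ring
  have e2 : Real.exp (-h ^ 2 / 2) = 1 / x ^ 40 := by
    rw [← hp, hh2]; congr 1; push_cast; ring
  rw [e8, e2] at hB1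
  set β := h * Δ / q + 1 / x ^ 40 with hβ
  set π₀ := 1 / x ^ 10 / (20 * h) with hπ₀
  have hβ0 : 0 ≤ β := by positivity
  have hβ2 : β ≤ 2 * (1 / x ^ 40) := by
    have a1 : h * Δ / q ≤ 1 / x ^ 40 := by
      rw [div_le_div_iff₀ hq0 (by positivity), one_mul]
      have a2 : 2 * (h * x ^ 40) ≤ x ^ 42 := by
        have := step_key hx 2 41 42 (by norm_num) (by norm_num)
        have a3 : h * x ^ 40 ≤ x * x ^ 40 := mul_le_mul_of_nonneg_right hhx (by positivity)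
        have a4 : x * x ^ 40 = x ^ 41 := by ring
        linarith
      nlinarith [mul_le_mul_of_nonneg_left a2 hΔ0]
    linarith
  have hβ1 : β ≤ 1 := by
    have := step_keyd hx 2 0 40 (by norm_num) (by norm_num)
    rw [pow_zero] at this
    linarith
  have hπ : 1 / (20 * x ^ 11) ≤ π₀ := by
    rw [hπ₀, div_div]
    apply one_div_le_one_div_of_le (by positivity)
    have : x ^ 10 * (20 * h) ≤ x ^ 10 * (20 * x) := by gcongr
    linarith [show x ^ 10 * (20 * x) = 20 * x ^ 11 by ring]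
  have hπ0 : 0 < π₀ := by positivity
  have hloss := step_loss (H := h ^ 2) hx hβ2 (by rw [hh2]; nlinarith) hπ
  have h16 : 1 / (16 * x) ≤ 1 / 2 := one_div_le_one_div_of_le (by norm_num) (by linarith)
  obtain ⟨η, Rich, Keep, hP⟩ := block hB1 b (by positivity) (S := x ^ 17) (by positivity) hπ0
    hβ0 hβ1 (by rw [hbx]; linarith)
  have hη0 : 0 < η := lt_of_lt_of_le (Real.exp_pos _) hP.eta_ge
  have hηx : η ≤ 2 * (1 / x ^ 31) := by
    refine hP.eta_le.trans (mul_le_mul_of_nonneg_left (le_trans ?_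
      (step_exp_neg_le (by positivity))) (by norm_num))
    apply Real.exp_le_exp.2
    have a1 := step_key hx 8000 17 32 (by norm_num) (by norm_num)
    have a2 := step_key hx 2000 31 32 (by norm_num) (by norm_num)
    rw [hbx]; linarith
  have hη1 : η ≤ 1 := by
    have := step_keyd hx 2 0 31 (by norm_num) (by norm_num)
    rw [pow_zero] at this
    linarith
  set L := ⌈x / η⌉₊ with hL
  have hL1 : x ≤ η * L := by
    have := Nat.le_ceil (x / η)
    rw [div_le_iff₀ hη0] at this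
    linarith
  have hL2 : (L : ℝ) < x / η + 1 := Nat.ceil_lt_add_one (by positivity)
  have hL3 : η * L ≤ x + 1 := by
    have := mul_le_mul_of_nonneg_left hL2.le hη0.le
    rw [mul_add, mul_div_cancel₀ _ hη0.ne'] at this
    linarith
  have hL4 : 4 * (L : ℝ) < q := by
    have a1 : x / η ≤ x * Real.exp (b * h ^ 2) := by
      rw [div_eq_mul_inv]
      refine mul_le_mul_of_nonneg_left ?_ hx0.le
      have := inv_anti₀ (Real.exp_pos _) hP.eta_ge
      rwa [Real.exp_neg, inv_inv] at this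
    linarith
  have hF0 : ∀ u, 0 ≤ kept (pb q Δ h) Keep u := fun u =>
    Finset.sum_nonneg fun e _ => Finset.prod_nonneg fun i _ => (hB1.pos _ _).le
  obtain ⟨α, hα⟩ := glue (G := Fin b → ZMod q) L
    (fun d hd hd' => step_bij hd (lt_of_le_of_lt hd' (by exact_mod_cast hL4))) Rich
    (kept (pb q Δ h) Keep) hF0 (fun u hu => by simp [kept, hP.keep_rich u hu]) hP.mean_le (gw η)
    (gw_nonneg hη0) (gw_le hη0) (gw_sum_le hη0 L) (lam := 3 * x * Real.exp (-x ^ 17))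
    (Ξ := Real.exp (4 * x ^ 17 - b / 1000)) (ε₂ := Real.exp (-x ^ 17)) (by positivity)
    (Real.exp_pos _) (Real.exp_pos _) (by
      calc (2 * (L : ℝ) + 1) * av (fun u => ind (Rich u))
          ≤ (2 * (L : ℝ) + 1) * (η * Real.exp (-x ^ 17)) :=
            mul_le_mul_of_nonneg_left hP.rich_le (by positivity)
        _ = (2 * (η * L) + η) * Real.exp (-x ^ 17) := by ring
        _ ≤ 3 * x * Real.exp (-x ^ 17) :=
            mul_le_mul_of_nonneg_right (by linarith) (Real.exp_pos _).le) hP.energy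
  set xb := (∑ a ∈ Finset.Icc (-(L : ℤ)) L, gw η a) * av (kept (pb q Δ h) Keep) with hxb
  set X := glueX L Rich (kept (pb q Δ h) Keep) (gw η) α with hX
  have hX0 : ∀ τ, 0 ≤ X τ := glueX_nonneg L Rich hF0 (gw_nonneg hη0) α
  have hX1 : ∀ τ, X τ ≤ Real.exp (3 * x ^ 17) :=
    glueX_le L Rich hF0 (gw_nonneg hη0) (gw_le hη0) (Real.exp_pos _).le hP.kept_le α
  have hxb1 : xb ≤ 1 := mul_le_one₀ (gw_sum_le hη0 L) (av_nonneg hF0) hP.mean_le
  have hxb2 : 1 - 1 / (8 * x) ≤ xb := by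
    have a1 : 1 - 1 / (16 * x) ≤ av (kept (pb q Δ h) Keep) := by
      have := hP.mean_ge
      rw [hbx] at this
      linarith
    have a2 : 1 - 1 / (16 * x) ≤ ∑ a ∈ Finset.Icc (-(L : ℤ)) L, gw η a := by
      refine le_trans ?_ (gw_sum_ge hη0 L)
      have b1 : Real.exp (-(η * L) ^ 2 / 2) ≤ 2 * (1 / x ^ 2) := by
        have b2 : x ^ 2 ≤ (η * L) ^ 2 := pow_le_pow_left₀ hx0.le hL1 2
        calc _ ≤ Real.exp (-(x ^ 2 / 2)) := Real.exp_le_exp.2 (by linarith)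
          _ ≤ 1 / (x ^ 2 / 2) := step_exp_neg_le (by positivity)
          _ = _ := by field_simp
      have b3 := step_keyd hx 128 1 31 (by norm_num) (by norm_num)
      have b4 := step_keyd hx 64 1 2 (by norm_num) (by norm_num)
      have e : 1 / (16 * x) = 1 / 16 * (1 / x ^ 1) := by field_simp
      linarith
    have a3 := mul_le_mul a2 a1 (by linarith) (by linarith)
    have e : 1 / (8 * x) = 2 * (1 / (16 * x)) := by field_simp; norm_num
    rw [e]
    nlinarith [sq_nonneg (1 / (16 * x))]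
  have h8x : 1 / (8 * x) ≤ 1 / 2 := one_div_le_one_div_of_le (by norm_num) (by linarith)
  have hR2 : 2 ≤ R := by
    have := step_key hx 2 0 17 (by norm_num) (by norm_num)
    rw [pow_zero, mul_one, ← hRx] at this
    exact_mod_cast this
  have htau := step_tau hx hexp (by linarith) hℓx hRx
  have hE1 : 1 ≤ Real.exp (3 * x ^ 17) := Real.one_le_exp (by positivity)
  obtain ⟨ψ, x₀, hψ⟩ := lln Z' hD.bin w'
    (fun j : Fin b → Fin qt => (fun i => ((Δ * (j i : ℕ) : ℕ) : ZMod q) : Fin b → ZMod q))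
    (fun τ => xb - X τ) (A₂ := Real.exp (3 * x ^ 17) ^ 2) (ωm := c' * Real.exp (-x ^ 18))
    (τ₀ := 1 / x ^ 29 * (c' * (1 / x ^ 2 / 8) ^ R)) (Q₀ := c' * (1 / x ^ 2 / 8) ^ R)
    (κ := 1 / x ^ 29) (dm := 1 / x ^ 2 / 9) (ε := Real.exp (-(x ^ 17 / 2))) (c := c')
    (d := 1 / x ^ 2) R R hR2 (fun τ => by linarith [hX0 τ])
    (av_le_of_le fun τ => sq_le_sq' (by linarith [hX1 τ]) (by linarith [hX0 τ]))
    (by positivity) hα (by positivity)
    (by
      refine mul_lt_mul_of_pos_left (lt_of_lt_of_le (Real.exp_lt_exp.2 ?_) (htau.trans ?_)) hc'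
      · have : 0 < x ^ 18 := by positivity
        linarith
      · exact mul_le_of_le_one_left (by positivity)
          ((div_le_one (by positivity)).2 (one_le_pow₀ hx1)))
    (by positivity) le_rfl (by positivity)
    (step_eps hx hc' (by
      have := mul_le_mul_of_nonneg_left htau hc'.le
      linarith))
    hD.w_nonneg hD.w_le hD.mass (by positivity)
    (le_of_eq (by rw [div_pow _ 8]; field_simp))
    (by
      have := mul_le_mul_of_nonneg_left (step_pow_ge hR2) (by positivity : 0 ≤ 1 / x ^ 2)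
      linarith)
    (by
      rw [hbx]
      refine step_fail hx hk'x hRx hι (by positivity) ?_
      rw [Fintype.card_fun, Fintype.card_fin, Fintype.card_fin]
      push_cast
      rw [hqtx, ← hexp, ← Real.exp_nat_mul, ← Real.exp_nat_mul, hexp, hbx]
      apply Real.exp_le_exp.2
      have a1 : x ^ 32 * (80 * ℓ) ≤ x ^ 32 * x := mul_le_mul_of_nonneg_left hℓx (by positivity)
      have a2 : 0 ≤ x ^ 32 * ℓ := by positivity
      push_cast
      nlinarith)
  have hκ : (1 + 1 / x ^ 29) ^ k' ≤ 3 := by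
    have a1 : 1 + 1 / x ^ 29 ≤ Real.exp (1 / x ^ 29) := by
      linarith [Real.add_one_le_exp (1 / x ^ 29)]
    refine (pow_le_pow_left₀ (by positivity) a1 k').trans ?_
    rw [← Real.exp_nat_mul]
    refine le_trans (Real.exp_le_exp.2 ?_) Real.exp_one_lt_three.le
    rw [mul_one_div, div_le_one (by positivity)]
    exact hk'x
  have hfin := step_geo (m := x ^ 20) (c := c' * (1 - 1 / (4 * x))) hD hι q Δ qt L hΔ1 hΔqt hΔq
    (h := h) (by linarith) hη0 hη1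
    (by
      have := step_key hx 2 1 32 (by norm_num) (by norm_num)
      rw [pow_one] at this
      rw [hbx]; linarith)
    (by
      have := step_key hx 3 1 32 (by norm_num) (by norm_num)
      rw [pow_one] at this
      rw [hbx]; linarith)
    Rich Keep hP.leaf_le (by rw [hbx]; exact step_theta hx hc' hπ) α x₀ ψ
    (fun π j => by
      have a1 := hψ π j
      have a2 := hD.mass π
      simp only [mul_sub, Finset.sum_sub_distrib, ← Finset.sum_mul] at a1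
      set W := ∑ z ∈ Z' π, w' π z
      have a3 : 1 / x ^ 2 * (1 + 1 / x ^ 29) ^ k' ≤ 1 / (8 * x) := by
        have b1 := step_keyd hx 24 1 2 (by norm_num) (by norm_num)
        have b2 := mul_le_mul_of_nonneg_left hκ (by positivity : 0 ≤ 1 / x ^ 2)
        have e : 1 / (8 * x) = 1 / 8 * (1 / x ^ 1) := by field_simp
        linarith
      have a4 := mul_le_mul_of_nonneg_right a3 (hc'.le.trans a2)
      have a5 := mul_le_mul_of_nonneg_left hxb2 (hc'.le.trans a2)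
      have e : 1 / (4 * x) = 2 * (1 / (8 * x)) := by field_simp; norm_num
      have a6 := mul_le_mul_of_nonneg_right a2 (show 0 ≤ 1 - 1 / (4 * x) by rw [e]; linarith)
      rw [e] at a6 ⊢
      linarith)
  refine ⟨k' + (b + 1), by omega, ?_, ?_⟩
  · have a1 := step_key hx 2 29 32 (by norm_num) (by norm_num)
    have a2 : (1 : ℝ) ≤ x ^ 29 := one_le_pow₀ hx1
    have : ((k' + (b + 1) : ℕ) : ℝ) ≤ ((2 * b : ℕ) : ℝ) := by
      push_cast; rw [hbx]; linarith
    exact_mod_cast this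
  · obtain ⟨ι₂, _, B, Z, w, h1, h2⟩ := hfin
    refine ⟨ι₂, inferInstance, B, Z, w, h1.trans (Real.exp_le_exp.2 ?_), h2⟩
    rw [hbx, hqtx, Real.log_pow, ← hℓdef]
    have a1 : x ^ 32 * (80 * ℓ) ≤ x ^ 32 * x := mul_le_mul_of_nonneg_left hℓx (by positivity)
    have a2 : 0 ≤ x ^ 32 * ℓ := by positivity
    have a3 : x ^ 30 ≤ x ^ 33 := pow_le_pow_right₀ hx1 (by norm_num)
    have a4 : x ^ 32 * x = x ^ 33 := by ring
    push_cast
    linarith

end Crest.Agent.R225U
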