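import Crest.Agent.R225U.Bin
import Crest.Agent.R225U.GConv
import Crest.Agent.R225U.Riem

/-!
Row 225 (S0347): design step, deterministic assembly.
-/

set_option autoImplicit false

open Finset
open Crest.Agent.R153

namespace Crest.Agent.R225U

/-- lower left block -/
noncomputable def sgC {k' b : ℕ} (q : ℕ) (h : ℝ) (ψ : Fin k' → Fin b → ZMod q) :
    Matrix (Fin (b + 1)) (Fin k') ℝ :=
  Matrix.of (Fin.cons (fun _ => 0) fun i l => -(h / q) * ((ψ l i).val : ℝ))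

/-- lower right block -/
noncomputable def sgD {b : ℕ} (q : ℕ) (h η : ℝ) (α : Fin b → ZMod q) :
    Matrix (Fin (b + 1)) (Fin (b + 1)) ℝ :=
  Matrix.of (Fin.cons (Fin.cons η fun _ => 0)
    fun i => Fin.cons (-(h / q) * ((α i).val : ℝ)) fun j => if i = j then h else 0)

/-- the new lattice -/
noncomputable def sgB {k' b : ℕ} (B' : Matrix (Fin k') (Fin k') ℝ) (q : ℕ) (h η : ℝ)
    (α : Fin b → ZMod q) (ψ : Fin k' → Fin b → ZMod q) :
    Matrix (Fin (k' + (b + 1))) (Fin (k' + (b + 1))) ℝ :=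
  Matrix.reindex finSumFinEquiv finSumFinEquiv
    (Matrix.fromBlocks B' 0 (sgC q h ψ) (sgD q h η α))

lemma sgD_det {b : ℕ} (q : ℕ) (h η : ℝ) (α : Fin b → ZMod q) :
    (sgD q h η α).det = η * h ^ b := by
  rw [Matrix.det_of_isLowerTriangular]
  · rw [Fin.prod_univ_succ]
    simp [sgD]
  · intro i j hij
    have hij' : i < j := hij
    refine Fin.cases ?_ (fun j' => ?_) j hij'
    · intro h0; exact absurd h0 (Fin.not_lt_zero _)
    · refine Fin.cases ?_ (fun i' => ?_) i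
      · intro _; simp [sgD]
      · intro h1
        have : i' ≠ j' := fun he => by rw [he] at h1; exact lt_irrefl _ h1
        simp [sgD, this]

lemma sgB_det {k' b : ℕ} (B' : Matrix (Fin k') (Fin k') ℝ) (q : ℕ) (h η : ℝ)
    (α : Fin b → ZMod q) (ψ : Fin k' → Fin b → ZMod q) :
    (sgB B' q h η α ψ).det = B'.det * (η * h ^ b) := by
  unfold sgB
  rw [Matrix.det_reindex_self, Matrix.det_fromBlocks_zero₁₂, sgD_det]

lemma sgB_top {k' b : ℕ} (B' : Matrix (Fin k') (Fin k') ℝ) (q : ℕ) (h η : ℝ)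
    (α : Fin b → ZMod q) (ψ : Fin k' → Fin b → ZMod q) (v : Fin (k' + (b + 1)) → ℝ) (l : Fin k') :
    (sgB B' q h η α ψ).mulVec v (Fin.castAdd (b + 1) l) =
      B'.mulVec (fun l' => v (Fin.castAdd (b + 1) l')) l := by
  simp [sgB, Matrix.mulVec, dotProduct, Fin.sum_univ_add]

lemma sgB_glue {k' b : ℕ} (B' : Matrix (Fin k') (Fin k') ℝ) (q : ℕ) (h η : ℝ)
    (α : Fin b → ZMod q) (ψ : Fin k' → Fin b → ZMod q) (v : Fin (k' + (b + 1)) → ℝ) :
    (sgB B' q h η α ψ).mulVec v (Fin.natAdd k' 0) = η * v (Fin.natAdd k' 0) := by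
  simp [sgB, sgC, sgD, Matrix.mulVec, dotProduct, Fin.sum_univ_add, Fin.sum_univ_succ]

lemma sgB_block {k' b : ℕ} (B' : Matrix (Fin k') (Fin k') ℝ) (q : ℕ) (h η : ℝ)
    (α : Fin b → ZMod q) (ψ : Fin k' → Fin b → ZMod q) (v : Fin (k' + (b + 1)) → ℝ) (i : Fin b) :
    (sgB B' q h η α ψ).mulVec v (Fin.natAdd k' i.succ) =
      h * v (Fin.natAdd k' i.succ) - h / q * (∑ l, ((ψ l i).val : ℝ) * v (Fin.castAdd (b + 1) l) +
        ((α i).val : ℝ) * v (Fin.natAdd k' 0)) := by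
  simp only [sgB, sgC, sgD, Matrix.mulVec, dotProduct, Fin.sum_univ_add, Fin.sum_univ_succ,
    Matrix.reindex_apply, Matrix.submatrix_apply, finSumFinEquiv_symm_apply_castAdd,
    finSumFinEquiv_symm_apply_natAdd, Matrix.fromBlocks_apply₂₁, Matrix.fromBlocks_apply₂₂,
    Matrix.of_apply, Fin.cons_succ, Fin.cons_zero, ite_mul, zero_mul, Finset.sum_ite_eq,
    Finset.mem_univ, if_true]
  rw [mul_add, Finset.mul_sum]
  have : ∑ l, -(h / q) * ((ψ l i).val : ℝ) * v (Fin.castAdd (b + 1) l) =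
      -∑ l, h / q * (((ψ l i).val : ℝ) * v (Fin.castAdd (b + 1) l)) := by
    rw [← Finset.sum_neg_distrib]
    exact Finset.sum_congr rfl fun l _ => by ring
  rw [this]
  ring

/-- integer lift of the block position -/
def sgN {k' b q : ℕ} (α τ : Fin b → ZMod q) (ψ : Fin k' → Fin b → ZMod q) (z : Fin k' → ℤ) (a : ℤ)
    (i : Fin b) : ℤ :=
  ((τ i).val : ℤ) + (∑ l, ((ψ l i).val : ℤ) * z l + ((α i).val : ℤ) * a)

lemma sgN_cast {k' b q : ℕ} [NeZero q] (α τ : Fin b → ZMod q) (ψ : Fin k' → Fin b → ZMod q)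
    (z : Fin k' → ℤ) (a : ℤ) (i : Fin b) :
    ((sgN α τ ψ z a i : ℤ) : ZMod q) = (τ + dotz ψ z + a • α) i := by
  simp only [sgN, dotz, Pi.add_apply, Finset.sum_apply, zsmul_eq_mul]
  push_cast
  simp only [ZMod.natCast_val, ZMod.cast_id', id_eq]
  rw [add_assoc]
  congr 2
  · exact Finset.sum_congr rfl fun l _ => mul_comm _ _
  · exact mul_comm _ _

/-- position of a leaf -/
def sgPlace {k' b q : ℕ} (α τ : Fin b → ZMod q) (ψ : Fin k' → Fin b → ZMod q)
    (x : (Fin k' → ℤ) × ℤ × (Fin b → Bool)) : Fin (k' + (b + 1)) → ℤ :=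
  Fin.append x.1
    (Fin.cons x.2.1 fun i => sgN α τ ψ x.1 x.2.1 i / q + if x.2.2 i then 1 else 0)

lemma sgPlace_top {k' b q : ℕ} (α τ : Fin b → ZMod q) (ψ : Fin k' → Fin b → ZMod q)
    (x : (Fin k' → ℤ) × ℤ × (Fin b → Bool)) (l : Fin k') :
    sgPlace α τ ψ x (Fin.castAdd (b + 1) l) = x.1 l := by
  simp [sgPlace]

lemma sgPlace_glue {k' b q : ℕ} (α τ : Fin b → ZMod q) (ψ : Fin k' → Fin b → ZMod q)
    (x : (Fin k' → ℤ) × ℤ × (Fin b → Bool)) :
    sgPlace α τ ψ x (Fin.natAdd k' 0) = x.2.1 := by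
  simp [sgPlace]

lemma sgPlace_block {k' b q : ℕ} (α τ : Fin b → ZMod q) (ψ : Fin k' → Fin b → ZMod q)
    (x : (Fin k' → ℤ) × ℤ × (Fin b → Bool)) (i : Fin b) :
    sgPlace α τ ψ x (Fin.natAdd k' i.succ) =
      sgN α τ ψ x.1 x.2.1 i / q + if x.2.2 i then 1 else 0 := by
  simp [sgPlace]

lemma sgPlace_injective {k' b q : ℕ} (α τ : Fin b → ZMod q) (ψ : Fin k' → Fin b → ZMod q) :
    Function.Injective (sgPlace α τ ψ) := by
  rintro ⟨z, a, e⟩ ⟨z', a', e'⟩ hxy
  have h1 : z = z' := funext fun l => by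
    have := congrFun hxy (Fin.castAdd (b + 1) l)
    rwa [sgPlace_top, sgPlace_top] at this
  have h2 : a = a' := by
    have := congrFun hxy (Fin.natAdd k' 0)
    rwa [sgPlace_glue, sgPlace_glue] at this
  subst h1 h2
  have h3 : e = e' := funext fun i => by
    have := congrFun hxy (Fin.natAdd k' i.succ)
    rw [sgPlace_block, sgPlace_block] at this
    dsimp only at this
    cases h : e i <;> cases h' : e' i <;> simp_all
  rw [h3]

open Classical in
/-- the leaves of a new pattern -/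
noncomputable def sgLeaves {k' b q : ℕ} (L : ℕ) (Rich : (Fin b → ZMod q) → Prop)
    (Keep : (Fin b → ZMod q) → Finset (Fin b → Bool)) (α τ : Fin b → ZMod q)
    (ψ : Fin k' → Fin b → ZMod q) (Z : Finset (Fin k' → ℤ)) :
    Finset ((Fin k' → ℤ) × ℤ × (Fin b → Bool)) :=
  (Z ×ˢ Finset.Icc (-(L : ℤ)) L ×ˢ Finset.univ).filter fun x =>
    Uniq L Rich α (τ + dotz ψ x.1) x.2.1 ∧ x.2.2 ∈ Keep (τ + dotz ψ x.1 + x.2.1 • α)

lemma sg_mem_leaves {k' b q : ℕ} {L : ℕ} {Rich : (Fin b → ZMod q) → Prop}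
    {Keep : (Fin b → ZMod q) → Finset (Fin b → Bool)} {α τ : Fin b → ZMod q}
    {ψ : Fin k' → Fin b → ZMod q} {Z : Finset (Fin k' → ℤ)}
    {x : (Fin k' → ℤ) × ℤ × (Fin b → Bool)} :
    x ∈ sgLeaves L Rich Keep α τ ψ Z ↔ x.1 ∈ Z ∧ x.2.1 ∈ Finset.Icc (-(L : ℤ)) L ∧
      Uniq L Rich α (τ + dotz ψ x.1) x.2.1 ∧ x.2.2 ∈ Keep (τ + dotz ψ x.1 + x.2.1 • α) := by
  simp only [sgLeaves, Finset.mem_filter, Finset.mem_product, Finset.mem_univ, and_true]
  tauto

lemma sg_bin {k' b q : ℕ} {L : ℕ} {Rich : (Fin b → ZMod q) → Prop}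
    {Keep : (Fin b → ZMod q) → Finset (Fin b → Bool)} {α τ : Fin b → ZMod q}
    {ψ : Fin k' → Fin b → ZMod q} {Z : Finset (Fin k' → ℤ)} (hZ : Bin Z) :
    Bin ((sgLeaves L Rich Keep α τ ψ Z).image (sgPlace α τ ψ)) := by
  intro v hv v' hv' i hi
  obtain ⟨x, hx, rfl⟩ := Finset.mem_image.1 hv
  obtain ⟨x', hx', rfl⟩ := Finset.mem_image.1 hv'
  rw [sg_mem_leaves] at hx hx'
  have hz : ∀ r : Fin (b + 1), (∀ l, l < Fin.natAdd k' r → sgPlace α τ ψ x l = sgPlace α τ ψ x' l) →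
      x.1 = x'.1 ∧ x.2.1 = x'.2.1 := by
    intro r hr
    have h1 : x.1 = x'.1 := funext fun l => by
      have := hr (Fin.castAdd (b + 1) l) (by
        rw [Fin.lt_def]; simp only [Fin.val_castAdd, Fin.val_natAdd]; omega)
      rwa [sgPlace_top, sgPlace_top] at this
    refine ⟨h1, ?_⟩
    by_contra hne
    have h2 := hx'.2.2.1.2 x.2.1 hx.2.1 hne
    rw [← h1] at h2
    exact h2 hx.2.2.1.1
  induction i using Fin.addCases with
  | left l =>
    rw [sgPlace_top, sgPlace_top]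
    refine hZ _ hx.1 _ hx'.1 l fun l' hl' => ?_
    have := hi (Fin.castAdd (b + 1) l') (by
      rw [Fin.lt_def] at hl' ⊢; simpa using hl')
    rwa [sgPlace_top, sgPlace_top] at this
  | right r =>
    obtain ⟨h1, h2⟩ := hz r hi
    refine Fin.cases ?_ (fun i' => ?_) r
    · rw [sgPlace_glue, sgPlace_glue, h2]; simp
    · rw [sgPlace_block, sgPlace_block, h1, h2]
      split_ifs <;> simp

lemma sg_phiv_anti {x y : ℝ} (h : |x| ≤ y) : phiv 1 y ≤ phiv 1 x := by
  unfold phiv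
  refine mul_le_mul_of_nonneg_left (Real.exp_le_exp.2 ?_) (by positivity)
  have h1 : x ^ 2 ≤ y ^ 2 := by
    rw [← sq_abs x]; exact pow_le_pow_left₀ (abs_nonneg x) h 2
  linarith

lemma sg_pb_nonneg (q Δ : ℕ) {h : ℝ} (hh : 0 < h) (u : ZMod q) (e : Bool) : 0 ≤ pb q Δ h u e :=
  mul_nonneg hh.le (phiv_pos one_pos _).le

lemma sg_sum_leaves {k' b q : ℕ} (L : ℕ) (Rich : (Fin b → ZMod q) → Prop)
    (Keep : (Fin b → ZMod q) → Finset (Fin b → Bool)) (α τ : Fin b → ZMod q)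
    (ψ : Fin k' → Fin b → ZMod q) (Z : Finset (Fin k' → ℤ)) (w' : (Fin k' → ℤ) → ℝ) (g : ℤ → ℝ)
    (p : ZMod q → Bool → ℝ) :
    ∑ x ∈ sgLeaves L Rich Keep α τ ψ Z,
        w' x.1 * (g x.2.1 * ∏ i, p ((τ + dotz ψ x.1 + x.2.1 • α) i) (x.2.2 i)) =
      ∑ z ∈ Z, w' z * glueX L Rich (kept p Keep) g α (τ + dotz ψ z) := by
  classical
  unfold sgLeaves glueX kept
  rw [Finset.sum_filter, Finset.sum_product]
  refine Finset.sum_congr rfl fun z _ => ?_
  rw [Finset.sum_product, Finset.mul_sum]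
  refine Finset.sum_congr rfl fun a _ => ?_
  dsimp only
  by_cases hU : Uniq L Rich α (τ + dotz ψ z) a
  · rw [ind_pos hU, mul_one]
    simp only [hU, true_and]
    rw [← Finset.sum_filter, Finset.filter_mem_eq_inter, Finset.univ_inter, Finset.mul_sum,
      Finset.mul_sum]
  · rw [ind_neg hU]
    simp [hU]

/-- arithmetic of one block coordinate -/
lemma sg_block_res {q Δ : ℕ} [NeZero q] (hΔ : 1 ≤ Δ) (u : ZMod q) (σ : ℕ) (hσ : σ < Δ) {f : ℝ}
    (hf0 : 0 ≤ f) (hf1 : f < 1) (e : Bool) :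
    |(u.val : ℝ) + σ + f - q * (if e then 1 else 0)| ≤
      ((if e then q - 1 - u.val + Δ else u.val + Δ : ℕ) : ℝ) := by
  have hu := ZMod.val_lt u
  have hσ' : (σ : ℝ) + 1 ≤ Δ := by exact_mod_cast hσ
  have hΔ' : (1 : ℝ) ≤ Δ := by exact_mod_cast hΔ
  have hσ0 : (0 : ℝ) ≤ σ := Nat.cast_nonneg _
  have hu0 : (0 : ℝ) ≤ u.val := Nat.cast_nonneg _
  have hu1 : (u.val : ℝ) + 1 ≤ q := by exact_mod_cast hu
  cases e
  · simp only [Bool.false_eq_true, if_false, mul_zero, sub_zero]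
    push_cast
    rw [abs_le]; constructor <;> linarith
  · simp only [if_true, mul_one]
    have : ((q - 1 - u.val + Δ : ℕ) : ℝ) = q - 1 - u.val + Δ := by
      rw [Nat.cast_add, Nat.cast_sub (by omega), Nat.cast_sub (by omega)]; simp
    rw [this, abs_le]; constructor <;> linarith

/-- New dimension `k = k' + (b + 1)`, vectors `Fin.append z (Fin.cons a w)`.  New matrix: reindex
`fromBlocks B' 0 C D` along `finSumFinEquiv`, so that
`B (z, a, w) = (B' z, η a, fun i => h * w i - (h/q) * (∑ l, (ψ l i).val * z l + (α i).val * a))`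
(lower triangular `D`, `det = det B' * η * h^b`).  Patterns `(π, j)`, `τ = x₀ + o j`,
`o j i = (Δ * j i : ZMod q)`; leaves `(z, a, e)` with `z ∈ Z' π`, `a ∈ Icc (-L) L`,
`Uniq L Rich α (τ + dotz ψ z) a`, `e ∈ Keep (τ + dotz ψ z + a • α)`, placed at
`w i = ((τ i).val + ∑ l, (ψ l i).val * z l + (α i).val * a) / q + (if e i then 1 else 0)` (integer
division), weight `w' π z * gw η a * ∏ i, pb q Δ h (u i) (e i)`, `u = τ + dotz ψ z + a • α`.
`Bin`: parents binary; equal parents force equal `a` (`Uniq`); then `w` differ by `e - e'`.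
`cover`: for `s = (s', σ, t)` take `(π, z₀)` from the old design, `a₀ = ⌊σ/η⌋`,
`N i = ⌊t i * q / h⌋ + ∑ l, (ψ l i).val * z₀ l + (α i).val * a₀`, write
`((N i : ZMod q) - x₀ i).val = Δ * j i + σ' i` with `σ' i < Δ`, `j i < qt` (`q ≤ Δ * qt`), and
`N i - σ' i = (τ i).val + q * w₀ i`.  Then the block residual is
`(h/q) * ((u i).val + σ' i + fract - q * e i)`, of absolute value at most the argument of `pb`;
the glue residual is at most `η (|a| + 1)` in absolute value; `phiv 1` is even and antitone. -/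
theorem step_geo {k' b : ℕ} {m' c' m c L' : ℝ} {ι : Type} [Fintype ι]
    {B' : Matrix (Fin k') (Fin k') ℝ} {Z' : ι → Finset (Fin k' → ℤ)}
    {w' : ι → (Fin k' → ℤ) → ℝ} (hD : DesignOn m' c' B' Z' w')
    (hι : (Fintype.card ι : ℝ) ≤ Real.exp L') (q Δ qt L : ℕ) [NeZero q] (hΔ : 1 ≤ Δ)
    (hqt : q ≤ Δ * qt) (hΔq : Δ ≤ q) {h η θ : ℝ} (hh : 0 < h) (hη : 0 < η) (hη1 : η ≤ 1)
    (hhb : 2 * h ≤ b) (hL : η * (L + 1) ≤ b)
    (Rich : (Fin b → ZMod q) → Prop) (Keep : (Fin b → ZMod q) → Finset (Fin b → Bool))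
    (hleaf : ∀ u, ∀ e ∈ Keep u, η * ∏ i, pb q Δ h (u i) (e i) ≤ θ)
    (hθ : c' * Real.exp (-m') * θ ≤ c * Real.exp (-m))
    (α x₀ : Fin b → ZMod q) (ψ : Fin k' → Fin b → ZMod q)
    (hmass : ∀ (π : ι) (j : Fin b → Fin qt), c ≤ ∑ z ∈ Z' π, w' π z *
      glueX L Rich (kept (pb q Δ h) Keep) (gw η) α
        (x₀ + (fun i => ((Δ * (j i : ℕ) : ℕ) : ZMod q)) + dotz ψ z)) :
    IsDesign (k' + (b + 1)) m c (L' + b * Real.log qt) := by
  classical
  have hq0 : 0 < q := Nat.pos_of_ne_zero (NeZero.ne q)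
  have hq0' : (0 : ℝ) < q := by exact_mod_cast hq0
  have hqt0 : 0 < qt := by
    rcases Nat.eq_zero_or_pos qt with h0 | h0
    · rw [h0] at hqt; omega
    · exact h0
  set τ : (Fin b → Fin qt) → Fin b → ZMod q :=
    fun j => x₀ + fun i => ((Δ * (j i : ℕ) : ℕ) : ZMod q) with hτ
  set Lf : ι × (Fin b → Fin qt) → Finset ((Fin k' → ℤ) × ℤ × (Fin b → Bool)) :=
    fun P => sgLeaves L Rich Keep α (τ P.2) ψ (Z' P.1) with hLf
  set wt : ι × (Fin b → Fin qt) → (Fin k' → ℤ) × ℤ × (Fin b → Bool) → ℝ := fun P x =>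
    w' P.1 x.1 * (gw η x.2.1 * ∏ i, pb q Δ h ((τ P.2 + dotz ψ x.1 + x.2.1 • α) i) (x.2.2 i))
    with hwt
  set w : ι × (Fin b → Fin qt) → (Fin (k' + (b + 1)) → ℤ) → ℝ := fun P v =>
    ∑ x ∈ Lf P with sgPlace α (τ P.2) ψ x = v, wt P x with hw
  have hwx : ∀ P, ∀ x ∈ Lf P, w P (sgPlace α (τ P.2) ψ x) = wt P x := by
    intro P x hx
    refine Finset.sum_eq_single_of_mem x (Finset.mem_filter.2 ⟨hx, rfl⟩) fun y hy hne => ?_
    exact absurd (sgPlace_injective _ _ _ (Finset.mem_filter.1 hy).2) hne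
  have hprod0 : ∀ (u : Fin b → ZMod q) (e : Fin b → Bool), 0 ≤ ∏ i, pb q Δ h (u i) (e i) :=
    fun u e => Finset.prod_nonneg fun i _ => sg_pb_nonneg q Δ hh _ _
  have hb0 : (0 : ℝ) ≤ b := Nat.cast_nonneg _
  have hk0 : (0 : ℝ) ≤ k' := Nat.cast_nonneg _
  refine ⟨ι × (Fin b → Fin qt), inferInstance, sgB B' q h η α ψ,
    fun P => (Lf P).image (sgPlace α (τ P.2) ψ), w, ?_, ?_, ?_, fun P => sg_bin (hD.bin P.1),
    ?_, ?_, ?_, ?_⟩
  · rw [Fintype.card_prod, Fintype.card_fun, Fintype.card_fin, Fintype.card_fin, Real.exp_add,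
      Real.exp_nat_mul, Real.exp_log (by exact_mod_cast hqt0)]
    push_cast
    exact mul_le_mul_of_nonneg_right hι (by positivity)
  · rw [sgB_det]
    have := hD.det_pos
    positivity
  · rw [sgB_det]
    have h1 : h ≤ Real.exp b := by linarith [Real.add_one_le_exp (b : ℝ)]
    have h2 : η * h ^ b ≤ Real.exp ((b : ℝ) ^ 2) := by
      calc η * h ^ b ≤ 1 * Real.exp b ^ b := by gcongr
        _ = _ := by rw [one_mul, ← Real.exp_nat_mul, sq]
    calc B'.det * (η * h ^ b) ≤ Real.exp ((k' : ℝ) ^ 2) * Real.exp ((b : ℝ) ^ 2) :=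
          mul_le_mul hD.det_le h2 (by positivity) (Real.exp_pos _).le
      _ = Real.exp ((k' : ℝ) ^ 2 + (b : ℝ) ^ 2) := (Real.exp_add _ _).symm
      _ ≤ _ := by
          rw [Real.exp_le_exp]
          push_cast
          nlinarith
  · intro P v hv
    obtain ⟨x, hx, rfl⟩ := Finset.mem_image.1 hv
    rw [hwx P x hx]
    exact mul_nonneg (hD.w_nonneg _ _ (sg_mem_leaves.1 hx).1)
      (mul_nonneg (gw_nonneg hη _) (hprod0 _ _))
  · intro P v hv
    obtain ⟨x, hx, rfl⟩ := Finset.mem_image.1 hv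
    rw [hwx P x hx]
    have hx' := sg_mem_leaves.1 hx
    have h1 := hleaf _ _ hx'.2.2.2
    have h2 : gw η x.2.1 * ∏ i, pb q Δ h ((τ P.2 + dotz ψ x.1 + x.2.1 • α) i) (x.2.2 i) ≤ θ :=
      (mul_le_mul_of_nonneg_right (gw_le hη _) (hprod0 _ _)).trans h1
    have h3 := hD.w_nonneg _ _ hx'.1
    have h4 := hD.w_le _ _ hx'.1
    exact (mul_le_mul h4 h2 (mul_nonneg (gw_nonneg hη _) (hprod0 _ _)) (h3.trans h4)).trans hθ
  · intro P
    refine (hmass P.1 P.2).trans (le_of_eq ?_)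
    rw [← sg_sum_leaves]
    exact (Finset.sum_fiberwise_of_maps_to (fun x hx => Finset.mem_image_of_mem _ hx) _).symm
  · intro s
    obtain ⟨π, z₀, hcov⟩ := hD.cover fun l => s (Fin.castAdd (b + 1) l)
    set a₀ : ℤ := ⌊s (Fin.natAdd k' 0) / η⌋ with ha₀
    set N : Fin b → ℤ := fun i => ⌊s (Fin.natAdd k' i.succ) * q / h⌋ +
      (∑ l, ((ψ l i).val : ℤ) * z₀ l + ((α i).val : ℤ) * a₀) with hN
    set r : Fin b → ℕ := fun i => (((N i : ℤ) : ZMod q) - x₀ i).val with hr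
    have hrlt : ∀ i, r i / Δ < qt := fun i =>
      (Nat.div_lt_iff_lt_mul (by omega)).2 (by
        have := ZMod.val_lt (((N i : ℤ) : ZMod q) - x₀ i)
        rw [mul_comm]
        exact lt_of_lt_of_le this hqt)
    set j : Fin b → Fin qt := fun i => ⟨r i / Δ, hrlt i⟩ with hj
    have hdvd : ∀ i, (q : ℤ) ∣ N i - (r i % Δ : ℕ) - ((τ j i).val : ℤ) := by
      intro i
      rw [← ZMod.intCast_zmod_eq_zero_iff_dvd]
      have h1 : ((r i : ℕ) : ZMod q) = ((N i : ℤ) : ZMod q) - x₀ i := ZMod.natCast_zmod_val _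
      have h2 : ((r i : ℕ) : ZMod q) = ((Δ * (r i / Δ) : ℕ) : ZMod q) + ((r i % Δ : ℕ) : ZMod q) := by
        rw [← Nat.cast_add, Nat.div_add_mod]
      have h3 : τ j i = x₀ i + ((Δ * (r i / Δ) : ℕ) : ZMod q) := rfl
      rw [Int.cast_sub, Int.cast_sub, Int.cast_natCast, Int.cast_natCast, ZMod.natCast_zmod_val, h3]
      linear_combination h2 - h1
    choose w₀ hw₀ using hdvd
    refine ⟨(π, j), Fin.append z₀ (Fin.cons a₀ w₀), fun v hv => ?_⟩
    obtain ⟨x, hx, rfl⟩ := Finset.mem_image.1 hv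
    rw [hwx _ x hx]
    have hx' := sg_mem_leaves.1 hx
    dsimp only at hx' ⊢
    set ρ := res (sgB B' q h η α ψ) s (Fin.append z₀ (Fin.cons a₀ w₀)) (sgPlace α (τ j) ψ x) with hρ
    have htop : ∀ l, ρ (Fin.castAdd (b + 1) l) =
        res B' (fun l => s (Fin.castAdd (b + 1) l)) z₀ x.1 l := by
      intro l
      simp only [hρ, res, Pi.sub_apply, sgB_top, Fin.append_left, sgPlace_top]
    have hglue : |ρ (Fin.natAdd k' 0)| ≤ η * (|(x.2.1 : ℝ)| + 1) := by
      simp only [hρ, res, Pi.sub_apply, sgB_glue, Fin.append_right, sgPlace_glue, Fin.cons_zero]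
      push_cast
      have h1 : (a₀ : ℝ) ≤ s (Fin.natAdd k' 0) / η := Int.floor_le _
      have h2 : s (Fin.natAdd k' 0) / η < a₀ + 1 := Int.lt_floor_add_one _
      rw [le_div_iff₀ hη] at h1
      rw [div_lt_iff₀ hη] at h2
      have h3 := mul_le_mul_of_nonneg_left (le_abs_self (x.2.1 : ℝ)) hη.le
      have h4 := mul_le_mul_of_nonneg_left (neg_abs_le (x.2.1 : ℝ)) hη.le
      rw [abs_le]
      constructor <;> nlinarith
    have hblock : ∀ i, |ρ (Fin.natAdd k' i.succ)| ≤ h / q *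
        ((if x.2.2 i then q - 1 - ((τ j + dotz ψ x.1 + x.2.1 • α) i).val + Δ
          else ((τ j + dotz ψ x.1 + x.2.1 • α) i).val + Δ : ℕ) : ℝ) := by
      intro i
      set u := (τ j + dotz ψ x.1 + x.2.1 • α) i with hu
      have h1 : ((u.val : ℕ) : ℤ) = sgN α (τ j) ψ x.1 x.2.1 i % q := by
        rw [hu, ← sgN_cast, ZMod.val_intCast]
      have h2 : (q : ℤ) * (sgN α (τ j) ψ x.1 x.2.1 i / q) + sgN α (τ j) ψ x.1 x.2.1 i % q =
          sgN α (τ j) ψ x.1 x.2.1 i := Int.mul_ediv_add_emod _ _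
      have h3 := hw₀ i
      set f := Int.fract (s (Fin.natAdd k' i.succ) * q / h) with hf
      have h4 : (⌊s (Fin.natAdd k' i.succ) * q / h⌋ : ℝ) + f = s (Fin.natAdd k' i.succ) * q / h :=
        Int.floor_add_fract _
      have h5 : ρ (Fin.natAdd k' i.succ) =
          h / q * ((u.val : ℝ) + (r i % Δ : ℕ) + f - q * (if x.2.2 i then 1 else 0)) := by
        simp only [hρ, res, Pi.sub_apply, sgB_block, Fin.append_right, Fin.append_left,
          sgPlace_glue, sgPlace_top, sgPlace_block, Fin.cons_zero, Fin.cons_succ]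
        rw [← h1] at h2
        set Q := sgN α (τ j) ψ x.1 x.2.1 i / q with hQ
        have h2' : (q : ℝ) * (Q : ℝ) + (u.val : ℝ) = ((τ j i).val : ℝ) +
            (∑ l, ((ψ l i).val : ℝ) * (x.1 l : ℝ) + ((α i).val : ℝ) * (x.2.1 : ℝ)) := by
          have := congrArg (Int.cast (R := ℝ)) h2
          simp only [sgN] at this
          push_cast at this
          exact this
        have h3' : (⌊s (Fin.natAdd k' i.succ) * q / h⌋ : ℝ) +
            (∑ l, ((ψ l i).val : ℝ) * (z₀ l : ℝ) + ((α i).val : ℝ) * (a₀ : ℝ)) -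
            ((r i % Δ : ℕ) : ℝ) - ((τ j i).val : ℝ) = q * (w₀ i : ℝ) := by
          have := congrArg (Int.cast (R := ℝ)) h3
          simp only [hN] at this
          push_cast at this ⊢
          exact this
        have h6 : s (Fin.natAdd k' i.succ) =
            h / q * ((⌊s (Fin.natAdd k' i.succ) * q / h⌋ : ℝ) + f) := by
          rw [h4]; field_simp
        have h7 : ∑ l, ((ψ l i).val : ℝ) * ((z₀ l + x.1 l : ℤ) : ℝ) =
            ∑ l, ((ψ l i).val : ℝ) * (z₀ l : ℝ) + ∑ l, ((ψ l i).val : ℝ) * (x.1 l : ℝ) := by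
          rw [← Finset.sum_add_distrib]
          exact Finset.sum_congr rfl fun l _ => by push_cast; ring
        rw [h7]
        have h8 : h = h / q * q := by field_simp
        have h9 : ((w₀ i + (Q + if x.2.2 i then 1 else 0) : ℤ) : ℝ) =
            (w₀ i : ℝ) + Q + (if x.2.2 i then 1 else 0) := by
          split_ifs <;> push_cast <;> ring
        rw [h9]
        push_cast
        generalize (if x.2.2 i then (1 : ℝ) else 0) = ee
        generalize h / q = c₁ at h6 h8 ⊢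
        linear_combination h6 - ((w₀ i : ℝ) + Q + ee) * h8 + c₁ * h3' - c₁ * h2'
      rw [h5, abs_mul, abs_of_pos (by positivity : 0 < h / q)]
      exact mul_le_mul_of_nonneg_left (sg_block_res hΔ u _ (Nat.mod_lt _ (by omega))
        (Int.fract_nonneg _) (Int.fract_lt_one _) _) (by positivity)
    have hc := hcov x.1 hx'.1
    refine ⟨?_, fun i => ?_⟩
    · rw [sgB_det]
      have h1 : gv 1 ρ = gv 1 (res B' (fun l => s (Fin.castAdd (b + 1) l)) z₀ x.1) *
          (phiv 1 (ρ (Fin.natAdd k' 0)) * ∏ i : Fin b, phiv 1 (ρ (Fin.natAdd k' i.succ))) := by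
        unfold gv
        rw [Fin.prod_univ_add, Fin.prod_univ_succ]
        simp only [htop]
      have h2 : gw η x.2.1 ≤ η * phiv 1 (ρ (Fin.natAdd k' 0)) :=
        mul_le_mul_of_nonneg_left (sg_phiv_anti hglue) hη.le
      have h3 : ∏ i, pb q Δ h ((τ j + dotz ψ x.1 + x.2.1 • α) i) (x.2.2 i) ≤
          ∏ i : Fin b, (h * phiv 1 (ρ (Fin.natAdd k' i.succ))) :=
        Finset.prod_le_prod (fun i _ => sg_pb_nonneg q Δ hh _ _) fun i _ =>
          mul_le_mul_of_nonneg_left (sg_phiv_anti (hblock i)) hh.le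
      rw [Finset.prod_mul_distrib, Finset.prod_const, Finset.card_univ, Fintype.card_fin] at h3
      have h4 := mul_le_mul hc.1 (mul_le_mul h2 h3 (hprod0 _ _)
        (mul_nonneg hη.le (phiv_pos one_pos _).le)) (mul_nonneg (gw_nonneg hη _) (hprod0 _ _))
        ((hD.w_nonneg _ _ hx'.1).trans hc.1)
      rw [h1]
      refine h4.trans (le_of_eq ?_)
      ring
    · push_cast
      induction i using Fin.addCases with
      | left l =>
        rw [htop]
        linarith [hc.2 l]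
      | right r' =>
        refine Fin.cases ?_ (fun i' => ?_) r'
        · have h1 := Finset.mem_Icc.1 hx'.2.1
          have h2 : |(x.2.1 : ℝ)| ≤ L := by
            rw [abs_le]
            exact ⟨by exact_mod_cast h1.1, by exact_mod_cast h1.2⟩
          have h3 : η * (|(x.2.1 : ℝ)| + 1) ≤ η * (L + 1) := by gcongr
          linarith
        · refine (hblock i').trans ?_
          have hu := ZMod.val_lt ((τ j + dotz ψ x.1 + x.2.1 • α) i')
          have h1 : ((if x.2.2 i' then q - 1 - ((τ j + dotz ψ x.1 + x.2.1 • α) i').val + Δ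
              else ((τ j + dotz ψ x.1 + x.2.1 • α) i').val + Δ : ℕ) : ℝ) ≤ ((2 * q : ℕ) : ℝ) := by
            refine Nat.cast_le.2 ?_
            split_ifs <;> omega
          calc _ ≤ h / q * ((2 * q : ℕ) : ℝ) := mul_le_mul_of_nonneg_left h1 (by positivity)
            _ = 2 * h := by push_cast; field_simp
            _ ≤ _ := by linarith

end Crest.Agent.R225U
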