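import Crest.Agent.R225U.Bin

/-!
Row 225 (S0347): tree lemma.
-/

set_option autoImplicit false

open Finset
open Crest.Agent.R153

namespace Crest.Agent.R225U

/-- Tree lemma.  Induction on `k` (generalising `Z`, `g`).  `k = 0`: `Z` is empty or a single
point.  Step: `Bin.exists_first`, `prod_split_gen`, `av_fin_cons`, `dotz_cons`; for fixed `a` and
tail `ψ'`, Jensen (concavity of `x ^ θ`, `0 < θ ≤ 1`) over the first coordinate `ψ₀` and
`av_two_children` give `(I₀ * I₁) ^ θ`; then Cauchy-Schwarz over `(a, ψ')` and the induction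
hypothesis for the two children (with `g z := g (cons c z)`). -/
theorem tree {Ω T : Type} [Fintype Ω] [Nonempty Ω] [Fintype T] [AddCommGroup T] (k : ℕ)
    (Z : Finset (Fin k → ℤ)) (hZ : Bin Z) (g : (Fin k → ℤ) → Ω → T → ℝ)
    (hg : ∀ z a τ, 0 ≤ g z a τ) :
    av (fun a : Ω => av fun ψ : Fin k → T =>
        (av fun τ : T => ∏ z ∈ Z, g z a (τ + dotz ψ z)) ^ ((1 / 2 : ℝ) ^ k)) ≤
      (∏ z ∈ Z, av fun a : Ω => av fun τ : T => g z a τ) ^ ((1 / 2 : ℝ) ^ k) := by
  induction k with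
  | zero =>
    simp only [pow_zero, Real.rpow_one, dotz_zero_dim, add_zero, av_const]
    rcases Z.eq_empty_or_nonempty with h | ⟨z, hz⟩
    · simp [h]
    · have hZ1 : Z = {z} := Finset.eq_singleton_iff_unique_mem.2
        ⟨hz, fun x _ => Subsingleton.elim _ _⟩
      simp [hZ1]
  | succ k ih =>
    obtain ⟨c, hc⟩ := hZ.exists_first
    have hθ0 : (0 : ℝ) < (1 / 2 : ℝ) ^ k := by positivity
    have hθ1 : (1 / 2 : ℝ) ^ k ≤ 1 := pow_le_one₀ (by norm_num) (by norm_num)
    generalize hθ : (1 / 2 : ℝ) ^ k = θ at ih hθ0 hθ1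
    have hpow : (1 / 2 : ℝ) ^ (k + 1) = θ / 2 := by rw [pow_succ, hθ]; ring
    rw [hpow]
    -- the two children
    let I : ℤ → Ω → (Fin k → T) → ℝ := fun d a ψ =>
      av fun τ : T => ∏ z ∈ child Z d, g (Fin.cons d z) a (τ + dotz ψ z)
    have hI : ∀ d a ψ, 0 ≤ I d a ψ := fun d a ψ =>
      av_nonneg fun τ => Finset.prod_nonneg fun z _ => hg _ _ _
    let E : ℤ → ℝ := fun d => ∏ z ∈ child Z d, av fun a : Ω => av fun τ : T => g (Fin.cons d z) a τ
    have hE : ∀ d, 0 ≤ E d := fun d =>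
      Finset.prod_nonneg fun z _ => av_nonneg fun a => av_nonneg fun τ => hg _ _ _
    have hih : ∀ d, av (fun a : Ω => av fun ψ : Fin k → T => I d a ψ ^ θ) ≤ E d ^ θ := fun d =>
      ih (child Z d) (hZ.child d) (fun z => g (Fin.cons d z)) (fun z => hg _)
    have hstep : ∀ (a : Ω), (av fun ψ : Fin (k + 1) → T =>
        (av fun τ : T => ∏ z ∈ Z, g z a (τ + dotz ψ z)) ^ (θ / 2)) ≤
        av fun ψ : Fin k → T => I c a ψ ^ (θ / 2) * I (c + 1) a ψ ^ (θ / 2) := by
      intro a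
      rw [av_fin_cons, av_comm]
      refine av_mono fun ψ => ?_
      have hconc : ConvexOn ℝ (Set.Ici 0) (fun x : ℝ => -(x ^ (θ / 2))) :=
        (Real.concaveOn_rpow (by linarith) (by linarith)).neg
      have hJ := ConvexOn.map_av_le hconc (f := fun b : T =>
        av fun τ : T => ∏ z ∈ Z, g z a (τ + dotz (Fin.cons b ψ : Fin (k + 1) → T) z))
        (fun b => av_nonneg fun τ => Finset.prod_nonneg fun z _ => hg _ _ _)
      rw [av_neg, neg_le_neg_iff] at hJ
      refine hJ.trans (le_of_eq ?_)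
      rw [← Real.mul_rpow (hI _ _ _) (hI _ _ _)]
      congr 1
      simp only [prod_split_gen hc, dotz_cons, ← add_assoc]
      rw [av_two_children c (fun σ₀ σ₁ =>
        (∏ z ∈ child Z c, g (Fin.cons c z) a (σ₀ + dotz ψ z)) *
          ∏ z ∈ child Z (c + 1), g (Fin.cons (c + 1) z) a (σ₁ + dotz ψ z)), ← av_mul_av]
    refine (av_mono hstep).trans ?_
    rw [← av_prod (fun x : Ω × (Fin k → T) => I c x.1 x.2 ^ (θ / 2) * I (c + 1) x.1 x.2 ^ (θ / 2))]
    refine (av_mul_le_sqrt _ _).trans ?_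
    have hsq : ∀ d, (av fun x : Ω × (Fin k → T) => (I d x.1 x.2 ^ (θ / 2)) ^ 2) ≤ E d ^ θ := by
      intro d
      rw [av_prod]
      refine le_trans (le_of_eq ?_) (hih d)
      refine av_congr fun a => av_congr fun ψ => ?_
      rw [← Real.rpow_natCast, ← Real.rpow_mul (hI _ _ _)]
      norm_num
    have hfin : ∀ d, √(av fun x : Ω × (Fin k → T) => (I d x.1 x.2 ^ (θ / 2)) ^ 2) ≤
        E d ^ (θ / 2) := by
      intro d
      refine Real.sqrt_le_iff.2 ⟨Real.rpow_nonneg (hE d) _, (hsq d).trans (le_of_eq ?_)⟩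
      rw [← Real.rpow_natCast, ← Real.rpow_mul (hE _)]
      norm_num
    rw [prod_split_gen hc, Real.mul_rpow (hE c) (hE (c + 1))]
    exact mul_le_mul (hfin c) (hfin (c + 1)) (Real.sqrt_nonneg _) (Real.rpow_nonneg (hE c) _)

end Crest.Agent.R225U
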